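import Crest.Agent.R237.NSDefs

/-! # S0367: algebraic lemmas (bilinearity, naturality, homogeneity) -/

set_option autoImplicit false
set_option linter.unusedSectionVars false

namespace Crest.Agent.R237.NS

open scoped BigOperators

variable {ν ρ : Type} [Fintype ν] [Fintype ρ] [DecidableEq ν] [DecidableEq ρ]
variable {R : Type} [CommRing R] [Algebra ℝ R]
variable {R' : Type} [CommRing R'] [Algebra ℝ R']

/-! ### bilinearity -/

theorem Gam_symm {g : J ν ρ → J ν ρ → ℝ} (hg : ∀ j j', g j j' = g j' j) (M M' : J ν ρ → R) :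
    Gam g M M' = Gam g M' M := by
  unfold Gam
  rw [Finset.sum_comm]
  refine Finset.sum_congr rfl fun j _ => Finset.sum_congr rfl fun j' _ => ?_
  rw [hg j' j]; ring

theorem Gam_lin_left (g : J ν ρ → J ν ρ → ℝ) (a b : R) (M N M' : J ν ρ → R) :
    Gam g (fun j => a * M j + b * N j) M' = a * Gam g M M' + b * Gam g N M' := by
  unfold Gam
  simp only [Finset.mul_sum, ← Finset.sum_add_distrib]
  refine Finset.sum_congr rfl fun j _ => Finset.sum_congr rfl fun j' _ => ?_
  ring

theorem Gam_lin_right (g : J ν ρ → J ν ρ → ℝ) (a b : R) (M N M' : J ν ρ → R) :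
    Gam g M' (fun j => a * M j + b * N j) = a * Gam g M' M + b * Gam g M' N := by
  unfold Gam
  simp only [Finset.mul_sum, ← Finset.sum_add_distrib]
  refine Finset.sum_congr rfl fun j _ => Finset.sum_congr rfl fun j' _ => ?_
  ring

/-- expansion of the quadratic form on a combination of two vectors -/
theorem Gam_sq {g : J ν ρ → J ν ρ → ℝ} (hg : ∀ j j', g j j' = g j' j) (a b : R)
    (M N : J ν ρ → R) :
    Gam g (fun j => a * M j + b * N j) (fun j => a * M j + b * N j)
      = a ^ 2 * Gam g M M + 2 * a * b * Gam g M N + b ^ 2 * Gam g N N := by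
  rw [Gam_lin_left, Gam_lin_right, Gam_lin_right, Gam_symm hg N M]; ring

theorem Gam_sum_sum {α β : Type} [Fintype α] [Fintype β] (g : J ν ρ → J ν ρ → ℝ)
    (c : α → R) (d : β → R) (M : α → J ν ρ → R) (N : β → J ν ρ → R) :
    Gam g (fun j => ∑ a, c a * M a j) (fun j => ∑ b, d b * N b j)
      = ∑ a, ∑ b, c a * d b * Gam g (M a) (N b) := by
  unfold Gam
  simp only [Finset.mul_sum, Finset.sum_mul]
  calc ∑ j, ∑ j', ∑ b, ∑ a, algebraMap ℝ R (g j j') * (c a * M a j) * (d b * N b j')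
      = ∑ j, ∑ b, ∑ a, ∑ j', algebraMap ℝ R (g j j') * (c a * M a j) * (d b * N b j') := by
        refine Finset.sum_congr rfl fun j _ => ?_
        rw [Finset.sum_comm]
        refine Finset.sum_congr rfl fun b _ => ?_
        rw [Finset.sum_comm]
    _ = ∑ b, ∑ a, ∑ j, ∑ j', algebraMap ℝ R (g j j') * (c a * M a j) * (d b * N b j') := by
        rw [Finset.sum_comm]
        refine Finset.sum_congr rfl fun b _ => ?_
        rw [Finset.sum_comm]
    _ = _ := by
        rw [Finset.sum_comm]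
        refine Finset.sum_congr rfl fun a _ => Finset.sum_congr rfl fun b _ =>
          Finset.sum_congr rfl fun j _ => Finset.sum_congr rfl fun j' _ => ?_
        ring

theorem wedge_lin_left (a b : R) (S T : ν → ρ → R) (u : ρ → R) :
    wedge (fun p i => a * S p i + b * T p i) u = fun j => a * wedge S u j + b * wedge T u j := by
  funext j; simp only [wedge]; ring

theorem wedge_sum_left {α : Type} [Fintype α] (c : α → R) (S : α → ν → ρ → R) (u : ρ → R) :
    wedge (fun p i => ∑ a, c a * S a p i) u = fun j => ∑ a, c a * wedge (S a) u j := by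
  funext j
  simp only [wedge, Finset.sum_mul, ← Finset.sum_sub_distrib]
  refine Finset.sum_congr rfl fun a _ => ?_
  ring

theorem wedge_sum_right {α : Type} [Fintype α] (c : α → R) (S : ν → ρ → R) (u : α → ρ → R) :
    wedge S (fun i => ∑ a, c a * u a i) = fun j => ∑ a, c a * wedge S (u a) j := by
  funext j
  simp only [wedge, Finset.mul_sum, ← Finset.sum_sub_distrib]
  refine Finset.sum_congr rfl fun a _ => ?_
  ring

theorem Qf_symm {g : J ν ρ → J ν ρ → ℝ} (hg : ∀ j j', g j j' = g j' j) (S S' : ν → ρ → R) :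
    Qf g S S' = Qf g S' S := by
  unfold Qf
  exact Finset.sum_congr rfl fun i _ => Gam_symm hg _ _

theorem Qf_lin_left (g : J ν ρ → J ν ρ → ℝ) (a b : R) (S T S' : ν → ρ → R) :
    Qf g (fun p i => a * S p i + b * T p i) S' = a * Qf g S S' + b * Qf g T S' := by
  unfold Qf
  simp only [wedge_lin_left, Gam_lin_left, Finset.mul_sum, Finset.sum_add_distrib]

theorem Qf_lin_right (g : J ν ρ → J ν ρ → ℝ) (a b : R) (S T S' : ν → ρ → R) :
    Qf g S' (fun p i => a * S p i + b * T p i) = a * Qf g S' S + b * Qf g S' T := by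
  unfold Qf
  simp only [wedge_lin_left, Gam_lin_right, Finset.mul_sum, Finset.sum_add_distrib]

theorem Qf_sq {g : J ν ρ → J ν ρ → ℝ} (hg : ∀ j j', g j j' = g j' j) (a b : R)
    (S T : ν → ρ → R) :
    Qf g (fun p i => a * S p i + b * T p i) (fun p i => a * S p i + b * T p i)
      = a ^ 2 * Qf g S S + 2 * a * b * Qf g S T + b ^ 2 * Qf g T T := by
  rw [Qf_lin_left, Qf_lin_right, Qf_lin_right, Qf_symm hg T S]; ring

theorem Qf_sum_sum {α β : Type} [Fintype α] [Fintype β] (g : J ν ρ → J ν ρ → ℝ)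
    (c : α → R) (d : β → R) (S : α → ν → ρ → R) (T : β → ν → ρ → R) :
    Qf g (fun p i => ∑ a, c a * S a p i) (fun p i => ∑ b, d b * T b p i)
      = ∑ a, ∑ b, c a * d b * Qf g (S a) (T b) := by
  unfold Qf
  simp only [wedge_sum_left, Gam_sum_sum, Finset.mul_sum]
  rw [Finset.sum_comm]
  refine Finset.sum_congr rfl fun a _ => ?_
  rw [Finset.sum_comm]

theorem sum_single (w : I ν ρ → R) (c : I ν ρ) :
    ∑ a, w a * (Pi.single a (1 : R) : I ν ρ → R) c = w c := by
  simp [Pi.single_apply]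

theorem Yv_eq_sum (κ : ν → R) (k : ρ → R) (S : ν → ρ → R) (w : I ν ρ → R) :
    Yv κ k S w = fun p i => ∑ a, w a * Yv κ k S (Pi.single a 1) p i := by
  funext p i
  simp only [Yv, al, be, mul_add, Finset.sum_add_distrib]
  congr 1
  · congr 1
    · simp only [← mul_assoc, ← Finset.sum_mul, sum_single]
    · simp only [← mul_assoc, ← Finset.sum_mul, sum_single]
  · simp only [mul_left_comm _ (κ p), ← Finset.mul_sum, sum_single]

theorem al_eq_sum (w : I ν ρ → R) : al w = fun i => ∑ a, w a * al (Pi.single a (1 : R)) i := by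
  funext i
  simp only [al, sum_single]

theorem Pw_eq_sum (y : Var ν ρ → R) (w : I ν ρ → R) :
    Pw y w = fun j => ∑ a, w a * Pw y (Pi.single a 1) j := by
  funext j
  unfold Pw
  rw [Yv_eq_sum _ _ _ w, al_eq_sum w, wedge_sum_left, wedge_sum_right]
  simp only [mul_add, Finset.sum_add_distrib, Finset.mul_sum, mul_left_comm (y .t)]

theorem Qf_Yv_eq_sum (g : J ν ρ → J ν ρ → ℝ) (κ : ν → R) (k : ρ → R) (S : ν → ρ → R)
    (w w' : I ν ρ → R) :
    Qf g (Yv κ k S w) (Yv κ k S w')
      = ∑ a, ∑ b, w a * w' b * Qf g (Yv κ k S (Pi.single a 1)) (Yv κ k S (Pi.single b 1)) := by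
  rw [Yv_eq_sum _ _ _ w, Yv_eq_sum _ _ _ w', Qf_sum_sum]

theorem Num_eq_sum (g : J ν ρ → J ν ρ → ℝ) (y : Var ν ρ → R) (w w' : I ν ρ → R) :
    Num g y w w' = ∑ a, ∑ b, w a * w' b * Num g y (Pi.single a 1) (Pi.single b 1) := by
  unfold Num
  rw [Qf_Yv_eq_sum, Pw_eq_sum y w, Pw_eq_sum y w', Gam_sum_sum]
  simp only [Finset.mul_sum, ← Finset.sum_add_distrib]
  refine Finset.sum_congr rfl fun a _ => Finset.sum_congr rfl fun b _ => ?_
  ring

/-- the quadratic form of `Mat` -/
theorem Mat_quad (g : J ν ρ → J ν ρ → ℝ) (y : Var ν ρ → R) (w : I ν ρ → R) :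
    ∑ a, ∑ b, w a * Mat g y a b * w b
      = y .t * Del y * (∑ a, ∑ b, w a * (y (.X a b) + y (.X b a)) * w b) - Num g y w w := by
  rw [Num_eq_sum]
  simp only [Mat, Matrix.of_apply, Finset.mul_sum, ← Finset.sum_sub_distrib]
  refine Finset.sum_congr rfl fun a _ => Finset.sum_congr rfl fun b _ => ?_
  ring

theorem Num_symm {g : J ν ρ → J ν ρ → ℝ} (hg : ∀ j j', g j j' = g j' j) (y : Var ν ρ → R)
    (w w' : I ν ρ → R) : Num g y w w' = Num g y w' w := by
  unfold Num
  rw [Qf_symm hg, Gam_symm hg]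

theorem Mat_symm {g : J ν ρ → J ν ρ → ℝ} (hg : ∀ j j', g j j' = g j' j) (y : Var ν ρ → R)
    (a b : I ν ρ) : Mat g y a b = Mat g y b a := by
  simp only [Mat, Matrix.of_apply]
  rw [Num_symm hg, add_comm]

/-- `Num = Δ Q + A + 2 t C + t² E` -/
theorem Num_expand {g : J ν ρ → J ν ρ → ℝ} (hg : ∀ j j', g j j' = g j' j) (y : Var ν ρ → R)
    (w : I ν ρ → R) :
    Num g y w w = Del y * Qf g (Yv (vka y) (vk y) (vS y) w) (Yv (vka y) (vk y) (vS y) w)
      + (Gam g (wedge (Yv (vka y) (vk y) (vS y) w) (vk y)) (wedge (Yv (vka y) (vk y) (vS y) w) (vk y))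
        + 2 * y .t * Gam g (wedge (Yv (vka y) (vk y) (vS y) w) (vk y)) (wedge (vS y) (al w))
        + y .t ^ 2 * Gam g (wedge (vS y) (al w)) (wedge (vS y) (al w))) := by
  unfold Num
  have : Pw y w = fun j => 1 * wedge (Yv (vka y) (vk y) (vS y) w) (vk y) j
      + y .t * wedge (vS y) (al w) j := by
    funext j; simp [Pw]
  rw [this, Gam_sq hg]; ring

/-! ### naturality -/

theorem map_single (f : R →ₐ[ℝ] R') {α : Type} [DecidableEq α] (a b : α) :
    f ((Pi.single a (1 : R) : α → R) b) = (Pi.single a (1 : R') : α → R') b := by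
  simp only [Pi.single_apply]; split_ifs <;> simp

theorem map_wedge (f : R →ₐ[ℝ] R') (S : ν → ρ → R) (u : ρ → R) (j : J ν ρ) :
    f (wedge S u j) = wedge (fun a i => f (S a i)) (fun i => f (u i)) j := by
  simp [wedge]

theorem map_Gam (f : R →ₐ[ℝ] R') (g : J ν ρ → J ν ρ → ℝ) (M M' : J ν ρ → R) :
    f (Gam g M M') = Gam g (fun j => f (M j)) (fun j => f (M' j)) := by
  simp [Gam, map_sum]

theorem map_Qf (f : R →ₐ[ℝ] R') (g : J ν ρ → J ν ρ → ℝ) (S S' : ν → ρ → R) :
    f (Qf g S S') = Qf g (fun a i => f (S a i)) (fun a i => f (S' a i)) := by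
  simp only [Qf, map_sum, map_Gam, map_wedge, map_single]

theorem map_Yv (f : R →ₐ[ℝ] R') (κ : ν → R) (k : ρ → R) (S : ν → ρ → R) (w : I ν ρ → R)
    (a : ν) (i : ρ) :
    f (Yv κ k S w a i) = Yv (fun a => f (κ a)) (fun i => f (k i)) (fun a i => f (S a i))
      (fun b => f (w b)) a i := by
  simp [Yv, al, be]

theorem map_Del (f : R →ₐ[ℝ] R') (y : Var ν ρ → R) : f (Del y) = Del (fun v => f (y v)) := by
  simp [Del, map_sum]

theorem map_Pw (f : R →ₐ[ℝ] R') (y : Var ν ρ → R) (w : I ν ρ → R) (j : J ν ρ) :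
    f (Pw y w j) = Pw (fun v => f (y v)) (fun b => f (w b)) j := by
  simp only [Pw, map_add, map_mul, map_wedge, map_Yv]
  rfl

theorem map_Num (f : R →ₐ[ℝ] R') (g : J ν ρ → J ν ρ → ℝ) (y : Var ν ρ → R) (w w' : I ν ρ → R) :
    f (Num g y w w') = Num g (fun v => f (y v)) (fun b => f (w b)) (fun b => f (w' b)) := by
  simp only [Num, map_add, map_mul, map_Del, map_Qf, map_Gam, map_Pw, map_Yv]
  rfl

theorem map_Mat (f : R →ₐ[ℝ] R') (g : J ν ρ → J ν ρ → ℝ) (y : Var ν ρ → R) (a b : I ν ρ) :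
    f (Mat g y a b) = Mat g (fun v => f (y v)) a b := by
  simp only [Mat, Matrix.of_apply, map_sub, map_add, map_mul, map_Del, map_Num, map_single]

theorem map_pgen (f : R →ₐ[ℝ] R') (g : J ν ρ → J ν ρ → ℝ) (y : Var ν ρ → R) :
    f (pgen g y) = pgen g (fun v => f (y v)) := by
  simp only [pgen, map_mul, map_Del]
  congr 1
  rw [AlgHom.map_det]
  congr 1
  ext a b
  simp [map_Mat]

theorem map_ugen (f : R →ₐ[ℝ] R') (g : J ν ρ → J ν ρ → ℝ) (ξ : ν → R) (x : ρ → R)
    (v : Var ν ρ) : f (ugen g ξ x v) = ugen g (fun a => f (ξ a)) (fun i => f (x i)) v := by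
  cases v with
  | t => simp [ugen]
  | s => simp [ugen, map_sum]
  | ka a => simp [ugen]
  | k i => simp [ugen]
  | S a i => simp [ugen]
  | X a b =>
    simp only [ugen, map_mul, AlgHom.commutes, map_Qf, map_Yv, map_single, tens]
    rfl

end Crest.Agent.R237.NS
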