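import Crest.Agent.R237.NSConeAux

/-! # S0367: hyperbolicity, the primal map and the dual functionals -/

set_option autoImplicit false
set_option linter.unusedSectionVars false

namespace Crest.Agent.R237.NS

variable {ν ρ : Type} [Fintype ν] [Fintype ρ] [DecidableEq ν] [DecidableEq ρ]

section homog

open MvPolynomial

variable {σ : Type}

theorem hom_single {α : Type} [DecidableEq α] (a b : α) :
    ((Pi.single a 1 : α → MvPolynomial σ ℝ) b).IsHomogeneous 0 := by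
  simp only [Pi.single_apply]
  split_ifs
  · exact isHomogeneous_one _ _
  · exact isHomogeneous_zero _ _ _

theorem hom_wedge {S : ν → ρ → MvPolynomial σ ℝ} {u : ρ → MvPolynomial σ ℝ} {m n : ℕ}
    (hS : ∀ a i, (S a i).IsHomogeneous m) (hu : ∀ i, (u i).IsHomogeneous n) (j : J ν ρ) :
    (wedge S u j).IsHomogeneous (m + n) :=
  ((hS _ _).mul (hu _)).sub ((hS _ _).mul (hu _))

theorem hom_Gam (g : J ν ρ → J ν ρ → ℝ) {M M' : J ν ρ → MvPolynomial σ ℝ} {m n : ℕ}
    (hM : ∀ j, (M j).IsHomogeneous m) (hM' : ∀ j, (M' j).IsHomogeneous n) :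
    (Gam g M M').IsHomogeneous (m + n) := by
  refine IsHomogeneous.sum _ _ _ fun j _ => IsHomogeneous.sum _ _ _ fun j' _ => ?_
  have := ((isHomogeneous_C σ (g j j')).mul (hM j)).mul (hM' j')
  simpa using this

theorem hom_Qf (g : J ν ρ → J ν ρ → ℝ) {S S' : ν → ρ → MvPolynomial σ ℝ} {m n : ℕ}
    (hS : ∀ a i, (S a i).IsHomogeneous m) (hS' : ∀ a i, (S' a i).IsHomogeneous n) :
    (Qf g S S').IsHomogeneous (m + n) :=
  IsHomogeneous.sum _ _ _ fun i _ =>
    hom_Gam g (hom_wedge hS (hom_single i)) (hom_wedge hS' (hom_single i))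

theorem hom_Yv {y : Var ν ρ → MvPolynomial σ ℝ} (hy : ∀ v, (y v).IsHomogeneous 1)
    {w : I ν ρ → MvPolynomial σ ℝ} (hw : ∀ a, (w a).IsHomogeneous 0) (a : ν) (i : ρ) :
    (Yv (vka y) (vk y) (vS y) w a i).IsHomogeneous 1 :=
  (((hw _).mul (hy _)).add ((hw _).mul (hy _))).add ((hy _).mul (hw _))

theorem hom_Del {y : Var ν ρ → MvPolynomial σ ℝ} (hy : ∀ v, (y v).IsHomogeneous 1) :
    (Del y).IsHomogeneous 2 :=
  ((hy _).mul (hy _)).sub (IsHomogeneous.sum _ _ _ fun _ _ => (hy _).pow 2)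

theorem hom_Pw {y : Var ν ρ → MvPolynomial σ ℝ} (hy : ∀ v, (y v).IsHomogeneous 1)
    {w : I ν ρ → MvPolynomial σ ℝ} (hw : ∀ a, (w a).IsHomogeneous 0) (j : J ν ρ) :
    (Pw y w j).IsHomogeneous 2 :=
  (hom_wedge (hom_Yv hy hw) (fun _ => hy _) j).add
    ((hy _).mul (hom_wedge (S := vS y) (u := al w) (fun _ _ => hy _) (fun _ => hw _) j))

theorem hom_Mat (g : J ν ρ → J ν ρ → ℝ) {y : Var ν ρ → MvPolynomial σ ℝ}
    (hy : ∀ v, (y v).IsHomogeneous 1) (a b : I ν ρ) : (Mat g y a b).IsHomogeneous 4 :=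
  ((((hy _).mul (hom_Del hy)).mul ((hy _).add (hy _)))).sub
    (((hom_Del hy).mul (hom_Qf g (hom_Yv hy (hom_single a)) (hom_Yv hy (hom_single b)))).add
      (hom_Gam g (hom_Pw hy (hom_single a)) (hom_Pw hy (hom_single b))))

end homog

theorem pgen_homog (g : J ν ρ → J ν ρ → ℝ) {σ : Type} (f : Var ν ρ → σ) :
    (pgen g (fun v => (MvPolynomial.X (f v) : MvPolynomial σ ℝ))).IsHomogeneous
      (3 + 4 * Fintype.card (I ν ρ)) := by
  have hy : ∀ v : Var ν ρ, (MvPolynomial.X (f v) : MvPolynomial σ ℝ).IsHomogeneous 1 :=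
    fun v => MvPolynomial.isHomogeneous_X _ _
  refine ((hy _).mul (hom_Del hy)).mul ?_
  rw [Matrix.det_apply']
  refine MvPolynomial.IsHomogeneous.sum _ _ _ fun π _ => ?_
  have h1 := MvPolynomial.IsHomogeneous.prod Finset.univ
    (fun i => Mat g (fun v => (MvPolynomial.X (f v) : MvPolynomial σ ℝ)) (π i) i) (fun _ => 4)
    (fun i _ => hom_Mat g hy _ _)
  have h2 : (((Equiv.Perm.sign π : ℤˣ) : ℤ) : MvPolynomial σ ℝ).IsHomogeneous 0 := by
    have := MvPolynomial.isHomogeneous_C σ ((((Equiv.Perm.sign π : ℤˣ) : ℤ) : ℝ))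
    simpa using this
  have := h2.mul h1
  simpa [mul_comm] using this

theorem pgen_smul (g : J ν ρ → J ν ρ → ℝ) (c : ℝ) (y : Var ν ρ → ℝ) :
    pgen g (fun v => c * y v) = c ^ (3 + 4 * Fintype.card (I ν ρ)) * pgen g y := by
  have hev : ∀ y : Var ν ρ → ℝ, MvPolynomial.eval y
      (pgen g (fun v => (MvPolynomial.X (id v) : MvPolynomial (Var ν ρ) ℝ))) = pgen g y := by
    intro y
    have := map_pgen (MvPolynomial.aeval y : MvPolynomial (Var ν ρ) ℝ →ₐ[ℝ] ℝ) g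
      (fun v => MvPolynomial.X (id v))
    simpa using this
  rw [← hev, ← hev y]
  exact eval_smul_homog (pgen_homog g id) c y

theorem Num_egen (g : J ν ρ → J ν ρ → ℝ) (w w' : I ν ρ → ℝ) : Num g egen w w' = 0 := by
  simp [Num, Qf, Gam, Pw, wedge, Yv, vka, vk, vS, egen]

theorem Del_egen : Del (egen : Var ν ρ → ℝ) = 1 := by simp [Del, egen]

theorem Mat_egen (g : J ν ρ → J ν ρ → ℝ) : Mat g egen = (2 : ℝ) • (1 : Matrix (I ν ρ) (I ν ρ) ℝ) := by
  ext a b
  simp only [Mat, Matrix.of_apply, Num_egen, Del_egen, egen, Matrix.smul_apply, Matrix.one_apply]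
  by_cases h : a = b
  · subst h; norm_num
  · simp [h, Ne.symm h]

theorem pgen_egen_pos (g : J ν ρ → J ν ρ → ℝ) : 0 < pgen g (egen : Var ν ρ → ℝ) := by
  simp only [pgen, Mat_egen, Del_egen, Matrix.det_smul, Matrix.det_one, egen]
  positivity

/-! ### inequalities for `Γ` -/

theorem Good.Qf_nonneg {g : J ν ρ → J ν ρ → ℝ} (hg : Good g) (S : ν → ρ → ℝ) : 0 ≤ Qf g S S :=
  Finset.sum_nonneg fun _ _ => hg.nonneg _ _

theorem wedge_eq_sum (S : ν → ρ → ℝ) (u : ρ → ℝ) :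
    wedge S u = fun j => ∑ i, u i * wedge S (Pi.single i 1) j := by
  rw [← wedge_sum_right]
  congr 1
  funext i
  simp [Pi.single_apply]

theorem Good.le_Qf {g : J ν ρ → J ν ρ → ℝ} (hg : Good g) (Y : ν → ρ → ℝ) (k : ρ → ℝ) :
    Gam g (wedge Y k) (wedge Y k) ≤ (∑ i, k i ^ 2) * Qf g Y Y := by
  set b : ρ → ρ → ℝ := fun i j => Gam g (wedge Y (Pi.single i 1)) (wedge Y (Pi.single j 1)) with hb
  have h1 : Gam g (wedge Y k) (wedge Y k) = ∑ i, ∑ j, k i * k j * b i j := by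
    rw [wedge_eq_sum Y k, Gam_sum_sum]
  have h2 : ∀ i j, 0 ≤ k i ^ 2 * b j j + k j ^ 2 * b i i - 2 * (k i * k j * b i j) := by
    intro i j
    have := hg.nonneg Y (fun l => k i * (Pi.single j (1 : ℝ) : ρ → ℝ) l
      + (-k j) * (Pi.single i (1 : ℝ) : ρ → ℝ) l)
    have e : wedge Y (fun l => k i * (Pi.single j (1 : ℝ) : ρ → ℝ) l
        + (-k j) * (Pi.single i (1 : ℝ) : ρ → ℝ) l)
        = fun l => k i * wedge Y (Pi.single j 1) l + (-k j) * wedge Y (Pi.single i 1) l := by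
      funext l; simp only [wedge]; ring
    rw [e, Gam_sq hg.symm, Gam_symm hg.symm (wedge Y (Pi.single j 1)) (wedge Y (Pi.single i 1))]
      at this
    simp only [hb]
    linarith
  have h3 : 0 ≤ ∑ i, ∑ j, (k i ^ 2 * b j j + k j ^ 2 * b i i - 2 * (k i * k j * b i j)) :=
    Finset.sum_nonneg fun i _ => Finset.sum_nonneg fun j _ => h2 i j
  have h4 : ∑ i, ∑ j, k i ^ 2 * b j j = (∑ i, k i ^ 2) * Qf g Y Y := by
    rw [Finset.sum_mul]
    exact Finset.sum_congr rfl fun i _ => by rw [← Finset.mul_sum]; rfl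
  have h5 : ∑ i, ∑ j, k j ^ 2 * b i i = (∑ i, k i ^ 2) * Qf g Y Y := by
    rw [Finset.sum_comm, h4]
  simp only [Finset.sum_sub_distrib, Finset.sum_add_distrib, ← Finset.mul_sum] at h3
  simp only [← Finset.mul_sum] at h4
  rw [h4, h5, ← h1] at h3
  linarith

theorem Good.psd2 {g : J ν ρ → J ν ρ → ℝ} (hg : Good g) (κ : ν → ℝ) (k : ρ → ℝ) (S : ν → ρ → ℝ)
    (w : I ν ρ → ℝ) (p q : ℝ) :
    0 ≤ p ^ 2 * Gam g (wedge (Yv κ k S w) k) (wedge (Yv κ k S w) k)
      + 2 * p * q * Gam g (wedge (Yv κ k S w) k) (wedge S (al w))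
      + q ^ 2 * Gam g (wedge S (al w)) (wedge S (al w)) := by
  by_cases hq : q = 0
  · subst hq
    have := hg.nonneg (Yv κ k S w) k
    simp only [mul_zero, zero_mul, add_zero, ne_eq, OfNat.ofNat_ne_zero, not_false_eq_true,
      zero_pow]
    positivity
  · rw [← Gam_sq hg.symm]
    have e : (fun j => p * wedge (Yv κ k S w) k j + q * wedge S (al w) j)
        = wedge (fun a i => S a i - p / q * (κ a * k i)) (fun i => p * w none * k i + q * al w i) := by
      funext j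
      simp only [wedge, Yv]
      field_simp
      ring
    rw [e]
    exact hg.nonneg _ _

/-! ### hyperbolicity -/

theorem pgen_ne_zero {g : J ν ρ → J ν ρ → ℝ} (hg : Good g) (x : Var ν ρ → ℝ) (z : ℂ)
    (hz : z.im ≠ 0) : pgen g (fun v => z * (egen v : ℂ) - (x v : ℂ)) ≠ 0 := by
  set y : Var ν ρ → ℂ := fun v => z * (egen v : ℂ) - (x v : ℂ) with hy
  set κ : ν → ℝ := fun a => -x (.ka a)
  set k : ρ → ℝ := fun i => -x (.k i)
  set S : ν → ρ → ℝ := fun a i => -x (.S a i)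
  have hκ : vka y = fun a => Complex.ofRealAm (κ a) := by funext a; simp [vka, hy, egen, κ]
  have hk : vk y = fun i => Complex.ofRealAm (k i) := by funext a; simp [vk, hy, egen, k]
  have hS : vS y = fun a i => Complex.ofRealAm (S a i) := by funext a i; simp [vS, hy, egen, S]
  have ht : (y .t).im = z.im := by simp [hy, egen]
  have hs : (y .s).im = z.im := by simp [hy, egen]
  have hr : 0 ≤ ∑ i, k i ^ 2 := by positivity
  have hD : Del y = y .t * y .s - ((∑ i, k i ^ 2 : ℝ) : ℂ) := by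
    simp [Del, hy, egen, k]
  have ht0 : y .t ≠ 0 := by
    intro h; rw [h] at ht; exact hz (by simpa using ht.symm)
  have hD0 : Del y ≠ 0 := by
    rw [hD]; exact del_ne_zero hr (ht ▸ hz) (hs.trans ht.symm)
  refine mul_ne_zero (mul_ne_zero ht0 hD0) ?_
  refine det_ne_zero_of_im _ (Mat_symm hg.symm y) ((z.im : ℂ) / (y .t * Del y)) fun w hw => ?_
  have h1 := Mat_quad g y (fun a => (w a : ℂ))
  rw [h1, Num_expand hg.symm, hκ, hk, hS]
  have hw' : (fun a => (w a : ℂ)) = fun a => Complex.ofRealAm (w a) := rfl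
  have hal : al (fun a => (w a : ℂ)) = fun i => Complex.ofRealAm (al w i) := rfl
  have hY : Yv (fun a => Complex.ofRealAm (κ a)) (fun i => Complex.ofRealAm (k i))
      (fun a i => Complex.ofRealAm (S a i)) (fun a => (w a : ℂ))
      = fun a i => Complex.ofRealAm (Yv κ k S w a i) := by
    funext a i; rw [map_Yv]; rfl
  have hw1 : ∀ (T : ν → ρ → ℝ) (u : ρ → ℝ), wedge (fun a i => Complex.ofRealAm (T a i))
      (fun i => Complex.ofRealAm (u i)) = fun j => Complex.ofRealAm (wedge T u j) := by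
    intro T u; funext j; rw [map_wedge]
  rw [hY, hal, hw1, hw1, ← map_Qf, ← map_Gam, ← map_Gam, ← map_Gam]
  simp only [Complex.ofRealAm_coe]
  have h2 := scalar_im (t := y .t) (s := y .s) (ht ▸ hz) (hs.trans ht.symm) hr
    (hg.Qf_nonneg (Yv κ k S w)) (hg.le_Qf (Yv κ k S w) k) (hg.psd2 κ k S w)
  rw [← hD, ht] at h2
  have h3 : (∑ a, ∑ b, (w a : ℂ) * (y (.X a b) + y (.X b a)) * (w b : ℂ)).im
      = 2 * z.im * ∑ a, w a ^ 2 := by
    simp only [Complex.im_sum, Finset.mul_sum]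
    refine Finset.sum_congr rfl fun a _ => ?_
    rw [Finset.sum_eq_single a]
    · simp [hy, egen]; ring
    · intro b _ hb
      simp [hy, egen, hb, Ne.symm hb]
    · simp
  have h4 : 0 < ∑ a, w a ^ 2 := by
    obtain ⟨a, ha⟩ := Function.ne_iff.1 hw
    exact Finset.sum_pos' (fun _ _ => sq_nonneg _) ⟨a, Finset.mem_univ _, sq_pos_of_ne_zero ha⟩
  have e : ∀ A B : ℂ, (z.im : ℂ) / (y .t * Del y) * (y .t * Del y * A - B)
      = (z.im : ℂ) * A - (z.im : ℂ) * (B / (y .t * Del y)) := by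
    intro A B; field_simp
  rw [e, Complex.sub_im, Complex.im_ofReal_mul, Complex.im_ofReal_mul, h3]
  have : 0 < z.im * (2 * z.im * ∑ a, w a ^ 2) := by
    have : 0 < z.im ^ 2 := by positivity
    nlinarith
  linarith

/-- the closed hyperbolicity cone -/
def Kc (g : J ν ρ → J ν ρ → ℝ) : Set (Var ν ρ → ℝ) :=
  {x | ∀ t : ℝ, pgen g (fun v => t * egen v - x v) = 0 → 0 ≤ t}

theorem mem_Kc_iff (g : J ν ρ → J ν ρ → ℝ) (x : Var ν ρ → ℝ) :
    x ∈ Kc g ↔ ∀ τ : ℝ, 0 < τ → pgen g (fun v => x v + τ * egen v) ≠ 0 := by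
  have key : ∀ τ : ℝ, pgen g (fun v => (-τ) * egen v - x v)
      = (-1) ^ (3 + 4 * Fintype.card (I ν ρ)) * pgen g (fun v => x v + τ * egen v) := by
    intro τ
    rw [← pgen_smul]
    congr 1; funext v; ring
  constructor
  · intro h τ hτ h0
    have := h (-τ) (by rw [key, h0, mul_zero])
    linarith
  · intro h t ht
    by_contra hneg
    refine h (-t) (by linarith) ?_
    have := key (-t)
    rw [neg_neg, ht] at this
    exact (mul_eq_zero.1 this.symm).resolve_left (pow_ne_zero _ (by norm_num))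

theorem quad_X_ugen {g : J ν ρ → J ν ρ → ℝ} (hg : Good g) (ξ : ν → ℝ) (x : ρ → ℝ)
    (w : I ν ρ → ℝ) :
    ∑ a, ∑ b, w a * (ugen g ξ x (.X a b) + ugen g ξ x (.X b a)) * w b
      = Qf g (Yv ξ x (tens ξ x) w) (Yv ξ x (tens ξ x) w) := by
  rw [Qf_Yv_eq_sum]
  refine Finset.sum_congr rfl fun a _ => Finset.sum_congr rfl fun b _ => ?_
  simp only [ugen, Algebra.algebraMap_self, RingHom.id_apply]
  rw [Qf_symm hg.symm (Yv ξ x (tens ξ x) (Pi.single b 1))]
  ring

theorem ugen_mem {g : J ν ρ → J ν ρ → ℝ} (hg : Good g) (ξ : ν → ℝ) (x : ρ → ℝ) :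
    ugen g ξ x ∈ Kc g := by
  rw [mem_Kc_iff]
  intro τ hτ
  set y : Var ν ρ → ℝ := fun v => ugen g ξ x v + τ * egen v with hy
  have hr : 0 ≤ ∑ i, x i ^ 2 := by positivity
  have ht : y .t = 1 + τ := by simp [hy, ugen, egen]
  have hD : Del y = τ * (1 + τ + ∑ i, x i ^ 2) := by
    simp only [Del, hy, ugen, egen]; simp; ring
  have hκ : vka y = ξ := by funext a; simp [vka, hy, ugen, egen]
  have hk : vk y = x := by funext a; simp [vk, hy, ugen, egen]
  have hS : vS y = tens ξ x := by funext a i; simp [vS, hy, ugen, egen, tens]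
  refine mul_ne_zero (by rw [ht, hD]; positivity) (Matrix.PosDef.det_pos ?_).ne'
  refine Matrix.PosDef.of_dotProduct_mulVec_pos ?_ fun w hw => ?_
  · ext a b; simp [Mat_symm hg.symm y a b]
  rw [quad_eq, Mat_quad]
  have h1 : ∑ a, ∑ b, w a * (y (.X a b) + y (.X b a)) * w b
      = Qf g (Yv ξ x (tens ξ x) w) (Yv ξ x (tens ξ x) w) + 2 * τ * ∑ a, w a ^ 2 := by
    rw [← quad_X_ugen hg, Finset.mul_sum, ← Finset.sum_add_distrib]
    refine Finset.sum_congr rfl fun a _ => ?_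
    have : 2 * τ * w a ^ 2 = ∑ b, w a * (τ * egen (.X a b : Var ν ρ) + τ * egen (.X b a : Var ν ρ)) * w b := by
      rw [Finset.sum_eq_single a]
      · simp [egen]; ring
      · intro b _ hb
        simp [egen, hb, Ne.symm hb]
      · simp
    rw [this, ← Finset.sum_add_distrib]
    refine Finset.sum_congr rfl fun b _ => ?_
    simp only [hy]; ring
  have h2 : Pw y w = fun j => (-τ) * wedge (Yv ξ x (tens ξ x) w) x j := by
    funext j
    simp only [Pw, hκ, hk, hS, ht, wedge, Yv, tens]; ring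
  have h3 : Gam g (Pw y w) (Pw y w)
      = τ ^ 2 * Gam g (wedge (Yv ξ x (tens ξ x) w) x) (wedge (Yv ξ x (tens ξ x) w) x) := by
    have := Gam_sq hg.symm (-τ) 0 (wedge (Yv ξ x (tens ξ x) w) x) (wedge (Yv ξ x (tens ξ x) w) x)
    simp only [zero_mul, add_zero] at this
    rw [h2, this]; ring
  have h4 : 0 < ∑ a, w a ^ 2 := by
    obtain ⟨a, ha⟩ := Function.ne_iff.1 hw
    exact Finset.sum_pos' (fun _ _ => sq_nonneg _) ⟨a, Finset.mem_univ _, sq_pos_of_ne_zero ha⟩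
  have h5 := hg.le_Qf (Yv ξ x (tens ξ x) w) x
  have h6 := hg.Qf_nonneg (Yv ξ x (tens ξ x) w)
  rw [h1, Num, h3, hκ, hk, hS, ht, hD]
  set Q := Qf g (Yv ξ x (tens ξ x) w) (Yv ξ x (tens ξ x) w)
  set A := Gam g (wedge (Yv ξ x (tens ξ x) w) x) (wedge (Yv ξ x (tens ξ x) w) x)
  set r := ∑ i, x i ^ 2
  set n := ∑ a, w a ^ 2
  have e : (1 + τ) * (τ * (1 + τ + r)) * (Q + 2 * τ * n) - (τ * (1 + τ + r) * Q + τ ^ 2 * A)
      = τ ^ 2 * ((1 + τ) * Q + (r * Q - A)) + (1 + τ) * (τ * (1 + τ + r)) * (2 * τ * n) := by ring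
  rw [e]
  have : 0 ≤ r * Q - A := by linarith
  positivity

theorem ell_lin (g : J ν ρ → J ν ρ → ℝ) (ξ₀ : ν → ℝ) (x₀ α : ρ → ℝ) (z : ν → ρ → ℝ)
    (a b : ℝ) (y y' : Var ν ρ → ℝ) :
    ell g ξ₀ x₀ α z (fun v => a * y v + b * y' v)
      = a * ell g ξ₀ x₀ α z y + b * ell g ξ₀ x₀ α z y' := by
  have h1 : St ξ₀ x₀ (fun v => a * y v + b * y' v)
      = fun p i => a * St ξ₀ x₀ y p i + b * St ξ₀ x₀ y' p i := by
    funext p i; simp only [St]; ring
  have h2 : sigt x₀ (fun v : Var ν ρ => a * y v + b * y' v) = a * sigt x₀ y + b * sigt x₀ y' := by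
    have : ∑ i, x₀ i * (a * y (.k i) + b * y' (.k i))
        = a * ∑ i, x₀ i * y (.k i) + b * ∑ i, x₀ i * y' (.k i) := by
      simp only [Finset.mul_sum, ← Finset.sum_add_distrib]
      exact Finset.sum_congr rfl fun i _ => by ring
    simp only [sigt, this]; ring
  have h3 : (fun p i => St ξ₀ x₀ (fun v => a * y v + b * y' v) p i
      + (a * y (.ka p) + b * y' (.ka p) - (a * y .t + b * y' .t) * ξ₀ p) * α i)
      = fun p i => a * (St ξ₀ x₀ y p i + (y (.ka p) - y .t * ξ₀ p) * α i)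
        + b * (St ξ₀ x₀ y' p i + (y' (.ka p) - y' .t * ξ₀ p) * α i) := by
    funext p i; simp only [St]; ring
  have h4 : ∑ c, ∑ d, wc ξ₀ x₀ α c * (a * y (.X c d) + b * y' (.X c d)
        + (a * y (.X d c) + b * y' (.X d c))) * wc ξ₀ x₀ α d
      = a * (∑ c, ∑ d, wc ξ₀ x₀ α c * (y (.X c d) + y (.X d c)) * wc ξ₀ x₀ α d)
        + b * (∑ c, ∑ d, wc ξ₀ x₀ α c * (y' (.X c d) + y' (.X d c)) * wc ξ₀ x₀ α d) := by
    simp only [Finset.mul_sum, ← Finset.sum_add_distrib]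
    exact Finset.sum_congr rfl fun c _ => Finset.sum_congr rfl fun d _ => by ring
  unfold ell
  rw [h3, h4, h2, h1, wedge_lin_left, Qf_lin_left, Gam_lin_left]
  ring

/-- the dual functional is nonnegative on the open cone -/
theorem ell_nonneg_open {g : J ν ρ → J ν ρ → ℝ} (hg : Good g) (ξ₀ : ν → ℝ) (x₀ α : ρ → ℝ)
    (z : ν → ρ → ℝ) (y : Var ν ρ → ℝ) (ht : 0 < y .t) (hD : 0 < Del y)
    (hM : 0 ≤ ∑ a, ∑ b, wc ξ₀ x₀ α a * Mat g y a b * wc ξ₀ x₀ α b) : 0 ≤ ell g ξ₀ x₀ α z y := by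
  set κ : ν → ℝ := fun a => y (.ka a) - y .t * ξ₀ a with hκ
  set k : ρ → ℝ := fun i => y (.k i) - y .t * x₀ i with hk
  set S := St ξ₀ x₀ y with hS
  set w : I ν ρ → ℝ := wc 0 0 α with hw
  have hal : al w = α := by funext i; simp [al, hw, wc]
  have hY0 : Yv κ k S w = fun a i => S a i + (y (.ka a) - y .t * ξ₀ a) * α i := by
    funext a i; simp [Yv, hw, wc, al, be, hκ]
  have hY : Yv (vka y) (vk y) (vS y) (wc ξ₀ x₀ α)
      = fun a i => 1 * Yv κ k S w a i + y .t * tens ξ₀ (α - x₀) a i := by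
    rw [hY0]
    funext a i
    simp only [Yv, wc, al, be, vka, vk, vS, hS, St, tens, Pi.sub_apply]; ring
  have hP : Pw y (wc ξ₀ x₀ α)
      = fun j => 1 * wedge (Yv κ k S w) k j + y .t * wedge S (al w) j := by
    funext j
    simp only [Pw]
    rw [hY, hal, hY0]
    simp only [wedge, wc, al, vk, vS, hS, St, tens, Pi.sub_apply, hk]; ring
  have hDel : Del y = y .t * sigt x₀ y - ∑ i, k i ^ 2 := by
    have : ∑ i, k i ^ 2 = ∑ i, y (.k i) ^ 2 - 2 * y .t * ∑ i, x₀ i * y (.k i)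
        + y .t ^ 2 * ∑ i, x₀ i ^ 2 := by
      simp only [Finset.mul_sum, ← Finset.sum_add_distrib, ← Finset.sum_sub_distrib, hk]
      exact Finset.sum_congr rfl fun i _ => by ring
    rw [this]; simp only [Del, sigt]; ring
  have hr : 0 ≤ ∑ i, k i ^ 2 := by positivity
  have h1 := scalar_real ht (hDel ▸ hD) hr (hg.Qf_nonneg (Yv κ k S w)) (hg.le_Qf (Yv κ k S w) k)
    (hg.psd2 κ k S w)
  rw [Mat_quad, Num, hY, hP, Qf_sq hg.symm, Gam_sq hg.symm] at hM
  have hs : 0 < sigt x₀ y := by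
    by_contra h
    push Not at h
    nlinarith
  have h2 := hg.nonneg (fun a i => 1 * S a i + (-sigt x₀ y) * z a i) α
  rw [wedge_lin_left, Gam_sq hg.symm] at h2
  rw [← hDel, hal] at h1
  rw [hal] at hM
  unfold ell
  rw [← hS, ← hY0]
  set X := ∑ a, ∑ b, wc ξ₀ x₀ α a * (y (.X a b) + y (.X b a)) * wc ξ₀ x₀ α b
  set Q := Qf g (Yv κ k S w) (Yv κ k S w)
  set Q1 := Qf g (Yv κ k S w) (tens ξ₀ (α - x₀))
  set Q2 := Qf g (tens ξ₀ (α - x₀)) (tens ξ₀ (α - x₀))
  set A := Gam g (wedge (Yv κ k S w) k) (wedge (Yv κ k S w) k)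
  set C := Gam g (wedge (Yv κ k S w) k) (wedge S α)
  set E := Gam g (wedge S α) (wedge S α)
  set F := Gam g (wedge S α) (wedge z α)
  set π := Gam g (wedge z α) (wedge z α)
  set s := sigt x₀ y
  set t := y .t
  set D := Del y
  have h3 : 0 ≤ s * (t * D) * (X - 2 * Q1 - t * Q2 - 2 * F + s * π) := by
    have e : s * (t * D) * (X - 2 * Q1 - t * Q2 - 2 * F + s * π)
        = s * (t * D * X - (D * (1 ^ 2 * Q + 2 * 1 * t * Q1 + t ^ 2 * Q2)
            + (1 ^ 2 * A + 2 * 1 * t * C + t ^ 2 * E)))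
          + (s * (D * Q + (A + 2 * t * C + t ^ 2 * E)) - t * D * E)
          + t * D * (1 ^ 2 * E + 2 * 1 * -s * F + (-s) ^ 2 * π) := by ring
    rw [e]
    have := sub_nonneg.2 h1
    positivity
  exact (mul_nonneg_iff_of_pos_left (by positivity)).1 h3

theorem ell_nonneg {g : J ν ρ → J ν ρ → ℝ} (hg : Good g) (ξ₀ : ν → ℝ) (x₀ α : ρ → ℝ)
    (z : ν → ρ → ℝ) (y : Var ν ρ → ℝ) (hy : y ∈ Kc g) : 0 ≤ ell g ξ₀ x₀ α z y := by
  rw [mem_Kc_iff] at hy
  set Y : ℝ → Var ν ρ → ℝ := fun e v => 1 * egen v + e * y v with hY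
  have hY0 : Y 0 = egen := by funext v; simp [hY]
  have hne : ∀ e, 0 ≤ e → pgen g (Y e) ≠ 0 := by
    intro e he
    rcases he.eq_or_lt with h | h
    · rw [← h, hY0]; exact (pgen_egen_pos g).ne'
    · have : Y e = fun v => e * (y v + e⁻¹ * egen v) := by
        funext v; simp only [hY]; field_simp; ring
      rw [this, pgen_smul]
      exact mul_ne_zero (pow_ne_zero _ h.ne') (hy _ (inv_pos.2 h))
  have hc : ∀ v, Continuous fun e => Y e v := fun v => by simp only [hY]; fun_prop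
  have hcD : Continuous fun e => Del (Y e) := by unfold Del; fun_prop
  have hcM : ∀ a b, Continuous fun e => Mat g (Y e) a b := by
    intro a b
    simp only [Mat, Matrix.of_apply]
    unfold Num Qf Gam Pw wedge Yv vka vk vS
    fun_prop
  have hpos : ∀ e, 0 ≤ e → 0 ≤ ell g ξ₀ x₀ α z (Y e) := by
    intro e he
    refine ell_nonneg_open hg _ _ _ _ _ ?_ ?_ ?_
    · refine pos_of_path (hc .t) (by simp [hY0, egen]) (fun e he h => hne e he ?_) he
      simp only [pgen]; rw [h]; simp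
    · refine pos_of_path hcD (by simp [hY0, Del_egen]) (fun e he h => hne e he ?_) he
      simp only [pgen]; rw [h]; simp
    · refine quad_nonneg_of_path (fun e => Mat g (Y e)) hcM (fun e => Mat_symm hg.symm _)
        (fun e he h => hne e he ?_) (fun w hw => ?_) he _
      · simp only [pgen]; rw [h]; simp
      · rw [hY0, Mat_egen]
        have : ∑ a, ∑ b, w a * ((2 : ℝ) • (1 : Matrix (I ν ρ) (I ν ρ) ℝ)) a b * w b
            = 2 * ∑ a, w a ^ 2 := by
          rw [Finset.mul_sum]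
          refine Finset.sum_congr rfl fun a _ => ?_
          rw [Finset.sum_eq_single a]
          · simp; ring
          · intro b _ hb
            simp [Ne.symm hb]
          · simp
        rw [this]
        obtain ⟨a, ha⟩ := Function.ne_iff.1 hw
        have : 0 < ∑ a, w a ^ 2 :=
          Finset.sum_pos' (fun _ _ => sq_nonneg _) ⟨a, Finset.mem_univ _, sq_pos_of_ne_zero ha⟩
        positivity
  by_contra hneg
  push Not at hneg
  have h1 := hpos ((|ell g ξ₀ x₀ α z egen| + 1) / (-ell g ξ₀ x₀ α z y))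
    (div_nonneg (by positivity) (by linarith))
  simp only [hY] at h1
  rw [ell_lin] at h1
  have h2 : (|ell g ξ₀ x₀ α z egen| + 1) / (-ell g ξ₀ x₀ α z y) * ell g ξ₀ x₀ α z y
      = -(|ell g ξ₀ x₀ α z egen| + 1) := by
    field_simp [hneg.ne]
  rw [h2] at h1
  linarith [le_abs_self (ell g ξ₀ x₀ α z egen)]

theorem ell_ugen {g : J ν ρ → J ν ρ → ℝ} (hg : Good g) (ξ₀ ξ : ν → ℝ) (x₀ x α : ρ → ℝ)
    (z : ν → ρ → ℝ) :
    ell g ξ₀ x₀ α z (ugen g (ξ₀ + ξ) (x₀ + x)) = phi g ξ x + gam g α ξ x + HH g α z ξ x := by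
  have h1 : St ξ₀ x₀ (ugen g (ξ₀ + ξ) (x₀ + x)) = tens ξ x := by
    funext a i; simp only [St, ugen, tens, Pi.add_apply]; ring
  have h2 : sigt x₀ (ugen g (ξ₀ + ξ) (x₀ + x)) = ∑ i, x i ^ 2 := by
    simp only [sigt, ugen, Pi.add_apply, one_mul, Finset.mul_sum, ← Finset.sum_add_distrib,
      ← Finset.sum_sub_distrib]
    exact Finset.sum_congr rfl fun i _ => by ring
  have h3 : (fun a i => tens ξ x a i + (ugen g (ξ₀ + ξ) (x₀ + x) (.ka a)
      - ugen g (ξ₀ + ξ) (x₀ + x) .t * ξ₀ a) * α i)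
      = fun a i => 1 * tens ξ x a i + 1 * tens ξ α a i := by
    funext a i; simp only [ugen, tens, Pi.add_apply]; ring
  have h4 : Yv (ξ₀ + ξ) (x₀ + x) (tens (ξ₀ + ξ) (x₀ + x)) (wc ξ₀ x₀ α)
      = fun a i => 1 * (1 * tens ξ x a i + 1 * tens ξ α a i) + 1 * tens ξ₀ (α - x₀) a i := by
    funext a i; simp only [Yv, wc, al, be, tens, Pi.add_apply, Pi.sub_apply]; ring
  unfold ell
  rw [quad_X_ugen hg, h1, h2, h3, h4, Qf_sq hg.symm, Qf_sq hg.symm]
  simp only [phi, gam, HH, ugen]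
  ring

/-- the dual functional as a linear map in coordinates -/
noncomputable def ellL (g : J ν ρ → J ν ρ → ℝ) (ξ₀ : ν → ℝ) (x₀ α : ρ → ℝ) (z : ν → ρ → ℝ)
    {σ : Type} (f : Var ν ρ → σ) : (σ → ℝ) →ₗ[ℝ] ℝ where
  toFun y := ell g ξ₀ x₀ α z (fun v => y (f v))
  map_add' y y' := by
    have := ell_lin g ξ₀ x₀ α z 1 1 (fun v => y (f v)) (fun v => y' (f v))
    simpa using this
  map_smul' c y := by
    have := ell_lin g ξ₀ x₀ α z c 0 (fun v => y (f v)) (fun v => y (f v))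
    simpa using this

theorem ellL_apply (g : J ν ρ → J ν ρ → ℝ) (ξ₀ : ν → ℝ) (x₀ α : ρ → ℝ) (z : ν → ρ → ℝ)
    {σ : Type} (f : Var ν ρ → σ) (y : σ → ℝ) :
    ellL g ξ₀ x₀ α z f y = ell g ξ₀ x₀ α z (fun v => y (f v)) := rfl

theorem ell_continuous (g : J ν ρ → J ν ρ → ℝ) (ξ₀ : ν → ℝ) (x₀ α : ρ → ℝ) (z : ν → ρ → ℝ)
    (y : Var ν ρ → ℝ) : Continuous fun c : ℝ => ell g ξ₀ x₀ (c • α) z y := by
  have hw : ∀ a, Continuous fun c : ℝ => wc ξ₀ x₀ (c • α) a := by
    intro a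
    rcases a with _ | i | a
    · exact continuous_const
    · simp only [wc]; fun_prop
    · exact continuous_const
  unfold ell Qf Gam wedge tens
  fun_prop

theorem Gam_smul (g : J ν ρ → J ν ρ → ℝ) (a b : ℝ) (M M' : J ν ρ → ℝ) :
    Gam g (fun j => a * M j) (fun j => b * M' j) = a * b * Gam g M M' := by
  unfold Gam
  simp only [Finset.mul_sum]
  refine Finset.sum_congr rfl fun j _ => Finset.sum_congr rfl fun j' _ => ?_
  ring

theorem Qf_smul (g : J ν ρ → J ν ρ → ℝ) (a b : ℝ) (S S' : ν → ρ → ℝ) :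
    Qf g (fun p i => a * S p i) (fun p i => b * S' p i) = a * b * Qf g S S' := by
  unfold Qf
  rw [Finset.mul_sum]
  refine Finset.sum_congr rfl fun i _ => ?_
  rw [← Gam_smul]
  congr 1 <;> (funext j; simp only [wedge]; ring)

theorem phi_smul (g : J ν ρ → J ν ρ → ℝ) (c : ℝ) (ξ : ν → ℝ) (x : ρ → ℝ) :
    phi g (fun a => c * ξ a) (fun i => c * x i) = c ^ 4 * phi g ξ x := by
  unfold phi
  have : tens (fun a => c * ξ a) (fun i => c * x i) = fun p i => c ^ 2 * tens ξ x p i := by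
    funext p i; simp only [tens]; ring
  rw [this, Qf_smul]; ring

theorem gam_smul (g : J ν ρ → J ν ρ → ℝ) (α : ρ → ℝ) (c : ℝ) (ξ : ν → ℝ) (x : ρ → ℝ) :
    gam g α (fun a => c * ξ a) (fun i => c * x i) = c ^ 3 * gam g α ξ x := by
  unfold gam
  have h1 : tens (fun a => c * ξ a) (fun i => c * x i) = fun p i => c ^ 2 * tens ξ x p i := by
    funext p i; simp only [tens]; ring
  have h2 : tens (fun a => c * ξ a) α = fun p i => c * tens ξ α p i := by
    funext p i; simp only [tens]; ring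
  rw [h1, h2, Qf_smul]; ring

theorem HH_smul (g : J ν ρ → J ν ρ → ℝ) (α : ρ → ℝ) (z : ν → ρ → ℝ) (c : ℝ) (ξ : ν → ℝ)
    (x : ρ → ℝ) : HH g α z (fun a => c * ξ a) (fun i => c * x i) = c ^ 2 * HH g α z ξ x := by
  unfold HH
  have h1 : wedge (tens (fun a => c * ξ a) (fun i => c * x i)) α
      = fun j => c ^ 2 * wedge (tens ξ x) α j := by
    funext j; simp only [tens, wedge]; ring
  have h2 : tens (fun a => c * ξ a) α = fun p i => c * tens ξ α p i := by
    funext p i; simp only [tens]; ring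
  have h3 : wedge z α = fun j => 1 * wedge z α j := by simp
  have h4 : ∑ i, (c * x i) ^ 2 = c ^ 2 * ∑ i, x i ^ 2 := by
    rw [Finset.mul_sum]; exact Finset.sum_congr rfl fun i _ => by ring
  have h5 := Gam_smul g (c ^ 2) 1 (wedge (tens ξ x) α) (wedge z α)
  rw [← h3] at h5
  rw [h1, h2, Qf_smul, h4, h5]; ring

theorem gam_smul_al (g : J ν ρ → J ν ρ → ℝ) (α : ρ → ℝ) (c : ℝ) (ξ : ν → ℝ) (x : ρ → ℝ) :
    gam g (c • α) ξ x = c * gam g α ξ x := by
  unfold gam
  have h2 : tens ξ (c • α) = fun p i => c * tens ξ α p i := by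
    funext p i; simp only [tens, Pi.smul_apply, smul_eq_mul]; ring
  have h5 := Qf_smul g 1 c (tens ξ x) (tens ξ α)
  simp only [one_mul] at h5
  rw [h2, h5]; ring

theorem HH_smul_al (g : J ν ρ → J ν ρ → ℝ) (α : ρ → ℝ) (z : ν → ρ → ℝ) (c : ℝ) (ξ : ν → ℝ)
    (x : ρ → ℝ) : HH g (c • α) z ξ x = c ^ 2 * HH g α z ξ x := by
  unfold HH
  have h1 : ∀ S : ν → ρ → ℝ, wedge S (c • α) = fun j => c * wedge S α j := by
    intro S; funext j; simp only [wedge, Pi.smul_apply, smul_eq_mul]; ring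
  have h2 : tens ξ (c • α) = fun p i => c * tens ξ α p i := by
    funext p i; simp only [tens, Pi.smul_apply, smul_eq_mul]; ring
  rw [h1, h1, h2, Qf_smul, Gam_smul, Gam_smul]; ring

end Crest.Agent.R237.NS
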