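import Crest.Agent.R237.NSAlg

/-! # S0367: scalar inequalities and matrix lemmas for the cone -/

set_option autoImplicit false
set_option linter.unusedSectionVars false

namespace Crest.Agent.R237.NS

open Matrix

/-- real lower bound `Φ ≥ E / σ` in cleared form -/
theorem scalar_real {t s r Q A C E : ℝ} (ht : 0 < t) (hD : 0 < t * s - r) (hr : 0 ≤ r)
    (hQ : 0 ≤ Q) (hA : A ≤ r * Q) (hp : ∀ p q : ℝ, 0 ≤ p ^ 2 * A + 2 * p * q * C + q ^ 2 * E) :
    t * (t * s - r) * E ≤ s * ((t * s - r) * Q + (A + 2 * t * C + t ^ 2 * E)) := by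
  have hs : 0 < s := by
    by_contra h
    push Not at h
    nlinarith
  have hA0 : 0 ≤ A := by simpa using hp 1 0
  have hE0 : 0 ≤ E := by simpa using hp 0 1
  rcases hr.eq_or_lt with h0 | h0
  · subst h0
    have hA' : A = 0 := le_antisymm (by simpa using hA) hA0
    have hC : C = 0 := by
      by_contra hC
      have := hp (-(E + 1) / (2 * C)) 1
      rw [hA'] at this
      have e : 2 * (-(E + 1) / (2 * C)) * 1 * C = -(E + 1) := by field_simp
      rw [e] at this
      linarith
    rw [hA', hC]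
    have : 0 ≤ s * (t * s * Q) := by positivity
    nlinarith
  · have h1 := hp s r
    have h2 : 0 ≤ s * (t * s - r) * (r * Q - A) := by
      have : 0 ≤ r * Q - A := by linarith
      positivity
    have h3 : 0 ≤ r * (s * ((t * s - r) * Q + (A + 2 * t * C + t ^ 2 * E))
        - t * (t * s - r) * E) := by
      have e : r * (s * ((t * s - r) * Q + (A + 2 * t * C + t ^ 2 * E)) - t * (t * s - r) * E)
          = s * (t * s - r) * (r * Q - A) + t * (s ^ 2 * A + 2 * s * r * C + r ^ 2 * E) := by ring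
      rw [e]; positivity
    have := (mul_nonneg_iff_of_pos_left h0).1 h3
    linarith

theorem del_ne_zero {t s : ℂ} {r : ℝ} (hr : 0 ≤ r) (hb : t.im ≠ 0) (hts : s.im = t.im) :
    t * s - r ≠ 0 := by
  intro h
  have h1 := congrArg Complex.re h
  have h2 := congrArg Complex.im h
  simp only [Complex.sub_re, Complex.mul_re, Complex.ofReal_re, Complex.zero_re, Complex.sub_im,
    Complex.mul_im, Complex.ofReal_im, Complex.zero_im, hts] at h1 h2
  have h3 : s.re = -t.re := by
    have : t.im * (t.re + s.re) = 0 := by linarith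
    rcases mul_eq_zero.1 this with h | h
    · exact absurd h hb
    · linarith
  rw [h3] at h1
  have : 0 < t.im ^ 2 := by positivity
  nlinarith [sq_nonneg t.re]

/-- `Im Φ` has the sign opposite to `Im t` -/
theorem scalar_im {t s : ℂ} {r Q A C E : ℝ} (hb : t.im ≠ 0) (hts : s.im = t.im) (hr : 0 ≤ r)
    (hQ : 0 ≤ Q) (hA : A ≤ r * Q) (hp : ∀ p q : ℝ, 0 ≤ p ^ 2 * A + 2 * p * q * C + q ^ 2 * E) :
    t.im * (((t * s - r) * Q + (A + 2 * t * C + t ^ 2 * E)) / (t * (t * s - r))).im ≤ 0 := by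
  have hD := del_ne_zero hr hb hts
  have ht : t ≠ 0 := by rintro rfl; simp at hb
  have hA0 : 0 ≤ A := by simpa using hp 1 0
  have hE0 : 0 ≤ E := by simpa using hp 0 1
  have hnt : 0 < Complex.normSq t := Complex.normSq_pos.2 ht
  have hnD : 0 < Complex.normSq (t * s - r) := Complex.normSq_pos.2 hD
  rcases hr.eq_or_lt with h0 | h0
  · subst h0
    have hA' : A = 0 := le_antisymm (by simpa using hA) hA0
    have hC : C = 0 := by
      by_contra hC
      have := hp (-(E + 1) / (2 * C)) 1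
      rw [hA'] at this
      have e : 2 * (-(E + 1) / (2 * C)) * 1 * C = -(E + 1) := by field_simp
      rw [e] at this
      linarith
    have hs : s ≠ 0 := by rintro rfl; simp at hD
    have hns : 0 < Complex.normSq s := Complex.normSq_pos.2 hs
    have e : ((t * s - (0 : ℝ)) * Q + (A + 2 * t * C + t ^ 2 * E)) / (t * (t * s - (0 : ℝ)))
        = Q * t⁻¹ + E * s⁻¹ := by
      rw [hA', hC]; push_cast; field_simp; ring
    rw [e]
    simp only [Complex.add_im, Complex.re_ofReal_mul, Complex.im_ofReal_mul, Complex.inv_im, hts]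
    have e2 : t.im * (Q * (-t.im / Complex.normSq t) + E * (-t.im / Complex.normSq s))
        = -(t.im ^ 2 * (Q / Complex.normSq t + E / Complex.normSq s)) := by ring
    rw [e2, neg_nonpos]
    positivity
  · have hr' : (r : ℂ) ≠ 0 := by exact_mod_cast h0.ne'
    have e : ((t * s - r) * Q + (A + 2 * t * C + t ^ 2 * E)) / (t * (t * s - r))
        = ((Q - A / r : ℝ) : ℂ) * t⁻¹
          + (((A / r : ℝ) : ℂ) * s + ((2 * C : ℝ) : ℂ) + (E : ℂ) * t) * (t * s - r)⁻¹ := by
      push_cast; field_simp; ring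
    rw [e]
    have hQ' : 0 ≤ Q - A / r := by
      rw [sub_nonneg, div_le_iff₀ h0]; linarith
    simp only [Complex.add_im, Complex.re_ofReal_mul, Complex.im_ofReal_mul, Complex.inv_im,
      Complex.mul_im, Complex.inv_re, Complex.add_re, Complex.ofReal_re, Complex.ofReal_im,
      Complex.sub_re, Complex.sub_im, Complex.mul_re, hts]
    have h1 := hp s.re r
    have h2 := hp 1 t.re
    have key : t.im * ((Q - A / r) * (-t.im / Complex.normSq t) + 0 * (t.re / Complex.normSq t) +
        ((A / r * s.re - 0 * t.im + 2 * C + (E * t.re - 0 * t.im)) *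
          (-(t.re * t.im + t.im * s.re - 0) / Complex.normSq (t * s - r)) +
        (A / r * t.im + 0 * s.re + 0 + (E * t.im + 0 * t.re)) *
          ((t.re * s.re - t.im * t.im - r) / Complex.normSq (t * s - r))))
        = -(t.im ^ 2 * ((Q - A / r) / Complex.normSq t
          + ((s.re ^ 2 * A + 2 * s.re * r * C + r ^ 2 * E) / r
            + (1 ^ 2 * A + 2 * 1 * t.re * C + t.re ^ 2 * E) + (A / r + E) * t.im ^ 2)
              / Complex.normSq (t * s - r))) := by
      field_simp; ring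
    rw [key, neg_nonpos]
    positivity

/-- a complex symmetric matrix whose numerical range on real vectors has definite imaginary part
is invertible -/
theorem det_ne_zero_of_im {n : Type} [Fintype n] [DecidableEq n] (M : Matrix n n ℂ)
    (hM : ∀ a b, M a b = M b a) (c : ℂ)
    (h : ∀ w : n → ℝ, w ≠ 0 → 0 < (c * ∑ a, ∑ b, (w a : ℂ) * M a b * (w b : ℂ)).im) :
    M.det ≠ 0 := by
  intro hdet
  obtain ⟨v, hv, hMv⟩ := Matrix.exists_mulVec_eq_zero_iff.2 hdet
  set x : n → ℝ := fun a => (v a).re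
  set y : n → ℝ := fun a => (v a).im
  have hvx : ∀ a, v a = x a + y a * Complex.I := fun a => (Complex.re_add_im _).symm
  have h0 : ∑ a, ∑ b, ((x a : ℂ) - y a * Complex.I) * M a b * v b = 0 := by
    refine Finset.sum_eq_zero fun a _ => ?_
    have := congrFun hMv a
    simp only [Matrix.mulVec, dotProduct, Pi.zero_apply] at this
    simp only [mul_assoc, ← Finset.mul_sum, this, mul_zero]
  have hsw : ∑ a, ∑ b, (y a : ℂ) * M a b * (x b : ℂ) = ∑ a, ∑ b, (x a : ℂ) * M a b * (y b : ℂ) := by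
    rw [Finset.sum_comm]
    refine Finset.sum_congr rfl fun a _ => Finset.sum_congr rfl fun b _ => ?_
    rw [hM b a]; ring
  have h1 : ∑ a, ∑ b, (x a : ℂ) * M a b * (x b : ℂ) + ∑ a, ∑ b, (y a : ℂ) * M a b * (y b : ℂ) = 0 := by
    have e : ∑ a, ∑ b, ((x a : ℂ) - y a * Complex.I) * M a b * v b
        = ∑ a, ∑ b, (x a : ℂ) * M a b * (x b : ℂ) + ∑ a, ∑ b, (y a : ℂ) * M a b * (y b : ℂ)
          + Complex.I * (∑ a, ∑ b, (x a : ℂ) * M a b * (y b : ℂ)
            - ∑ a, ∑ b, (y a : ℂ) * M a b * (x b : ℂ)) := by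
      simp only [Finset.mul_sum, mul_sub, ← Finset.sum_add_distrib, ← Finset.sum_sub_distrib]
      refine Finset.sum_congr rfl fun a _ => Finset.sum_congr rfl fun b _ => ?_
      rw [hvx b]
      linear_combination (-(y a : ℂ) * M a b * (y b : ℂ)) * Complex.I_mul_I
    rw [e, hsw, sub_self, mul_zero, add_zero] at h0
    exact h0
  have h' : ∀ w : n → ℝ, 0 ≤ (c * ∑ a, ∑ b, (w a : ℂ) * M a b * (w b : ℂ)).im := by
    intro w
    by_cases hw : w = 0
    · subst hw; simp
    · exact (h w hw).le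
  have h2 : (c * ∑ a, ∑ b, (x a : ℂ) * M a b * (x b : ℂ)).im
      + (c * ∑ a, ∑ b, (y a : ℂ) * M a b * (y b : ℂ)).im = 0 := by
    rw [← Complex.add_im, ← mul_add, h1]; simp
  have hx : x = 0 := by
    by_contra hx
    linarith [h x hx, h' y]
  have hy : y = 0 := by
    by_contra hy
    linarith [h y hy, h' x]
  apply hv
  funext a
  rw [hvx a, hx, hy]; simp

theorem pos_of_path {f : ℝ → ℝ} (hf : Continuous f) (h0 : 0 < f 0) (hne : ∀ e, 0 ≤ e → f e ≠ 0)
    {e : ℝ} (he : 0 ≤ e) : 0 < f e := by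
  by_contra h
  push Not at h
  obtain ⟨c, hc, hc0⟩ := intermediate_value_Icc' he hf.continuousOn ⟨h, h0.le⟩
  exact hne c hc.1 hc0

theorem quad_eq {n : Type} [Fintype n] (A : Matrix n n ℝ) (w : n → ℝ) :
    star w ⬝ᵥ A *ᵥ w = ∑ a, ∑ b, w a * A a b * w b := by
  simp only [star_trivial, dotProduct, Matrix.mulVec, Finset.mul_sum, mul_assoc]

/-- a continuous path of invertible symmetric matrices starting positive definite stays so -/
theorem quad_nonneg_of_path {n : Type} [Fintype n] [DecidableEq n] [Nonempty n]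
    (A : ℝ → Matrix n n ℝ) (hA : ∀ a b, Continuous fun e => A e a b)
    (hs : ∀ e a b, A e a b = A e b a) (hdet : ∀ e, 0 ≤ e → (A e).det ≠ 0)
    (h0 : ∀ w : n → ℝ, w ≠ 0 → 0 < ∑ a, ∑ b, w a * A 0 a b * w b) {e : ℝ} (he : 0 ≤ e)
    (w : n → ℝ) : 0 ≤ ∑ a, ∑ b, w a * A e a b * w b := by
  set q : ℝ → (n → ℝ) → ℝ := fun e w => ∑ a, ∑ b, w a * A e a b * w b with hq
  have hqc : Continuous ↿q := by
    simp only [hq, Function.HasUncurry.uncurry, id]
    fun_prop
  have hqc' : ∀ e, Continuous (q e) := fun e => by simp only [hq]; fun_prop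
  have hK : IsCompact (Metric.sphere (0 : n → ℝ) 1) := isCompact_sphere _ _
  have hKn : (Metric.sphere (0 : n → ℝ) 1).Nonempty := NormedSpace.sphere_nonempty.2 zero_le_one
  have hfc : Continuous fun e => sInf (q e '' Metric.sphere (0 : n → ℝ) 1) := hK.continuous_sInf hqc
  have hmin : ∀ e, ∃ u ∈ Metric.sphere (0 : n → ℝ) 1,
      sInf (q e '' Metric.sphere (0 : n → ℝ) 1) = q e u ∧
        ∀ v ∈ Metric.sphere (0 : n → ℝ) 1, q e u ≤ q e v := fun e =>
    hK.exists_sInf_image_eq_and_le hKn (hqc' e).continuousOn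
  have hscale : ∀ e (c : ℝ) (v : n → ℝ), q e (c • v) = c ^ 2 * q e v := by
    intro e c v
    simp only [hq, Finset.mul_sum, Pi.smul_apply, smul_eq_mul]
    refine Finset.sum_congr rfl fun a _ => Finset.sum_congr rfl fun b _ => ?_
    ring
  have hnn : ∀ e, (∀ v ∈ Metric.sphere (0 : n → ℝ) 1, 0 ≤ q e v) → ∀ v, 0 ≤ q e v := by
    intro e h v
    by_cases hv : v = 0
    · subst hv; simp [hq]
    · have hn : 0 < ‖v‖ := norm_pos_iff.2 hv
      have h1 : ‖v‖⁻¹ • v ∈ Metric.sphere (0 : n → ℝ) 1 := by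
        simp [norm_smul, hn.ne']
      have h2 := h _ h1
      rw [hscale] at h2
      exact (mul_nonneg_iff_of_pos_left (by positivity)).1 h2
  have hpos : 0 < sInf (q e '' Metric.sphere (0 : n → ℝ) 1) := by
    refine pos_of_path hfc ?_ ?_ he
    · obtain ⟨u, hu, h1, -⟩ := hmin 0
      rw [h1]
      refine h0 u ?_
      rintro rfl; simp at hu
    · intro c hc h
      obtain ⟨u, hu, h1, h2⟩ := hmin c
      have hu0 : q c u = 0 := h1 ▸ h
      have hpsd : (A c).PosSemidef := by
        refine Matrix.PosSemidef.of_dotProduct_mulVec_nonneg ?_ fun v => ?_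
        · ext a b; simp [hs c a b]
        · rw [quad_eq]; exact hnn c (fun v hv => hu0 ▸ h2 v hv) v
      have := (hpsd.dotProduct_mulVec_zero_iff u).1 (by rw [quad_eq]; exact hu0)
      refine hdet c hc (Matrix.exists_mulVec_eq_zero_iff.1 ⟨u, ?_, this⟩)
      rintro rfl; simp at hu
  obtain ⟨u, hu, h1, h2⟩ := hmin e
  exact hnn e (fun v hv => by linarith [h2 v hv]) w

theorem eval_smul_homog {σ : Type} {φ : MvPolynomial σ ℝ} {n : ℕ} (hφ : φ.IsHomogeneous n)
    (c : ℝ) (x : σ → ℝ) :
    MvPolynomial.eval (fun i => c * x i) φ = c ^ n * MvPolynomial.eval x φ := by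
  classical
  simp only [MvPolynomial.eval_eq, Finset.mul_sum]
  refine Finset.sum_congr rfl fun d hd => ?_
  have h1 : ∑ i ∈ d.support, d i = n := by
    have := hφ (MvPolynomial.mem_support_iff.1 hd)
    rw [← this, Finsupp.weight_apply, Finsupp.sum]
    simp
  simp only [mul_pow, Finset.prod_mul_distrib, Finset.prod_pow_eq_pow_sum, h1]
  ring

end Crest.Agent.R237.NS
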