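import Crest.Agent.R237.NSDual

/-! # S0367: auxiliary lemmas for the criterion -/

set_option autoImplicit false
set_option linter.unusedSectionVars false

namespace Crest.Agent.R237.NS

open Matrix Filter Topology

/-- limit of bounded bilinear forms along an ultrafilter -/
theorem exists_limit_form {E : Type} [AddCommGroup E] [Module ℝ E] (G : ℕ → E →ₗ[ℝ] E →ₗ[ℝ] ℝ)
    (hb : ∀ a b, ∃ C, ∀ n, |G n a b| ≤ C) :
    ∃ G' : E →ₗ[ℝ] E →ₗ[ℝ] ℝ, ∀ a b,
      Tendsto (fun n => G n a b) (hyperfilter ℕ : Filter ℕ) (𝓝 (G' a b)) := by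
  have hex : ∀ a b, ∃ L, Tendsto (fun n => G n a b) (hyperfilter ℕ : Filter ℕ) (𝓝 L) := by
    intro a b
    obtain ⟨C, hC⟩ := hb a b
    obtain ⟨L, -, hL⟩ := (isCompact_Icc (a := -C) (b := C)).ultrafilter_le_nhds
      ((hyperfilter ℕ).map fun n => G n a b)
      (by
        rw [Ultrafilter.coe_map, Filter.le_principal_iff, Filter.mem_map]
        exact Filter.univ_mem' fun n => abs_le.1 (hC n))
    exact ⟨L, hL⟩
  choose L hL using hex
  refine ⟨LinearMap.mk₂ ℝ L ?_ ?_ ?_ ?_, hL⟩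
  · intro a a' b
    refine tendsto_nhds_unique (hL _ _) ?_
    simpa using (hL a b).add (hL a' b)
  · intro c a b
    refine tendsto_nhds_unique (hL _ _) ?_
    simpa using (hL a b).const_mul c
  · intro a b b'
    refine tendsto_nhds_unique (hL _ _) ?_
    simpa using (hL a b).add (hL a b')
  · intro c a b
    refine tendsto_nhds_unique (hL _ _) ?_
    simpa using (hL a b).const_mul c

theorem cs_form {E : Type} [AddCommGroup E] [Module ℝ E] (B : E →ₗ[ℝ] E →ₗ[ℝ] ℝ)
    (hs : ∀ a b, B a b = B b a) (hp : ∀ a, 0 ≤ B a a) (a b : E) :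
    (B a b) ^ 2 ≤ B a a * B b b := by
  have := LinearMap.BilinForm.apply_mul_apply_le_of_forall_zero_le B hp a b
  rw [hs b a] at this
  rw [sq]; exact this

/-! ### Taylor coefficients along a line -/

section taylor

open Polynomial

variable {ι : Type} [Fintype ι]

/-- restriction of a polynomial to the line `η₀ + X η` -/
noncomputable def lineP (η₀ η : ι → ℝ) (P : MvPolynomial ι ℝ) : ℝ[X] :=
  MvPolynomial.aeval (fun j => C (η₀ j) + C (η j) * X) P

theorem eval_lineP (η₀ η : ι → ℝ) (P : MvPolynomial ι ℝ) (e : ℝ) :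
    (lineP η₀ η P).eval e = MvPolynomial.eval (η₀ + e • η) P := by
  unfold lineP
  induction P using MvPolynomial.induction_on with
  | C a => simp
  | add p q hp hq => simp only [map_add, eval_add, hp, hq]
  | mul_X p j hp =>
    simp only [map_mul, eval_mul, hp, MvPolynomial.aeval_X, MvPolynomial.eval_X, eval_add, eval_C,
      eval_X, Pi.add_apply, Pi.smul_apply, smul_eq_mul]
    ring

/-- the derivation acts on the coefficients like the formal derivative -/
def DGood (δ : Derivation ℚ ℝ ℝ) (q : ℝ[X]) : Prop := ∀ n, δ (q.coeff n) = (derivative q).coeff n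

theorem DGood.add {δ : Derivation ℚ ℝ ℝ} {q r : ℝ[X]} (hq : DGood δ q) (hr : DGood δ r) :
    DGood δ (q + r) := fun n => by
  rw [coeff_add, map_add, hq n, hr n, derivative_add, coeff_add]

theorem DGood.mul {δ : Derivation ℚ ℝ ℝ} {q r : ℝ[X]} (hq : DGood δ q) (hr : DGood δ r) :
    DGood δ (q * r) := fun n => by
  rw [derivative_mul, coeff_add, coeff_mul, coeff_mul, coeff_mul, map_sum, ← Finset.sum_add_distrib]
  refine Finset.sum_congr rfl fun x _ => ?_
  rw [Derivation.leibniz, hq, hr]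
  simp only [smul_eq_mul]; ring

theorem DGood.C {δ : Derivation ℚ ℝ ℝ} {c : ℝ} (hc : δ c = 0) : DGood δ (C c) := fun n => by
  rw [derivative_C, coeff_C]
  split_ifs <;> simp [hc]

theorem DGood.pow {δ : Derivation ℚ ℝ ℝ} {q : ℝ[X]} (hq : DGood δ q) (k : ℕ) :
    DGood δ (q ^ k) := by
  induction k with
  | zero => simpa using DGood.C (δ := δ) (c := 1) (by simp)
  | succ k ih => rw [pow_succ]; exact ih.mul hq

theorem dgood_lineP {δ : Derivation ℚ ℝ ℝ} {η₀ η : ι → ℝ} (h1 : ∀ j, δ (η₀ j) = η j)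
    (h2 : ∀ j, δ (η j) = 0) {P : MvPolynomial ι ℝ} (hP : ∀ d, δ (P.coeff d) = 0) :
    DGood δ (lineP η₀ η P) := by
  classical
  unfold lineP
  rw [MvPolynomial.aeval_def, MvPolynomial.eval₂_eq']
  refine Finset.sum_induction _ (DGood δ) (fun _ _ => DGood.add) ?_ fun d _ => ?_
  · simpa using DGood.C (δ := δ) (c := 0) (by simp)
  refine DGood.mul (DGood.C (hP d)) ?_
  refine Finset.prod_induction _ (DGood δ) (fun _ _ => DGood.mul) ?_ fun j _ => DGood.pow ?_ _
  · simpa using DGood.C (δ := δ) (c := 1) (by simp)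
  · intro n
    simp only [coeff_add, coeff_C_mul, coeff_C, coeff_X, derivative_add, derivative_C,
      derivative_mul, derivative_X, zero_mul, zero_add, mul_one]
    rcases n with _ | _ | n <;> simp [h1, h2]

theorem DGood.iter {δ : Derivation ℚ ℝ ℝ} {q : ℝ[X]} (hq : DGood δ q) (n : ℕ) :
    δ^[n] (q.coeff 0) = (n.factorial : ℝ) * q.coeff n := by
  induction n with
  | zero => simp
  | succ n ih =>
    rw [Function.iterate_succ_apply', ih, Derivation.leibniz, hq, coeff_derivative,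
      Derivation.map_natCast, Nat.factorial_succ]
    simp only [smul_eq_mul]; push_cast; ring

theorem lin_coeff_lineP {m : ℕ} (U : Fin m → MvPolynomial ι ℝ) (l : (Fin m → ℝ) →ₗ[ℝ] ℝ)
    (η₀ η : ι → ℝ) (a₂ a₃ a₄ : ℝ)
    (h : ∀ e : ℝ, l (fun i => MvPolynomial.eval (η₀ + e • η) (U i))
      = e ^ 4 * a₄ + e ^ 3 * a₃ + e ^ 2 * a₂) (n : ℕ) :
    l (fun i => (lineP η₀ η (U i)).coeff n)
      = (C a₄ * X ^ 4 + C a₃ * X ^ 3 + C a₂ * X ^ 2 : ℝ[X]).coeff n := by
  have h1 : (∑ i, C (l (Pi.single i 1)) * lineP η₀ η (U i))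
      = (C a₄ * X ^ 4 + C a₃ * X ^ 3 + C a₂ * X ^ 2 : ℝ[X]) := by
    refine Polynomial.funext fun e => ?_
    have := h e
    rw [LinearMap.pi_apply_eq_sum_univ] at this
    simp only [eval_finsetSum, eval_mul, eval_C, eval_lineP, eval_add, eval_pow, eval_X]
    rw [← (by ring : e ^ 4 * a₄ + e ^ 3 * a₃ + e ^ 2 * a₂ = a₄ * e ^ 4 + a₃ * e ^ 3 + a₂ * e ^ 2),
      ← this]
    refine Finset.sum_congr rfl fun i _ => ?_
    rw [smul_eq_mul, mul_comm]
    congr 2
    funext j; simp [Pi.single_apply, eq_comm]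
  rw [← h1, LinearMap.pi_apply_eq_sum_univ, finsetSum_coeff]
  refine Finset.sum_congr rfl fun i _ => ?_
  rw [coeff_C_mul, smul_eq_mul, mul_comm]
  congr 2
  funext j; simp [Pi.single_apply, eq_comm]

end taylor

/-! ### derivations acting on matrices -/

section mat

variable {n : Type} [Fintype n] [DecidableEq n]

/-- entrywise derivation -/
noncomputable def dm (δ : Derivation ℚ ℝ ℝ) (X : Matrix n n ℝ) : Matrix n n ℝ := X.map δ

theorem dm_add (δ : Derivation ℚ ℝ ℝ) (X Y : Matrix n n ℝ) : dm δ (X + Y) = dm δ X + dm δ Y := by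
  ext i j; simp [dm]

theorem dm_mul (δ : Derivation ℚ ℝ ℝ) (X Y : Matrix n n ℝ) :
    dm δ (X * Y) = dm δ X * Y + X * dm δ Y := by
  ext i j
  simp only [dm, map_apply, Matrix.mul_apply, map_sum, Matrix.add_apply, Derivation.leibniz,
    smul_eq_mul, ← Finset.sum_add_distrib]
  exact Finset.sum_congr rfl fun k _ => by ring

theorem dm_transpose (δ : Derivation ℚ ℝ ℝ) (X : Matrix n n ℝ) : dm δ Xᵀ = (dm δ X)ᵀ := rfl

theorem dm_smul (δ : Derivation ℚ ℝ ℝ) (c : ℝ) (X : Matrix n n ℝ) :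
    dm δ (c • X) = δ c • X + c • dm δ X := by
  ext i j
  simp only [dm, map_apply, Matrix.smul_apply, Matrix.add_apply, Derivation.leibniz, smul_eq_mul]
  ring

theorem dm_sum (δ : Derivation ℚ ℝ ℝ) {α : Type} [Fintype α] (X : α → Matrix n n ℝ) :
    dm δ (∑ a, X a) = ∑ a, dm δ (X a) := by
  ext i j; simp [dm, Matrix.sum_apply, map_sum]

theorem dm_isSymm (δ : Derivation ℚ ℝ ℝ) {X : Matrix n n ℝ} (h : X.IsSymm) : (dm δ X).IsSymm := by
  rw [Matrix.IsSymm, ← dm_transpose, h.eq]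

theorem der_sum_apply {α : Type} [Fintype α] (c : α → ℝ) (D : α → Derivation ℚ ℝ ℝ) (x : ℝ) :
    (∑ a, c a • D a) x = ∑ a, c a * D a x := by
  have := map_sum (Derivation.coeFnAddMonoidHom (R := ℚ) (A := ℝ) (M := ℝ))
    (fun a => c a • D a) Finset.univ
  have h2 := congrFun this x
  rw [Finset.sum_apply] at h2
  exact h2

theorem dm_sum_der {α : Type} [Fintype α] (c : α → ℝ) (D : α → Derivation ℚ ℝ ℝ)
    (X : Matrix n n ℝ) : dm (∑ a, c a • D a) X = ∑ a, c a • dm (D a) X := by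
  ext i j
  simp only [dm, map_apply, Matrix.sum_apply, Matrix.smul_apply, smul_eq_mul]
  exact der_sum_apply c D _

/-- the semi inner product attached to a positive functional -/
noncomputable def ip (G : Matrix n n ℝ →ₗ[ℝ] ℝ) : Matrix n n ℝ →ₗ[ℝ] Matrix n n ℝ →ₗ[ℝ] ℝ :=
  LinearMap.mk₂ ℝ (fun b b' => (G (b * b'ᵀ) + G (b' * bᵀ)) / 2)
    (fun a a' b => by simp only [Matrix.add_mul, Matrix.mul_add, transpose_add, map_add]; ring)
    (fun c a b => by
      simp only [Matrix.smul_mul, Matrix.mul_smul, transpose_smul, map_smul, smul_eq_mul]; ring)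
    (fun a b b' => by simp only [Matrix.add_mul, Matrix.mul_add, transpose_add, map_add]; ring)
    (fun c a b => by
      simp only [Matrix.smul_mul, Matrix.mul_smul, transpose_smul, map_smul, smul_eq_mul]; ring)

theorem ip_apply (G : Matrix n n ℝ →ₗ[ℝ] ℝ) (b b' : Matrix n n ℝ) :
    ip G b b' = (G (b * b'ᵀ) + G (b' * bᵀ)) / 2 := rfl

theorem ip_symm (G : Matrix n n ℝ →ₗ[ℝ] ℝ) (b b' : Matrix n n ℝ) : ip G b b' = ip G b' b := by
  simp only [ip_apply]; ring

theorem psd_mul_transpose (b : Matrix n n ℝ) : (b * bᵀ).PosSemidef := by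
  simpa using posSemidef_self_mul_conjTranspose b

theorem ip_nonneg {G : Matrix n n ℝ →ₗ[ℝ] ℝ} (hG : ∀ Y : Matrix n n ℝ, Y.PosSemidef → 0 ≤ G Y)
    (b : Matrix n n ℝ) : 0 ≤ ip G b b := by
  have := hG _ (psd_mul_transpose b)
  simp only [ip_apply]; linarith

theorem ip_bound (b : Matrix n n ℝ) : ∃ r : ℝ, 0 ≤ r ∧ ∀ G : Matrix n n ℝ →ₗ[ℝ] ℝ,
    (∀ Y : Matrix n n ℝ, Y.PosSemidef → 0 ≤ G Y) → ip G b b ≤ r * G 1 := by
  obtain ⟨r, hr, h⟩ := nsdual_shift (Y := -(b * bᵀ)) (by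
    simp [Matrix.IsSymm, transpose_mul])
  refine ⟨r, hr, fun G hG => ?_⟩
  have := hG _ h
  simp only [map_add, map_smul, map_neg, smul_eq_mul] at this
  simp only [ip_apply]; linarith

/-- the jet identities -/
theorem jet_identities {P : Type} [AddCommGroup P] [Module ℝ P] (s l : P →ₗ[ℝ] ℝ)
    (M : P →ₗ[ℝ] Matrix n n ℝ) (C : Matrix n n ℝ) (δ : Derivation ℚ ℝ ℝ) (dp : P → P)
    (hdM : ∀ p, M (dp p) = dm δ (M p)) (hds : ∀ p, s (dp p) = δ (s p)) (hC : dm δ C = 0)
    (G : Matrix n n ℝ →ₗ[ℝ] ℝ) (μ : ℝ) (hμ : 0 ≤ μ)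
    (hG : ∀ Y : Matrix n n ℝ, Y.PosSemidef → 0 ≤ G Y)
    (hl : ∀ (p : P) (Y : Matrix n n ℝ), Y.IsSymm → M p = C * Y * Cᵀ → l p = G Y + μ * s p)
    (p : P) (b : Matrix n n ℝ) (hp : M p = C * (b * bᵀ) * Cᵀ) (hs : s p = 1) (h0 : l p = 0) :
    l (dp^[2] p) = 2 * ip G (dm δ b) (dm δ b) ∧
    l (dp^[3] p) = 6 * ip G (dm δ b) (dm δ (dm δ b)) ∧
    l (dp^[4] p) = 8 * ip G (dm δ b) (dm δ (dm δ (dm δ b)))
      + 6 * ip G (dm δ (dm δ b)) (dm δ (dm δ b)) := by
  have hsym : (b * bᵀ).IsSymm := by simp [Matrix.IsSymm, transpose_mul]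
  have key : ∀ k : ℕ, ((dm δ)^[k] (b * bᵀ)).IsSymm ∧
      M (dp^[k] p) = C * (dm δ)^[k] (b * bᵀ) * Cᵀ ∧ s (dp^[k + 1] p) = 0 := by
    intro k
    induction k with
    | zero => exact ⟨hsym, hp, by simp [hds, hs]⟩
    | succ k ih =>
      refine ⟨?_, ?_, ?_⟩
      · rw [Function.iterate_succ_apply']; exact dm_isSymm δ ih.1
      · rw [Function.iterate_succ_apply', Function.iterate_succ_apply', hdM, ih.2.1, dm_mul, dm_mul,
          dm_transpose, hC]
        simp
      · rw [Function.iterate_succ_apply', hds, ih.2.2, map_zero]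
  have hval : ∀ k : ℕ, l (dp^[k + 1] p) = G ((dm δ)^[k + 1] (b * bᵀ)) := by
    intro k
    rw [hl _ _ (key (k + 1)).1 (key (k + 1)).2.1, (key k).2.2, mul_zero, add_zero]
  have h00 : ip G b b = 0 := by
    have h1 := hl p _ hsym hp
    have h2 := hG _ (psd_mul_transpose b)
    rw [h0, hs] at h1
    simp only [ip_apply]; linarith
  have hz : ∀ c, ip G b c = 0 := by
    intro c
    have := cs_form (ip G) (ip_symm G) (ip_nonneg hG) b c
    rw [h00, zero_mul] at this
    exact pow_eq_zero_iff (two_ne_zero) |>.1 (le_antisymm this (sq_nonneg _))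
  have z2 := hz (dm δ (dm δ b))
  have z3 := hz (dm δ (dm δ (dm δ b)))
  have z4 := hz (dm δ (dm δ (dm δ (dm δ b))))
  refine ⟨?_, ?_, ?_⟩
  · rw [hval 1]
    simp only [ip_apply] at z2 ⊢
    simp only [Function.iterate_succ_apply', Function.iterate_zero_apply, dm_add, dm_mul,
      dm_transpose, map_add]
    linarith
  · rw [hval 2]
    simp only [ip_apply] at z3 ⊢
    simp only [Function.iterate_succ_apply', Function.iterate_zero_apply, dm_add, dm_mul,
      dm_transpose, map_add]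
    linarith
  · rw [hval 3]
    simp only [ip_apply] at z4 ⊢
    simp only [Function.iterate_succ_apply', Function.iterate_zero_apply, dm_add, dm_mul,
      dm_transpose, map_add]
    linarith

end mat

end Crest.Agent.R237.NS
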