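import Mathlib

/-! # S0367: generic points and derivations of `ℝ` -/

set_option autoImplicit false

namespace Crest.Agent.R237.NS

/-- Derivations extend along formally étale maps. -/
lemma nsderiv_extend (k S T : Type) [CommRing k] [CommRing S] [CommRing T] [Algebra k S]
    [Algebra k T] [Algebra S T] [IsScalarTower k S T] [Algebra.FormallyEtale S T]
    (d : Derivation k S T) : ∃ D : Derivation k T T, ∀ s, D (algebraMap S T s) = d s := by
  let L : TensorProduct S T (KaehlerDifferential k S) →ₗ[T] T :=
    LinearMap.liftBaseChange T d.liftKaehlerDifferential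
  let E := KaehlerDifferential.tensorKaehlerEquivOfFormallyEtale k S T
  refine ⟨(L ∘ₗ E.symm.toLinearMap).compDer (KaehlerDifferential.D k T), fun s => ?_⟩
  change L (E.symm (KaehlerDifferential.D k T (algebraMap S T s))) = d s
  rw [KaehlerDifferential.tensorKaehlerEquivOfFormallyEtale_symm_D_algebraMap]
  simp [L]

open Cardinal in
lemma nsderiv_countable_adjoin (k : Type) [Field k] [Algebra k ℝ] [Countable k] {β : Type}
    [Countable β] (x : β → ℝ) : Countable (IntermediateField.adjoin k (Set.range x)) := by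
  rw [← Cardinal.mk_le_aleph0_iff]
  refine (IntermediateField.cardinalMk_adjoin_le k _).trans ?_
  have h1 : #k ≤ ℵ₀ := Cardinal.mk_le_aleph0
  have h2 : #(Set.range x) ≤ ℵ₀ := by
    have := (Set.countable_range x).to_subtype
    exact Cardinal.mk_le_aleph0
  exact sup_le (sup_le h1 h2) le_rfl

open Cardinal in
lemma nsderiv_infinite (k : Type) [Field k] [Algebra k ℝ] [Countable k] {β : Type} {x : β → ℝ}
    (hx : IsTranscendenceBasis k x) : Infinite β := by
  by_contra h
  rw [not_infinite_iff_finite] at h
  have h1 := nsderiv_countable_adjoin k x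
  have h2 := hx.isAlgebraic_field
  have h3 := Algebra.IsAlgebraic.cardinalMk_le_max (IntermediateField.adjoin k (Set.range x)) ℝ
  have h4 : #ℝ ≤ ℵ₀ := h3.trans (max_le Cardinal.mk_le_aleph0 le_rfl)
  rw [Cardinal.mk_real] at h4
  exact absurd h4 (not_le.2 Cardinal.aleph0_lt_continuum)

open scoped IntermediateField.algebraAdjoinAdjoin in
lemma nsderiv_basis (k : Type) [Field k] [CharZero k] [Algebra k ℝ] {β : Type} [DecidableEq β]
    {x : β → ℝ} (hx : IsTranscendenceBasis k x) (t : β) :
    ∃ D : Derivation k ℝ ℝ, ∀ s, D (x s) = if t = s then 1 else 0 := by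
  have h2 := hx.isAlgebraic_field
  have h3 : Algebra.FormallyEtale (IntermediateField.adjoin k (Set.range x)) ℝ :=
    Algebra.FormallyEtale.of_isSeparable _ ℝ
  have h4 : Algebra.FormallyEtale (Algebra.adjoin k (Set.range x))
      (IntermediateField.adjoin k (Set.range x)) :=
    .of_isLocalization (nonZeroDivisors _)
  have h5 : Algebra.FormallyEtale (Algebra.adjoin k (Set.range x)) ℝ :=
    .comp _ (IntermediateField.adjoin k (Set.range x)) _
  let E := hx.1.aevalEquiv
  have hE : ∀ s : Algebra.adjoin k (Set.range x), MvPolynomial.aeval x (E.symm s) = (s : ℝ) := by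
    intro s
    obtain ⟨p, rfl⟩ := E.surjective s
    rw [E.symm_apply_apply]
    exact (hx.1.algebraMap_aevalEquiv p).symm
  let d : Derivation k (Algebra.adjoin k (Set.range x)) ℝ := Derivation.mk'
    ((MvPolynomial.aeval x).toLinearMap ∘ₗ (MvPolynomial.pderiv t).toLinearMap ∘ₗ
      E.symm.toLinearMap) (by
      intro a b
      change MvPolynomial.aeval x (MvPolynomial.pderiv t (E.symm (a * b))) =
        a • MvPolynomial.aeval x (MvPolynomial.pderiv t (E.symm b)) +
        b • MvPolynomial.aeval x (MvPolynomial.pderiv t (E.symm a))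
      rw [map_mul, Derivation.leibniz, map_add, smul_eq_mul, smul_eq_mul, map_mul, map_mul, hE, hE]
      rfl)
  obtain ⟨D, hD⟩ := nsderiv_extend k (Algebra.adjoin k (Set.range x)) ℝ d
  refine ⟨D, fun s => ?_⟩
  have h6 := hD (E (MvPolynomial.X s))
  have h7 : algebraMap _ ℝ (E (MvPolynomial.X s)) = x s := by
    rw [hx.1.algebraMap_aevalEquiv, MvPolynomial.aeval_X]
  rw [h7] at h6
  rw [h6]
  change MvPolynomial.aeval x (MvPolynomial.pderiv t (E.symm (E (MvPolynomial.X s)))) = _
  rw [E.symm_apply_apply, MvPolynomial.pderiv_X]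
  by_cases h : t = s
  · subst h; simp
  · simp [h, Pi.single_apply, Ne.symm h]

/-- Given countably many real constants there are a point `η` and derivations `D i` of the field
`ℝ` killing the constants with `D i (η j) = δ i j`. -/
theorem exists_derivations {α : Type} [Countable α] (c : α → ℝ) (ι : Type) [Fintype ι]
    [DecidableEq ι] :
    ∃ (η : ι → ℝ) (D : ι → Derivation ℚ ℝ ℝ),
      (∀ i a, D i (c a) = 0) ∧ ∀ i j, D i (η j) = if i = j then 1 else 0 := by
  classical
  let k := IntermediateField.adjoin ℚ (Set.range c)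
  have hk : Countable k := nsderiv_countable_adjoin ℚ c
  obtain ⟨β, x, hx⟩ := exists_isTranscendenceBasis' k ℝ
  have hβ := nsderiv_infinite k hx
  obtain ⟨e⟩ : Nonempty (ι ↪ β) :=
    ⟨(Fintype.equivFin ι).toEmbedding.trans (Fin.valEmbedding.trans (Infinite.natEmbedding β))⟩
  choose D hD using nsderiv_basis k hx
  refine ⟨fun j => x (e j), fun i => (D (e i)).restrictScalars ℚ, fun i a => ?_, fun i j => ?_⟩
  · have h : c a ∈ k := IntermediateField.subset_adjoin ℚ _ ⟨a, rfl⟩
    exact (D (e i)).map_algebraMap (⟨c a, h⟩ : k)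
  · change D (e i) (x (e j)) = _
    rw [hD]
    simp only [e.injective.eq_iff]

end Crest.Agent.R237.NS
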