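import Crest.Prelude.Def_Hyperbolic
import Crest.Agent.R237.NSDeriv
import Crest.Agent.R237.NSCritAux

/-! # S0367: a spectrahedral shadow forces a Gram (sum of squares) representation -/

set_option autoImplicit false

namespace Crest.Agent.R237.NS

open Crest.GeometryTopology Matrix Filter Topology

theorem continuous_bilin {E X : Type} [NormedAddCommGroup E] [NormedSpace ℝ E]
    [FiniteDimensional ℝ E] [TopologicalSpace X] (B : E →ₗ[ℝ] E →ₗ[ℝ] ℝ) {f g : X → E}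
    (hf : Continuous f) (hg : Continuous g) : Continuous fun x => B (f x) (g x) := by
  let B' : E →L[ℝ] E →L[ℝ] ℝ :=
    LinearMap.toContinuousLinearMap (LinearMap.toContinuousLinearMap.toLinearMap ∘ₗ B)
  exact (B'.continuous.comp hf).clm_apply hg

theorem eq_of_rat {ι : Type} [Fintype ι] {f g : (ι → ℝ) → ℝ} (hf : Continuous f)
    (hg : Continuous g) (h : ∀ q : ι → ℚ, f (fun i => (q i : ℝ)) = g (fun i => (q i : ℝ)))
    (η : ι → ℝ) : f η = g η := by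
  have hd : DenseRange (Pi.map fun (_ : ι) => ((↑) : ℚ → ℝ)) :=
    DenseRange.piMap fun _ => Rat.denseRange_cast
  exact congrFun (hd.equalizer hf hg (funext fun q => h q)) η

theorem nonneg_homog {m : ℕ} {W n : Type} [AddCommGroup W] [Module ℝ W] [Fintype n]
    (M : (ℝ × (Fin m → ℝ) × W) →ₗ[ℝ] Matrix n n ℝ) (l : (Fin m → ℝ) →ₗ[ℝ] ℝ)
    (hl : ∀ x v, (M (1, x, v)).PosSemidef → 0 ≤ l x) (x₁ : Fin m → ℝ) (v₁ : W)
    (h₁ : (M (1, x₁, v₁)).PosSemidef) (p : ℝ × (Fin m → ℝ) × W) (hs : 0 ≤ p.1)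
    (hp : (M p).PosSemidef) : 0 ≤ l p.2.1 := by
  have key : ∀ r : ℝ, 0 < r → 0 ≤ l p.2.1 + r * l x₁ := by
    intro r hr
    have hpos : 0 < p.1 + r := by linarith
    have h2 := (hp.add (h₁.smul hr.le)).smul (inv_pos.2 hpos).le
    rw [← map_smul, ← map_add, ← map_smul] at h2
    have e : (p.1 + r)⁻¹ • (p + r • ((1 : ℝ), x₁, v₁))
        = (1, (p.1 + r)⁻¹ • (p.2.1 + r • x₁), (p.1 + r)⁻¹ • (p.2.2 + r • v₁)) := by
      refine Prod.ext ?_ rfl
      simp only [Prod.smul_fst, Prod.fst_add, smul_eq_mul, mul_one]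
      exact inv_mul_cancel₀ hpos.ne'
    rw [e] at h2
    have h3 := hl _ _ h2
    rw [map_smul, map_add, map_smul, smul_eq_mul, smul_eq_mul] at h3
    exact (mul_nonneg_iff_of_pos_left (inv_pos.2 hpos)).1 h3
  by_contra hneg
  push Not at hneg
  have h4 := key (-l p.2.1 / (2 * (|l x₁| + 1))) (div_pos (by linarith) (by positivity))
  have h5 : -l p.2.1 / (2 * (|l x₁| + 1)) * l x₁ ≤ -l p.2.1 / 2 := by
    rw [div_mul_eq_mul_div, div_le_div_iff₀ (by positivity) (by positivity)]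
    nlinarith [le_abs_self (l x₁)]
  linarith

/-- The criterion. -/
theorem criterion {m : ℕ} {ι : Type} [Fintype ι] [DecidableEq ι] (K : Set (Fin m → ℝ))
    (hK : Hyperbolic.IsSpectrahedralShadow K)
    (U : Fin m → MvPolynomial ι ℝ) (hU : ∀ η : ι → ℝ, (fun i => MvPolynomial.eval η (U i)) ∈ K)
    (φ γ H : (ι → ℝ) → ℝ) (hφc : Continuous φ) (hγc : Continuous γ) (hHc : Continuous H)
    (hφ : ∀ (c : ℝ) η, φ (c • η) = c ^ 4 * φ η) (hγ : ∀ (c : ℝ) η, γ (c • η) = c ^ 3 * γ η)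
    (hH : ∀ (c : ℝ) η, H (c • η) = c ^ 2 * H η)
    (hl : ∀ η₀ : ι → ℝ, ∃ l : ℝ → (Fin m → ℝ) →ₗ[ℝ] ℝ, (∀ x, Continuous fun c => l c x) ∧
      (∀ c, ∀ x ∈ K, 0 ≤ l c x) ∧
      ∀ c η, l c (fun i => MvPolynomial.eval (η₀ + η) (U i)) = φ η + c * γ η + c ^ 2 * H η) :
    ∃ G : ((ι → ℝ) × (ι → ι → ℝ)) →ₗ[ℝ] ((ι → ℝ) × (ι → ι → ℝ)) →ₗ[ℝ] ℝ,
      (∀ a b, G a b = G b a) ∧ (∀ a, 0 ≤ G a a) ∧ ∀ η : ι → ℝ,
        G (η, 0) (η, 0) = H η ∧ 2 * G (η, 0) (0, fun i j => η i * η j) = γ η ∧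
        G (0, fun i j => η i * η j) (0, fun i j => η i * η j) = φ η := by
  classical
  obtain ⟨k, a, A₀, A, B, hA₀, hA, hB, hKeq⟩ := hK
  let M : (ℝ × (Fin m → ℝ) × (Fin a → ℝ)) →ₗ[ℝ] Matrix (Fin k) (Fin k) ℝ :=
    { toFun := fun p => p.1 • A₀ + ∑ i, p.2.1 i • A i + ∑ j, p.2.2 j • B j
      map_add' := fun p q => by
        simp only [Prod.fst_add, Prod.snd_add, Pi.add_apply, add_smul, Finset.sum_add_distrib]
        abel
      map_smul' := fun c p => by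
        simp only [Prod.smul_fst, Prod.smul_snd, Pi.smul_apply, smul_eq_mul, mul_smul,
          RingHom.id_apply, smul_add, Finset.smul_sum] }
  have hM : ∀ p, M p = p.1 • A₀ + ∑ i, p.2.1 i • A i + ∑ j, p.2.2 j • B j := fun _ => rfl
  have hMK : ∀ x, x ∈ K ↔ ∃ v, (M (1, x, v)).PosSemidef := by
    intro x; rw [hKeq]; simp [hM]
  have hMs : ∀ p, (M p).IsSymm := by
    intro p
    rw [hM, Matrix.IsSymm]
    simp only [transpose_add, transpose_smul, transpose_sum, hA₀.eq, (hA _).eq, (hB _).eq]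
  obtain ⟨v₁, hv₁⟩ := (hMK _).1 (hU 0)
  obtain ⟨p₀, C, hs₀, hC, hslater⟩ := exists_slater (LinearMap.fst ℝ ℝ _) M _ (by simp) hv₁
  obtain ⟨η₀, D, hDc, hDη⟩ := exists_derivations
    (α := (Fin k × Fin k) ⊕ (Fin k × Fin k) ⊕ (Fin m × Fin k × Fin k) ⊕ (Fin a × Fin k × Fin k)
      ⊕ (Fin m × (ι →₀ ℕ)))
    (Sum.elim (fun x => A₀ x.1 x.2) (Sum.elim (fun x => C x.1 x.2)
      (Sum.elim (fun x => A x.1 x.2.1 x.2.2) (Sum.elim (fun x => B x.1 x.2.1 x.2.2)
        (fun x => (U x.1).coeff x.2))))) ι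
  obtain ⟨v, hv⟩ := (hMK _).1 (hU η₀)
  obtain ⟨b, hb⟩ := hslater _ (by simp) hv
  obtain ⟨l, hlc, hlK, hlu⟩ := hl η₀
  let pr : (ℝ × (Fin m → ℝ) × (Fin a → ℝ)) →ₗ[ℝ] (Fin m → ℝ) :=
    LinearMap.fst ℝ _ _ ∘ₗ LinearMap.snd ℝ _ _
  have hmul := fun c : ℝ => exists_multiplier (LinearMap.fst ℝ ℝ _) M hMs p₀ C hs₀ hC (l c ∘ₗ pr)
    (nonneg_homog M (l c) (fun x v h => hlK c x ((hMK x).2 ⟨v, h⟩)) _ _ hv₁)
  choose G μ hμ hG hGl using hmul
  let a₁ : (ι → ℝ) →ₗ[ℝ] Matrix (Fin k) (Fin k) ℝ :=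
    ∑ i, (LinearMap.proj i : (ι → ℝ) →ₗ[ℝ] ℝ).smulRight (dm (D i) b)
  let a₂ : (ι → ι → ℝ) →ₗ[ℝ] Matrix (Fin k) (Fin k) ℝ :=
    ∑ i, ∑ j, ((LinearMap.proj j : (ι → ℝ) →ₗ[ℝ] ℝ) ∘ₗ
      (LinearMap.proj i : (ι → ι → ℝ) →ₗ[ℝ] (ι → ℝ))).smulRight
        ((1 / 2 : ℝ) • dm (D i) (dm (D j) b))
  have ha₁ : ∀ y, a₁ y = ∑ i, y i • dm (D i) b := by
    intro y; simp [a₁, LinearMap.sum_apply]
  have ha₂ : ∀ Y, a₂ Y = (1 / 2 : ℝ) • ∑ i, ∑ j, Y i j • dm (D i) (dm (D j) b) := by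
    intro Y
    simp only [a₂, LinearMap.sum_apply, LinearMap.smulRight_apply, Finset.smul_sum,
      LinearMap.comp_apply, LinearMap.proj_apply]
    exact Finset.sum_congr rfl fun i _ => Finset.sum_congr rfl fun j _ => smul_comm _ _ _
  have hφ0 : φ 0 = 0 := by simpa using hφ 0 0
  have hγ0 : γ 0 = 0 := by simpa using hγ 0 0
  have hH0 : H 0 = 0 := by simpa using hH 0 0
  have hjet : ∀ q : ι → ℚ, ∃ b₃ : Matrix (Fin k) (Fin k) ℝ, ∀ c : ℝ,
      ip (G c) (a₁ fun i => q i) (a₁ fun i => q i) = c ^ 2 * H (fun i => q i) ∧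
      2 * ip (G c) (a₁ fun i => q i) (a₂ fun i j => (q i : ℝ) * q j) = c * γ (fun i => q i) ∧
      ip (G c) (a₂ fun i j => (q i : ℝ) * q j) (a₂ fun i j => (q i : ℝ) * q j)
        = φ (fun i => q i) - ip (G c) (a₁ fun i => q i) b₃ / 3 := by
    intro q
    set η : ι → ℝ := fun i => q i with hη
    set δ : Derivation ℚ ℝ ℝ := ∑ i, η i • D i with hδ
    have hδc : ∀ x : ℝ, (∀ i, D i x = 0) → δ x = 0 := by
      intro x hx; rw [hδ, der_sum_apply]; simp [hx]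
    have hδη : ∀ j, δ (η j) = 0 := fun j => δ.map_algebraMap (q j)
    have hδη₀ : ∀ j, δ (η₀ j) = η j := by
      intro j; rw [hδ, der_sum_apply]; simp [hDη]
    have hdA₀ : dm δ A₀ = 0 := by
      ext i j; exact hδc _ fun r => hDc r (.inl (i, j))
    have hdC : dm δ C = 0 := by
      ext i j; exact hδc _ fun r => hDc r (.inr (.inl (i, j)))
    have hdA : ∀ s, dm δ (A s) = 0 := by
      intro s; ext i j; exact hδc _ fun r => hDc r (.inr (.inr (.inl (s, i, j))))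
    have hdB : ∀ s, dm δ (B s) = 0 := by
      intro s; ext i j; exact hδc _ fun r => hDc r (.inr (.inr (.inr (.inl (s, i, j)))))
    have hdU : ∀ s d, δ ((U s).coeff d) = 0 := by
      intro s d; exact hδc _ fun r => hDc r (.inr (.inr (.inr (.inr (s, d)))))
    let dp : (ℝ × (Fin m → ℝ) × (Fin a → ℝ)) → (ℝ × (Fin m → ℝ) × (Fin a → ℝ)) :=
      fun p => (δ p.1, fun i => δ (p.2.1 i), fun j => δ (p.2.2 j))
    have hdM : ∀ p, M (dp p) = dm δ (M p) := by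
      intro p
      simp only [hM, dp, dm_add, dm_sum, dm_smul, hdA₀, hdA, hdB, smul_zero, add_zero]
    have hpr : ∀ (n : ℕ) p, pr (dp^[n] p) = fun i => δ^[n] (p.2.1 i) := by
      intro n p
      induction n with
      | zero => rfl
      | succ n ih =>
        funext i
        rw [Function.iterate_succ_apply', Function.iterate_succ_apply', ← congrFun ih i]
        rfl
    have hb1 : dm δ b = a₁ η := by rw [ha₁, hδ, dm_sum_der]
    have hb2 : dm δ (dm δ b) = (2 : ℝ) • a₂ fun i j => η i * η j := by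
      rw [ha₂, smul_smul, hb1, ha₁, dm_sum]
      simp only [dm_smul, hδη, zero_smul, zero_add]
      rw [show (2 : ℝ) * (1 / 2) = 1 by norm_num, one_smul, Finset.sum_comm]
      refine Finset.sum_congr rfl fun j _ => ?_
      rw [hδ, dm_sum_der, Finset.smul_sum]
      refine Finset.sum_congr rfl fun i _ => ?_
      rw [smul_smul, mul_comm]
    refine ⟨dm δ (dm δ (dm δ b)), fun c => ?_⟩
    have hval : ∀ n : ℕ, (l c ∘ₗ pr) (dp^[n] (1, fun i => MvPolynomial.eval η₀ (U i), v))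
        = (n.factorial : ℝ) * (Polynomial.C (φ η) * Polynomial.X ^ 4
          + Polynomial.C (c * γ η) * Polynomial.X ^ 3
          + Polynomial.C (c ^ 2 * H η) * Polynomial.X ^ 2 : Polynomial ℝ).coeff n := by
      intro n
      rw [← lin_coeff_lineP U (l c) η₀ η _ _ _ (fun e => by rw [hlu, hφ, hγ, hH]; ring) n,
        LinearMap.comp_apply, hpr, ← smul_eq_mul, ← map_smul]
      congr 1
      funext i
      have h1 := (dgood_lineP hδη₀ hδη (hdU i)).iter n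
      rw [Polynomial.coeff_zero_eq_eval_zero, eval_lineP, zero_smul, add_zero] at h1
      exact h1
    obtain ⟨h2, h3, h4⟩ := jet_identities (LinearMap.fst ℝ ℝ _) (l c ∘ₗ pr) M C δ dp hdM
      (fun _ => rfl) hdC (G c) (μ c) (hμ c) (hG c) (hGl c) _ b hb rfl
      (by have := hlu c 0; rw [add_zero, hφ0, hγ0, hH0] at this; simpa [pr] using this)
    rw [hval] at h2 h3 h4
    generalize dm δ (dm δ (dm δ b)) = b₃ at h4 ⊢
    rw [hb2, hb1] at *
    simp only [Polynomial.coeff_add, Polynomial.coeff_C_mul, Polynomial.coeff_X_pow, map_smul,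
      LinearMap.smul_apply, smul_eq_mul, Nat.factorial] at h2 h3 h4
    norm_num at h2 h3 h4
    refine ⟨by linarith, by linarith, by linarith⟩
  -- uniform bound of `G c 1`
  obtain ⟨Bd, hBd⟩ : ∃ Bd : ℝ, ∀ c ∈ Set.Icc (0 : ℝ) 1, G c 1 ≤ Bd := by
    obtain ⟨Bd, hBd⟩ := (isCompact_Icc (a := (0 : ℝ)) (b := 1)).bddAbove_image
      (hlc (pr p₀)).continuousOn
    refine ⟨Bd, fun c hc => ?_⟩
    have h1 := hGl c p₀ 1 Matrix.isSymm_one (by rw [Matrix.mul_one]; exact hC)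
    have h2 := hBd ⟨c, hc, rfl⟩
    have h3 := mul_nonneg (hμ c) hs₀.le
    simp only [LinearMap.comp_apply] at h1
    linarith
  let cs : ℕ → ℝ := fun n => 1 / ((n : ℝ) + 1)
  have hcs : ∀ n, 0 < cs n := fun n => by simp only [cs]; positivity
  have hcs1 : ∀ n, cs n ∈ Set.Icc (0 : ℝ) 1 := fun n =>
    ⟨(hcs n).le, by
      simp only [cs]; rw [div_le_one (by positivity)]; linarith [(n.cast_nonneg : (0 : ℝ) ≤ n)]⟩
  let T : ℝ → ((ι → ℝ) × (ι → ι → ℝ)) →ₗ[ℝ] Matrix (Fin k) (Fin k) ℝ :=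
    fun c => c⁻¹ • (a₁ ∘ₗ LinearMap.fst ℝ _ _) + a₂ ∘ₗ LinearMap.snd ℝ _ _
  let F : ℕ → ((ι → ℝ) × (ι → ι → ℝ)) →ₗ[ℝ] ((ι → ℝ) × (ι → ι → ℝ)) →ₗ[ℝ] ℝ :=
    fun n => (ip (G (cs n))).compl₁₂ (T (cs n)) (T (cs n))
  have hF : ∀ n x y, F n x y = ip (G (cs n)) (T (cs n) x) (T (cs n) y) := fun _ _ _ => rfl
  have hT1 : ∀ c y, T c (y, 0) = c⁻¹ • a₁ y := by intro c y; simp [T]
  have hT2 : ∀ c Y, T c (0, Y) = a₂ Y := by intro c Y; simp [T]
  have hFs : ∀ n x y, F n x y = F n y x := fun n x y => ip_symm _ _ _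
  have hFp : ∀ n x, 0 ≤ F n x x := fun n x => ip_nonneg (hG _) _
  have hF1 : ∀ n η, F n (η, 0) (η, 0) = H η := by
    intro n
    refine eq_of_rat (continuous_bilin _ (by fun_prop) (by fun_prop)) hHc fun q => ?_
    obtain ⟨b₃, h⟩ := hjet q
    rw [hF, hT1]
    simp only [map_smul, LinearMap.smul_apply, smul_eq_mul, (h _).1]
    field_simp [(hcs n).ne']
  have hF2 : ∀ n (η : ι → ℝ), 2 * F n (η, 0) (0, fun i j => η i * η j) = γ η := by
    intro n
    refine eq_of_rat ((continuous_bilin _ (by fun_prop) (by fun_prop)).const_mul 2) hγc fun q => ?_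
    obtain ⟨b₃, h⟩ := hjet q
    rw [hF, hT1, hT2]
    simp only [map_smul, LinearMap.smul_apply, smul_eq_mul]
    rw [mul_left_comm, (h _).2.1]
    field_simp [(hcs n).ne']
  have hpol : ∀ n x y, |F n x y| ≤ (F n x x + F n y y) / 2 := by
    intro n x y
    have h1 := hFp n (x + y)
    have h2 := hFp n (x - y)
    simp only [map_add, map_sub, LinearMap.add_apply, LinearMap.sub_apply] at h1 h2
    rw [hFs n y x] at h1 h2
    rw [abs_le]; constructor <;> linarith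
  have hbd : ∀ x, ∃ Cx, ∀ n, F n x x ≤ Cx := by
    rintro ⟨y, Y⟩
    obtain ⟨r, hr, hrb⟩ := ip_bound (a₂ Y)
    refine ⟨2 * H y + 2 * (r * Bd), fun n => ?_⟩
    have h1 : F n (0, Y) (0, Y) ≤ r * Bd := by
      rw [hF, hT2]
      exact (hrb _ (hG _)).trans (mul_le_mul_of_nonneg_left (hBd _ (hcs1 n)) hr)
    have h2 := hpol n (y, 0) (0, Y)
    have e : ((y, Y) : (ι → ℝ) × (ι → ι → ℝ)) = (y, 0) + (0, Y) := by simp
    rw [e]
    simp only [map_add, LinearMap.add_apply]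
    rw [hFs n (0, Y) (y, 0), hF1] at *
    linarith [le_abs_self (F n (y, 0) (0, Y))]
  obtain ⟨G', hG'⟩ := exists_limit_form F (fun x y => by
    obtain ⟨Cx, hx⟩ := hbd x
    obtain ⟨Cy, hy⟩ := hbd y
    exact ⟨(Cx + Cy) / 2, fun n => (hpol n x y).trans (by linarith [hx n, hy n])⟩)
  refine ⟨G', fun x y => ?_, fun x => ?_, fun η => ⟨?_, ?_, ?_⟩⟩
  · refine tendsto_nhds_unique (hG' x y) ?_
    simp only [hFs _ x y]; exact hG' y x
  · exact ge_of_tendsto' (hG' x x) fun n => hFp n x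
  · refine tendsto_nhds_unique (hG' _ _) ?_
    simp only [hF1]; exact tendsto_const_nhds
  · refine tendsto_nhds_unique ((hG' _ _).const_mul 2) ?_
    simp only [hF2]; exact tendsto_const_nhds
  · revert η
    refine eq_of_rat (continuous_bilin _ (by fun_prop) (by fun_prop)) hφc fun q => ?_
    obtain ⟨b₃, h⟩ := hjet q
    obtain ⟨r, hr, hrb⟩ := ip_bound b₃
    refine tendsto_nhds_unique (hG' _ _) ?_
    simp only [hF, hT2, (h _).2.2]
    have hc0 : Tendsto cs (hyperfilter ℕ : Filter ℕ) (𝓝 0) :=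
      tendsto_one_div_add_atTop_nhds_zero_nat.mono_left Nat.hyperfilter_le_atTop
    have h0 : Tendsto (fun n => ip (G (cs n)) (a₁ fun i => q i) b₃) (hyperfilter ℕ : Filter ℕ)
        (𝓝 0) := by
      have h1 : Tendsto (fun n => Real.sqrt (cs n ^ 2 * H (fun i => q i) * (r * Bd)))
          (hyperfilter ℕ : Filter ℕ) (𝓝 0) := by
        have := (((hc0.pow 2).mul_const (H (fun i => q i))).mul_const (r * Bd)).sqrt
        simpa using this
      refine squeeze_zero_norm (fun n => ?_) h1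
      refine Real.abs_le_sqrt ?_
      refine (cs_form _ (ip_symm _) (ip_nonneg (hG _)) _ _).trans ?_
      rw [← (h (cs n)).1]
      exact mul_le_mul_of_nonneg_left
        ((hrb _ (hG _)).trans (mul_le_mul_of_nonneg_left (hBd _ (hcs1 n)) hr)) (ip_nonneg (hG _) _)
    simpa using (h0.div_const 3).const_sub (φ fun i => q i)

end Crest.Agent.R237.NS
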