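import Crest.Agent.R237.NSAlg

/-! # S0367: existence of the quadratic form `Γ` -/

set_option autoImplicit false

namespace Crest.Agent.R237.NS

open scoped BigOperators

/-! ### quadratic forms given by a symmetric Gram matrix -/

/-- `q` is the quadratic form of a symmetric Gram matrix -/
def DataRep (q : (J (Fin 11) (Fin 4) → ℝ) → ℝ) : Prop :=
  ∃ g : J (Fin 11) (Fin 4) → J (Fin 11) (Fin 4) → ℝ, (∀ j j', g j j' = g j' j) ∧
    ∀ M, Gam g M M = q M

theorem DataRep.add {q q' : (J (Fin 11) (Fin 4) → ℝ) → ℝ} (h : DataRep q) (h' : DataRep q') :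
    DataRep (fun M => q M + q' M) := by
  obtain ⟨g, hg, e⟩ := h
  obtain ⟨g', hg', e'⟩ := h'
  refine ⟨fun j j' => g j j' + g' j j', fun j j' => by beta_reduce; rw [hg j j', hg' j j'],
    fun M => ?_⟩
  beta_reduce
  rw [← e, ← e']
  simp only [Gam, Algebra.algebraMap_self, RingHom.id_apply, add_mul, Finset.sum_add_distrib]

theorem DataRep.smul {q : (J (Fin 11) (Fin 4) → ℝ) → ℝ} (h : DataRep q) (c : ℝ) :
    DataRep (fun M => c * q M) := by
  obtain ⟨g, hg, e⟩ := h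
  refine ⟨fun j j' => c * g j j', fun j j' => by beta_reduce; rw [hg j j'], fun M => ?_⟩
  beta_reduce
  rw [← e]
  simp only [Gam, Algebra.algebraMap_self, RingHom.id_apply, Finset.mul_sum, mul_assoc]

theorem DataRep.sum {ι : Type} (s : Finset ι) {q : ι → (J (Fin 11) (Fin 4) → ℝ) → ℝ}
    (h : ∀ i, DataRep (q i)) : DataRep (fun M => ∑ i ∈ s, q i M) := by
  classical
  induction s using Finset.induction_on with
  | empty => exact ⟨fun _ _ => 0, fun _ _ => rfl, fun M => by simp [Gam]⟩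
  | insert i s hi ih =>
    simp only [Finset.sum_insert hi]
    exact (h i).add ih

theorem DataRep.mul (L L' : (J (Fin 11) (Fin 4) → ℝ) →ₗ[ℝ] ℝ) :
    DataRep (fun M => L M * L' M) := by
  have key : ∀ L : (J (Fin 11) (Fin 4) → ℝ) →ₗ[ℝ] ℝ, ∃ l : J (Fin 11) (Fin 4) → ℝ,
      ∀ M, L M = ∑ j, l j * M j := fun L =>
    ⟨fun j => L fun j' => if j = j' then 1 else 0, fun M => by
      rw [LinearMap.pi_apply_eq_sum_univ]
      exact Finset.sum_congr rfl fun j _ => by rw [smul_eq_mul, mul_comm]⟩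
  obtain ⟨l, hl⟩ := key L
  obtain ⟨l', hl'⟩ := key L'
  refine ⟨fun j j' => (l j * l' j' + l' j * l j') / 2, fun j j' => by ring, fun M => ?_⟩
  have h1 : L M * L' M = (L M * L' M + L' M * L M) / 2 := by ring
  beta_reduce
  rw [h1, hl, hl']
  simp only [Gam, Algebra.algebraMap_self, RingHom.id_apply, Finset.sum_mul_sum,
    ← Finset.sum_add_distrib, Finset.sum_div]
  exact Finset.sum_congr rfl fun j _ => Finset.sum_congr rfl fun j' _ => by ring

theorem data_Gam_smul (g : J (Fin 11) (Fin 4) → J (Fin 11) (Fin 4) → ℝ) (c : ℝ)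
    (M : J (Fin 11) (Fin 4) → ℝ) : Gam g (c • M) (c • M) = c ^ 2 * Gam g M M := by
  simp only [Gam, Algebra.algebraMap_self, RingHom.id_apply, Finset.mul_sum, Pi.smul_apply,
    smul_eq_mul]
  exact Finset.sum_congr rfl fun j _ => Finset.sum_congr rfl fun j' _ => by ring

/-! ### the atoms -/

def dataA : Fin 11 → Fin 3 → ℝ :=
  ![![1, 0, 0], ![0, 1, 0], ![0, 0, 1], ![1, 0, 0], ![0, 1, 0], ![0, 0, 1], ![0, 0, 1],
    ![1, 0, 0], ![0, 1, 0], ![1, 1, 0], ![0, 1, 1]]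

def dataX : Fin 11 → Fin 4 → ℝ :=
  ![![0, 0, 1, 0], ![0, 1, 0, 0], ![1, 1, 0, 0], ![0, 0, 0, 1], ![0, 0, 0, 1], ![0, 1, 0, 0],
    ![0, 0, 1, 0], ![1, 0, 1, 0], ![1, 1, 0, 0], ![0, 1, -1, 0], ![0, 0, 1, -1]]

def dataC : Fin 11 → Fin 4 → ℝ :=
  ![![0, 0, 0, 1], ![0, 0, 0, -1], ![0, 0, 1, 0], ![0, 0, -1, 0], ![0, 1, 0, 0], ![0, 0, 1, 0],
    ![0, -1, 0, 0], ![0, 0, 0, 1], ![0, 0, 0, -1], ![0, 0, 0, -1], ![0, -1, 0, 0]]

def dataXi (k' k : Fin 11) : ℝ :=
  (if k' = k then 1 else 0) - (if k' = 0 then dataA k 0 else 0)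
    - (if k' = 1 then dataA k 1 else 0) - (if k' = 2 then dataA k 2 else 0)

/-- `x_k ∧ c_k` -/
def dataM (c : Fin 11 → Fin 4 → ℝ) (k : Fin 11) (i j : Fin 4) : ℝ :=
  dataX k i * c k j - dataX k j * c k i

def dataPsi : (Fin 11 → Fin 4 → ℝ) →ₗ[ℝ] (J (Fin 11) (Fin 4) → ℝ) where
  toFun c := fun j => ∑ a, wedge (tens (dataXi a) (dataX a)) (c a) j
  map_add' c c' := by
    funext j
    simp only [wedge, Pi.add_apply, ← Finset.sum_add_distrib]
    exact Finset.sum_congr rfl fun a _ => by ring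
  map_smul' r c := by
    funext j
    simp only [wedge, Pi.smul_apply, smul_eq_mul, RingHom.id_apply, Finset.mul_sum]
    exact Finset.sum_congr rfl fun a _ => by ring

theorem dataPsi_apply (c : Fin 11 → Fin 4 → ℝ) (k : Fin 11) (i j : Fin 4) :
    dataPsi c (k, i, j) = dataM c k i j - dataA k 0 * dataM c 0 i j - dataA k 1 * dataM c 1 i j
      - dataA k 2 * dataM c 2 i j := by
  have h : ∀ a, wedge (tens (dataXi a) (dataX a)) (c a) (k, i, j) = dataXi a k * dataM c a i j :=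
    fun a => by simp only [wedge, tens, dataM]; ring
  change ∑ a, wedge (tens (dataXi a) (dataX a)) (c a) (k, i, j) = _
  simp only [h, dataXi, sub_mul, ite_mul, one_mul, zero_mul, Finset.sum_sub_distrib,
    Finset.sum_ite_eq', Finset.mem_univ, if_true]

theorem dataPsi_single (k : Fin 11) (v : Fin 4 → ℝ) :
    dataPsi (Pi.single k v) = wedge (tens (dataXi k) (dataX k)) v := by
  funext j
  change ∑ a, wedge (tens (dataXi a) (dataX a)) ((Pi.single k v : Fin 11 → Fin 4 → ℝ) a) j = _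
  rw [Finset.sum_eq_single k]
  · simp
  · intro a _ ha
    simp [Pi.single_eq_of_ne ha, wedge]
  · simp

/-- the form `G`, in terms of coordinates of `M` -/
def dataG (M : J (Fin 11) (Fin 4) → ℝ) : ℝ :=
  M (4, 1, 2) * M (5, 0, 3) + (M (8, 0, 3) - M (8, 1, 3)) * M (5, 0, 2)

theorem dataG_rep : DataRep dataG := by
  let p : J (Fin 11) (Fin 4) → (J (Fin 11) (Fin 4) → ℝ) →ₗ[ℝ] ℝ := fun j => LinearMap.proj j
  exact (DataRep.mul (p (4, 1, 2)) (p (5, 0, 3))).add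
    (DataRep.mul (p (8, 0, 3) - p (8, 1, 3)) (p (5, 0, 2)))

theorem dataG_Psi (c : Fin 11 → Fin 4 → ℝ) :
    dataG (dataPsi c) = c 1 2 * c 2 3 - c 1 3 * c 2 2 := by
  simp only [dataG, dataPsi_apply, dataM]
  simp [dataA, dataX]
  ring

theorem dataG_single (k : Fin 11) (v : Fin 4 → ℝ) : dataG (dataPsi (Pi.single k v)) = 0 := by
  rw [dataG_Psi]
  by_cases h1 : k = 1
  · subst h1; simp
  · simp [Pi.single_eq_of_ne (Ne.symm h1)]

/-- `u ∧ M = 0` -/
def DataZ (u : Fin 4 → ℝ) (M : J (Fin 11) (Fin 4) → ℝ) : Prop :=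
  ∀ k i j l, u i * M (k, j, l) + u j * M (k, l, i) + u l * M (k, i, j) = 0

theorem data_key {u : Fin 4 → ℝ} (hu : u ≠ 0) (c : Fin 11 → Fin 4 → ℝ)
    (h : DataZ u (dataPsi c)) : 0 ≤ dataG (dataPsi c) := by
  rw [dataG_Psi]
  have h3 := h 3 0 1 2
  have h4 := h 4 0 1 2
  have h5 := h 5 0 2 3
  have h6 := h 6 0 1 3
  have h7 := h 7 0 1 3
  have h7' := h 7 1 2 3
  have h8 := h 8 0 2 3
  have h8' := h 8 1 2 3
  have h9 := h 9 0 2 3
  have h9' := h 9 0 1 3
  have h10 := h 10 0 1 3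
  have h10' := h 10 0 1 2
  simp only [dataPsi_apply, dataM, dataA, dataX, Matrix.cons_val, Matrix.cons_val_zero,
    Matrix.cons_val_one] at h3 h4 h5 h6 h7 h7' h8 h8' h9 h9' h10 h10'
  obtain ⟨ρ, hρ⟩ : ∃ ρ, ρ = -u 0 * c 1 3 + u 3 * c 1 0 := ⟨_, rfl⟩
  have E1 : u 0 * c 1 2 = u 2 * c 1 0 := by linear_combination -h4
  have E2 : u 2 * c 1 3 = u 3 * c 1 2 := by linear_combination h8' - h8
  have E5 : (u 0 - u 1) * c 2 3 + u 3 * (c 2 1 - c 2 0) = 0 := by linear_combination -h6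
  have E6 : u 2 * c 2 3 = u 3 * c 2 2 := by linear_combination h5
  have E4 : (u 0 - u 1) * c 2 2 + u 2 * (c 2 1 - c 2 0) = ρ := by
    linear_combination -hρ - h10 - h10' - E5 - E1
  have F13 : u 1 * c 0 0 = u 0 * c 0 1 := by linear_combination -h3
  have F10 : u 1 * c 0 3 = u 3 * c 0 1 := by linear_combination -h7 - h7'
  have F11 : u 0 * c 0 3 - u 3 * c 0 0 = ρ := by linear_combination -hρ - h9 - h9'
  have R1 : ρ * u 1 = 0 := by linear_combination -u 1 * F11 + u 0 * F10 - u 3 * F13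
  have R2 : ρ * u 2 = 0 := by linear_combination u 2 * hρ - u 0 * E2 - u 3 * E1
  have R3 : ρ * u 3 = 0 := by linear_combination -u 3 * E4 + u 2 * E5 - (u 0 - u 1) * E6
  by_contra hneg
  have hG : c 1 2 * c 2 3 - c 1 3 * c 2 2 ≠ 0 := fun h0 => hneg h0.ge
  have u2 : u 2 = 0 := (mul_eq_zero.1 (show u 2 * (c 1 2 * c 2 3 - c 1 3 * c 2 2) = 0 by
    linear_combination c 1 2 * E6 - c 2 2 * E2)).resolve_right hG
  have u3 : u 3 = 0 := (mul_eq_zero.1 (show u 3 * (c 1 2 * c 2 3 - c 1 3 * c 2 2) = 0 by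
    linear_combination c 1 3 * E6 - c 2 3 * E2)).resolve_right hG
  rw [u2] at E1 E4
  rw [u3] at E5 hρ
  by_cases hr : ρ = 0
  · have u0 : u 0 = 0 := (mul_eq_zero.1 (show u 0 * (c 1 2 * c 2 3 - c 1 3 * c 2 2) = 0 by
      linear_combination c 2 3 * E1 - c 2 2 * hρ + c 2 2 * hr)).resolve_right hG
    have u1 : u 1 = 0 := (mul_eq_zero.1 (show u 1 * (c 1 2 * c 2 3 - c 1 3 * c 2 2) = 0 by
      linear_combination -c 1 2 * E5 + c 1 3 * E4 + c 1 3 * hr
        + (c 1 2 * c 2 3 - c 1 3 * c 2 2) * u0)).resolve_right hG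
    apply hu
    funext i
    fin_cases i
    exacts [u0, u1, u2, u3]
  · have u1 : u 1 = 0 := (mul_eq_zero.1 R1).resolve_left hr
    have : u 0 ^ 2 * (c 1 2 * c 2 3 - c 1 3 * c 2 2) = ρ ^ 2 := by
      rw [u1] at E4
      linear_combination u 0 * c 2 3 * E1 - u 0 * c 2 2 * hρ + ρ * E4
    have h1 : 0 < ρ ^ 2 := by positivity
    nlinarith [sq_nonneg (u 0), not_le.1 hneg]

theorem dataZ_wedge (S : Fin 11 → Fin 4 → ℝ) (u : Fin 4 → ℝ) : DataZ u (wedge S u) := by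
  intro k i j l
  simp only [wedge]; ring

theorem data_penalty {X : Type} [TopologicalSpace X] {K : Set X} (hK : IsCompact K)
    {F P : X → ℝ} (hF : Continuous F) (hP : Continuous P) (h0 : ∀ x, 0 ≤ P x)
    (h : ∀ x ∈ K, P x = 0 → 0 < F x) : ∃ C : ℝ, ∀ x ∈ K, 0 ≤ F x + C * P x := by
  have hK' : IsCompact (K ∩ {x | F x ≤ 0}) := hK.inter_right (isClosed_le hF continuous_const)
  obtain ⟨δ, hδ, h1⟩ := hK'.exists_forall_le' (a := 0) hP.continuousOn fun x hx =>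
    lt_of_le_of_ne (h0 x) fun h2 => absurd (h x hx.1 h2.symm) (not_lt.2 hx.2)
  obtain ⟨m, hm⟩ := hK.bddBelow_image hF.continuousOn
  refine ⟨|m| / δ, fun x hx => ?_⟩
  have hC : 0 ≤ |m| / δ := by positivity
  by_cases h2 : F x ≤ 0
  · have h3 : m ≤ F x := hm ⟨x, hx, rfl⟩
    have h4 : |m| / δ * δ ≤ |m| / δ * P x := mul_le_mul_of_nonneg_left (h1 x ⟨hx, h2⟩) hC
    rw [div_mul_cancel₀ _ hδ.ne'] at h4
    linarith [neg_abs_le m]
  · have := mul_nonneg hC (h0 x)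
    linarith [not_le.1 h2]

theorem data_form (ε : ℝ) (hε : 0 < ε) :
    ∃ g : J (Fin 11) (Fin 4) → J (Fin 11) (Fin 4) → ℝ, Good g ∧
      ∀ c, Gam g (dataPsi c) (dataPsi c) = dataG (dataPsi c) + ε * ∑ j, dataPsi c j ^ 2 := by
  obtain ⟨T, hT⟩ := (LinearMap.range dataPsi).exists_isCompl
  let D := T.projection (LinearMap.range dataPsi) hT.symm
  have hD : ∀ M, D M = 0 ↔ M ∈ LinearMap.range dataPsi := fun M =>
    Submodule.projection_apply_eq_zero_iff hT.symm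
  have hDc : Continuous D := D.continuous_of_finiteDimensional
  let K : Set ((J (Fin 11) (Fin 4) → ℝ) × (Fin 4 → ℝ)) :=
    (Metric.sphere 0 1 ×ˢ Metric.sphere 0 1) ∩ {p | DataZ p.2 p.1}
  have hK : IsCompact K := by
    refine ((isCompact_sphere _ _).prod (isCompact_sphere _ _)).inter_right ?_
    simp only [DataZ, Set.ofPred_forall]
    refine isClosed_iInter fun k => isClosed_iInter fun i => isClosed_iInter fun j =>
      isClosed_iInter fun l => isClosed_eq (by fun_prop) continuous_const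
  obtain ⟨C, hC⟩ := data_penalty hK (F := fun p => dataG p.1 + ε * ∑ j, p.1 j ^ 2)
    (P := fun p => ∑ j, D p.1 j ^ 2) (by unfold dataG; fun_prop) (by fun_prop)
    (fun p => Finset.sum_nonneg fun j _ => sq_nonneg _) (by
      rintro ⟨M, u⟩ ⟨⟨hM, hu⟩, hz⟩ h0
      have h1 : D M = 0 := funext fun j => pow_eq_zero_iff (two_ne_zero) |>.1
        ((Finset.sum_eq_zero_iff_of_nonneg fun j _ => sq_nonneg _).1 h0 j (Finset.mem_univ _))
      obtain ⟨c, rfl⟩ := (hD M).1 h1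
      have hu0 : u ≠ 0 := by
        rintro rfl
        simp at hu
      have hM0 : dataPsi c ≠ 0 := by
        intro h2
        simp [h2] at hM
      have h2 := data_key hu0 c hz
      obtain ⟨j, hj⟩ := Function.ne_iff.1 hM0
      have h3 : 0 < ∑ j, dataPsi c j ^ 2 :=
        Finset.sum_pos' (fun j _ => sq_nonneg _) ⟨j, Finset.mem_univ _, sq_pos_of_ne_zero hj⟩
      have h4 := mul_pos hε h3
      simp only
      linarith)
  have hrep : DataRep (fun M => dataG M + ε * ∑ j, M j ^ 2 + C * ∑ j, D M j ^ 2) := by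
    refine (dataG_rep.add ((DataRep.sum _ fun j => ?_).smul ε)).add
      ((DataRep.sum _ fun j => ?_).smul C)
    · simpa [sq] using DataRep.mul (LinearMap.proj j) (LinearMap.proj j)
    · simpa [sq] using DataRep.mul (LinearMap.proj j ∘ₗ D) (LinearMap.proj j ∘ₗ D)
  obtain ⟨g, hg, e⟩ := hrep
  beta_reduce at e
  refine ⟨g, ⟨hg, fun S u => ?_⟩, fun c => ?_⟩
  · by_cases hM : wedge S u = 0
    · rw [hM]; simp [Gam]
    have hu : u ≠ 0 := by
      rintro rfl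
      exact hM (funext fun j => by simp [wedge])
    have hM' : ‖wedge S u‖ ≠ 0 := norm_ne_zero_iff.2 hM
    have hu' : ‖u‖ ≠ 0 := norm_ne_zero_iff.2 hu
    have h1 := hC (‖wedge S u‖⁻¹ • wedge S u, ‖u‖⁻¹ • u) ⟨⟨by simp [norm_smul, hM'],
      by simp [norm_smul, hu']⟩, fun k i j l => by
        have := dataZ_wedge S u k i j l
        simp only [Pi.smul_apply, smul_eq_mul]
        linear_combination ‖wedge S u‖⁻¹ * ‖u‖⁻¹ * this⟩
    simp only at h1
    rw [← e, data_Gam_smul] at h1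
    exact nonneg_of_mul_nonneg_right h1 (by positivity)
  · rw [e, (hD _).2 ⟨c, rfl⟩]
    simp

theorem data_wedge : wedge (fun k i => dataPsi dataC (k, i, 0)) (Pi.single 0 1) = dataPsi dataC := by
  funext ⟨k, i, j⟩
  simp only [wedge, dataPsi_apply, dataM]
  fin_cases k <;> fin_cases i <;> fin_cases j <;> simp [dataA, dataX, dataC]

theorem exists_data : ∃ (g : J (Fin 11) (Fin 4) → J (Fin 11) (Fin 4) → ℝ) (α : Fin 4 → ℝ)
    (z : Fin 11 → Fin 4 → ℝ) (ξ : Fin 11 → Fin 11 → ℝ) (x c : Fin 11 → Fin 4 → ℝ),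
    Good g ∧ (wedge z α = fun j => ∑ a, wedge (tens (ξ a) (x a)) (c a) j) ∧
      (∑ a, phi g (ξ a) (x a)) * ∑ a, ∑ i, c a i ^ 2 < Gam g (wedge z α) (wedge z α) := by
  obtain ⟨A, hA⟩ : ∃ A : ℝ,
    A = ∑ a : Fin 11, ∑ i : Fin 4, ∑ j, dataPsi (Pi.single a (Pi.single i 1)) j ^ 2 := ⟨_, rfl⟩
  obtain ⟨B, hB⟩ : ∃ B : ℝ, B = ∑ a, ∑ i, dataC a i ^ 2 := ⟨_, rfl⟩
  have hA0 : 0 ≤ A := hA ▸ Finset.sum_nonneg fun _ _ => Finset.sum_nonneg fun _ _ =>
    Finset.sum_nonneg fun _ _ => sq_nonneg _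
  have hB0 : 0 ≤ B := hB ▸ Finset.sum_nonneg fun _ _ => Finset.sum_nonneg fun _ _ => sq_nonneg _
  have hε : 0 < 1 / (A * B + 1) := by positivity
  obtain ⟨g, hg, e⟩ := data_form _ hε
  refine ⟨g, Pi.single 0 1, fun k i => dataPsi dataC (k, i, 0), dataXi, dataX, dataC, hg,
    data_wedge, ?_⟩
  have h1 : ∑ a, phi g (dataXi a) (dataX a) = 1 / (A * B + 1) * A := by
    generalize 1 / (A * B + 1) = ε at e
    rw [hA, Finset.mul_sum]
    refine Finset.sum_congr rfl fun a _ => ?_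
    rw [phi, Qf, Finset.mul_sum]
    refine Finset.sum_congr rfl fun i _ => ?_
    rw [← dataPsi_single, e, dataG_single, zero_add]
  have h2 : dataG (dataPsi dataC) = 1 := by
    rw [dataG_Psi]; simp [dataC]
  rw [data_wedge, e, h1, h2, ← hB]
  have h3 : 1 / (A * B + 1) * A * B < 1 := by
    rw [mul_assoc, one_div_mul_eq_div, div_lt_one (by positivity)]
    linarith
  have h4 : 0 ≤ 1 / (A * B + 1) * ∑ j, dataPsi dataC j ^ 2 :=
    mul_nonneg hε.le (Finset.sum_nonneg fun _ _ => sq_nonneg _)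
  linarith

end Crest.Agent.R237.NS
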