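import Mathlib

/-!
# S0367 (a hyperbolicity cone that is no spectrahedral shadow): definitions

`ν` indexes `V'`, `ρ` indexes `U`.  `J ν ρ → R` is the space containing `V' ⊗ Λ² U`,
`g` is the Gram matrix of the quadratic form `Γ`.  Everything is defined over an arbitrary
commutative `ℝ`-algebra `R` (used with `R = ℝ`, `ℂ`, `MvPolynomial _ ℝ`).
-/

set_option autoImplicit false

namespace Crest.Agent.R237.NS

open scoped BigOperators

/-- coordinates of `V' ⊗ U ⊗ U` -/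
abbrev J (ν ρ : Type) := ν × ρ × ρ

/-- coordinates of the test vector `w = (s, α, β)`: `none` is `s`, `some (inl i)` is `α i`,
`some (inr a)` is `β a` -/
abbrev I (ν ρ : Type) := Option (ρ ⊕ ν)

/-- the variables `t, σ, κ, k, S, X` -/
inductive Var (ν ρ : Type) : Type
  | t : Var ν ρ
  | s : Var ν ρ
  | ka : ν → Var ν ρ
  | k : ρ → Var ν ρ
  | S : ν → ρ → Var ν ρ
  | X : I ν ρ → I ν ρ → Var ν ρ

instance {ν ρ : Type} [Finite ν] [Finite ρ] : Finite (Var ν ρ) := by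
  refine Finite.of_surjective
    (fun z : Bool ⊕ ν ⊕ ρ ⊕ (ν × ρ) ⊕ (I ν ρ × I ν ρ) => match z with
      | .inl true => Var.t
      | .inl false => Var.s
      | .inr (.inl a) => Var.ka a
      | .inr (.inr (.inl i)) => Var.k i
      | .inr (.inr (.inr (.inl (a, i)))) => Var.S a i
      | .inr (.inr (.inr (.inr (a, b)))) => Var.X a b) ?_
  intro v
  cases v with
  | t => exact ⟨.inl true, rfl⟩
  | s => exact ⟨.inl false, rfl⟩
  | ka a => exact ⟨.inr (.inl a), rfl⟩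
  | k i => exact ⟨.inr (.inr (.inl i)), rfl⟩
  | S a i => exact ⟨.inr (.inr (.inr (.inl (a, i)))), rfl⟩
  | X a b => exact ⟨.inr (.inr (.inr (.inr (a, b)))), rfl⟩

section defs

variable {ν ρ : Type} [Fintype ν] [Fintype ρ] [DecidableEq ν] [DecidableEq ρ]
variable {R : Type} [CommRing R] [Algebra ℝ R]

/-- `ξ ⊗ x` -/
def tens (ξ : ν → R) (x : ρ → R) : ν → ρ → R := fun a i => ξ a * x i

/-- `S ∧ u` -/
def wedge (S : ν → ρ → R) (u : ρ → R) : J ν ρ → R :=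
  fun j => S j.1 j.2.1 * u j.2.2 - S j.1 j.2.2 * u j.2.1

/-- the bilinear form `Γ` with Gram matrix `g` -/
def Gam (g : J ν ρ → J ν ρ → ℝ) (M M' : J ν ρ → R) : R :=
  ∑ j, ∑ j', algebraMap ℝ R (g j j') * M j * M' j'

/-- `Q(S,S') = ∑ i, Γ(S ∧ e i, S' ∧ e i)` -/
def Qf (g : J ν ρ → J ν ρ → ℝ) (S S' : ν → ρ → R) : R :=
  ∑ i : ρ, Gam g (wedge S (Pi.single i 1)) (wedge S' (Pi.single i 1))

/-- `α`-part of a test vector -/
def al (w : I ν ρ → R) : ρ → R := fun i => w (some (.inl i))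

/-- `β`-part of a test vector -/
def be (w : I ν ρ → R) : ν → R := fun a => w (some (.inr a))

/-- `Y(w) = s S + β ⊗ k + κ ⊗ α` -/
def Yv (κ : ν → R) (k : ρ → R) (S : ν → ρ → R) (w : I ν ρ → R) : ν → ρ → R :=
  fun a i => w none * S a i + be w a * k i + κ a * al w i

def vka (y : Var ν ρ → R) : ν → R := fun a => y (.ka a)
def vk (y : Var ν ρ → R) : ρ → R := fun i => y (.k i)
def vS (y : Var ν ρ → R) : ν → ρ → R := fun a i => y (.S a i)

/-- `Δ = t σ - |k|²` -/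
def Del (y : Var ν ρ → R) : R := y .t * y .s - ∑ i, y (.k i) ^ 2

/-- `Y(w) ∧ k + t S ∧ α(w)` -/
def Pw (y : Var ν ρ → R) (w : I ν ρ → R) : J ν ρ → R :=
  fun j => wedge (Yv (vka y) (vk y) (vS y) w) (vk y) j + y .t * wedge (vS y) (al w) j

/-- `t Δ Φ(w,w')` -/
def Num (g : J ν ρ → J ν ρ → ℝ) (y : Var ν ρ → R) (w w' : I ν ρ → R) : R :=
  Del y * Qf g (Yv (vka y) (vk y) (vS y) w) (Yv (vka y) (vk y) (vS y) w')
    + Gam g (Pw y w) (Pw y w')

/-- the matrix `t Δ (X + Xᵀ - Φ)` -/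
def Mat (g : J ν ρ → J ν ρ → ℝ) (y : Var ν ρ → R) : Matrix (I ν ρ) (I ν ρ) R :=
  Matrix.of fun a b => y .t * Del y * (y (.X a b) + y (.X b a))
    - Num g y (Pi.single a 1) (Pi.single b 1)

/-- the polynomial, as a function of the values of the variables -/
def pgen (g : J ν ρ → J ν ρ → ℝ) (y : Var ν ρ → R) : R :=
  y .t * Del y * (Mat g y).det

/-- the direction of hyperbolicity -/
def egen : Var ν ρ → ℝ
  | .t => 1
  | .s => 1
  | .ka _ => 0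
  | .k _ => 0
  | .S _ _ => 0
  | .X a b => if a = b then 1 else 0

/-- the primal polynomial map `u(ξ, x)` -/
noncomputable def ugen (g : J ν ρ → J ν ρ → ℝ) (ξ : ν → R) (x : ρ → R) : Var ν ρ → R
  | .t => 1
  | .s => ∑ i, x i ^ 2
  | .ka a => ξ a
  | .k i => x i
  | .S a i => ξ a * x i
  | .X a b => algebraMap ℝ R (1 / 2) *
      Qf g (Yv ξ x (tens ξ x) (Pi.single a 1)) (Yv ξ x (tens ξ x) (Pi.single b 1))

/-- the test vector `(1, α - x₀, -ξ₀)` -/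
def wc (ξ₀ : ν → ℝ) (x₀ α : ρ → ℝ) : I ν ρ → ℝ
  | none => 1
  | some (.inl i) => α i - x₀ i
  | some (.inr a) => -ξ₀ a

/-- translated `S` -/
def St (ξ₀ : ν → ℝ) (x₀ : ρ → ℝ) (y : Var ν ρ → ℝ) : ν → ρ → ℝ :=
  fun a i => y (.S a i) - ξ₀ a * y (.k i) - y (.ka a) * x₀ i + y .t * (ξ₀ a * x₀ i)

/-- translated `σ` -/
def sigt (x₀ : ρ → ℝ) (y : Var ν ρ → ℝ) : ℝ :=
  y .s - 2 * ∑ i, x₀ i * y (.k i) + y .t * ∑ i, x₀ i ^ 2

/-- the dual functional (linear in `y`) -/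
def ell (g : J ν ρ → J ν ρ → ℝ) (ξ₀ : ν → ℝ) (x₀ α : ρ → ℝ) (z : ν → ρ → ℝ)
    (y : Var ν ρ → ℝ) : ℝ :=
  (∑ a, ∑ b, wc ξ₀ x₀ α a * (y (.X a b) + y (.X b a)) * wc ξ₀ x₀ α b)
    - 2 * Qf g (fun a i => St ξ₀ x₀ y a i + (y (.ka a) - y .t * ξ₀ a) * α i) (tens ξ₀ (α - x₀))
    - y .t * Qf g (tens ξ₀ (α - x₀)) (tens ξ₀ (α - x₀))
    - 2 * Gam g (wedge (St ξ₀ x₀ y) α) (wedge z α)
    + sigt x₀ y * Gam g (wedge z α) (wedge z α)

/-- the standing hypotheses on `Γ`: symmetric, and nonnegative on all `S ∧ u` -/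
structure Good (g : J ν ρ → J ν ρ → ℝ) : Prop where
  symm : ∀ j j', g j j' = g j' j
  nonneg : ∀ (S : ν → ρ → ℝ) (u : ρ → ℝ), 0 ≤ Gam g (wedge S u) (wedge S u)

/-- quartic part of the slack -/
def phi (g : J ν ρ → J ν ρ → ℝ) (ξ : ν → ℝ) (x : ρ → ℝ) : ℝ := Qf g (tens ξ x) (tens ξ x)

/-- cubic part of the slack -/
def gam (g : J ν ρ → J ν ρ → ℝ) (α : ρ → ℝ) (ξ : ν → ℝ) (x : ρ → ℝ) : ℝ :=
  2 * Qf g (tens ξ x) (tens ξ α)

/-- quadratic part of the slack -/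
def HH (g : J ν ρ → J ν ρ → ℝ) (α : ρ → ℝ) (z : ν → ρ → ℝ) (ξ : ν → ℝ) (x : ρ → ℝ) : ℝ :=
  Qf g (tens ξ α) (tens ξ α) - 2 * Gam g (wedge (tens ξ x) α) (wedge z α)
    + (∑ i, x i ^ 2) * Gam g (wedge z α) (wedge z α)

end defs

end Crest.Agent.R237.NS
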