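import Mathlib

/-! # S0367: facial reduction and dual multipliers for a matrix pencil -/

set_option autoImplicit false

namespace Crest.Agent.R237.NS

open Matrix

variable {P : Type} [AddCommGroup P] [Module ℝ P] {n : Type} [Fintype n] [DecidableEq n]

theorem nsdual_factor {V W W' : Type} [AddCommGroup V] [Module ℝ V] [AddCommGroup W] [Module ℝ W]
    [AddCommGroup W'] [Module ℝ W'] (f : V →ₗ[ℝ] W) (g : V →ₗ[ℝ] W')
    (h : LinearMap.ker f ≤ LinearMap.ker g) : ∃ k : W →ₗ[ℝ] W', k ∘ₗ f = g := by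
  obtain ⟨L, hL⟩ := ((LinearMap.ker f).liftQ f le_rfl).exists_leftInverse_of_injective
    (Submodule.ker_liftQ_eq_bot _ _ _ le_rfl)
  refine ⟨(LinearMap.ker f).liftQ g h ∘ₗ L, ?_⟩
  ext x
  have h1 : L (f x) = (LinearMap.ker f).mkQ x := by
    have := LinearMap.congr_fun hL ((LinearMap.ker f).mkQ x)
    simpa using this
  simp [h1]

open scoped MatrixOrder in
theorem nsdual_sqrt {A : Matrix n n ℝ} (hA : A.PosSemidef) : ∃ C : Matrix n n ℝ, A = C * Cᵀ := by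
  obtain ⟨B, hB⟩ := CStarAlgebra.nonneg_iff_eq_star_mul_self.mp hA.nonneg
  refine ⟨Bᵀ, ?_⟩
  rw [hB, star_eq_conjTranspose, conjTranspose_eq_transpose_of_trivial, transpose_transpose]

omit [DecidableEq n] in
theorem nsdual_ker_add {A B : Matrix n n ℝ} (hA : A.PosSemidef) (hB : B.PosSemidef) {x : n → ℝ}
    (hx : (A + B) *ᵥ x = 0) : A *ᵥ x = 0 := by
  have h1 := hA.dotProduct_mulVec_nonneg x
  have h2 := hB.dotProduct_mulVec_nonneg x
  have h3 : star x ⬝ᵥ (A *ᵥ x) + star x ⬝ᵥ (B *ᵥ x) = 0 := by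
    rw [← dotProduct_add, ← add_mulVec, hx, dotProduct_zero]
  exact (hA.dotProduct_mulVec_zero_iff x).mp (by linarith)

theorem nsdual_shift {Y : Matrix n n ℝ} (hY : Y.IsSymm) :
    ∃ r : ℝ, 0 ≤ r ∧ (r • (1 : Matrix n n ℝ) + Y).PosSemidef := by
  have hr : 0 ≤ ∑ i, ∑ j, |Y i j| :=
    Finset.sum_nonneg fun i _ => Finset.sum_nonneg fun j _ => abs_nonneg _
  refine ⟨∑ i, ∑ j, |Y i j|, hr, PosSemidef.of_dotProduct_mulVec_nonneg ?_ fun x => ?_⟩
  · unfold IsHermitian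
    rw [conjTranspose_eq_transpose_of_trivial, transpose_add, transpose_smul, transpose_one, hY.eq]
  · have hsq : ∀ i, x i ^ 2 ≤ x ⬝ᵥ x := fun i => by
      have := Finset.single_le_sum (f := fun k => x k * x k)
        (fun k _ => mul_self_nonneg (x k)) (Finset.mem_univ i)
      simpa [dotProduct, sq] using this
    have e : star x ⬝ᵥ (((∑ i, ∑ j, |Y i j|) • (1 : Matrix n n ℝ) + Y) *ᵥ x)
        = ∑ i, ∑ j, (|Y i j| * (x ⬝ᵥ x) + x i * (Y i j * x j)) := by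
      rw [add_mulVec, dotProduct_add, smul_mulVec, one_mulVec, dotProduct_smul, star_trivial,
        smul_eq_mul]
      simp only [Finset.sum_add_distrib, ← Finset.sum_mul]
      congr 1
      simp only [dotProduct, mulVec, Finset.mul_sum]
    rw [e]
    refine Finset.sum_nonneg fun i _ => Finset.sum_nonneg fun j _ => ?_
    have a1 := hsq i
    have a2 := hsq j
    have a3 : |x i * x j| ≤ x ⬝ᵥ x := by
      rw [abs_le]
      constructor <;> nlinarith [sq_nonneg (x i + x j), sq_nonneg (x i - x j)]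
    have a4 : |x i * (Y i j * x j)| ≤ |Y i j| * (x ⬝ᵥ x) := by
      rw [show x i * (Y i j * x j) = Y i j * (x i * x j) by ring, abs_mul]
      exact mul_le_mul_of_nonneg_left a3 (abs_nonneg _)
    linarith [neg_abs_le (x i * (Y i j * x j))]

/-- the pencil on the extended space -/
noncomputable def nsdualPhi (M : P →ₗ[ℝ] Matrix n n ℝ) (C : Matrix n n ℝ) :
    P × (Matrix n n ℝ × ℝ) →ₗ[ℝ] Matrix n n ℝ where
  toFun z := M z.1 + C * ((1 / 2 : ℝ) • (z.2.1 + z.2.1ᵀ)) * Cᵀ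
  map_add' z w := by
    simp only [Prod.fst_add, Prod.snd_add, map_add, transpose_add, smul_add, Matrix.mul_add,
      Matrix.add_mul]
    abel
  map_smul' a z := by
    simp only [Prod.smul_fst, Prod.smul_snd, map_smul, transpose_smul, smul_add, Matrix.mul_add,
      Matrix.add_mul, RingHom.id_apply, Matrix.mul_smul, Matrix.smul_mul, smul_comm a]

omit [DecidableEq n] in
theorem nsdualPhi_apply (M : P →ₗ[ℝ] Matrix n n ℝ) (C : Matrix n n ℝ) (p : P) (Y : Matrix n n ℝ)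
    (c : ℝ) : nsdualPhi M C (p, Y, c) = M p + C * ((1 / 2 : ℝ) • (Y + Yᵀ)) * Cᵀ := rfl

omit [DecidableEq n] in
theorem nsdualPhi_symm (M : P →ₗ[ℝ] Matrix n n ℝ) (C : Matrix n n ℝ) (p : P) {Y : Matrix n n ℝ}
    (hY : Y.IsSymm) (c : ℝ) : nsdualPhi M C (p, Y, c) = M p + C * Y * Cᵀ := by
  rw [nsdualPhi_apply, hY.eq, ← two_smul ℝ Y, smul_smul]
  norm_num

/-- Facial reduction: a feasible point `p₀` whose matrix `C Cᵀ` dominates all feasible matrices. -/
theorem exists_slater [FiniteDimensional ℝ P] (s : P →ₗ[ℝ] ℝ) (M : P →ₗ[ℝ] Matrix n n ℝ)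
    (p₁ : P) (hs₁ : 0 < s p₁) (hM₁ : (M p₁).PosSemidef) :
    ∃ (p₀ : P) (C : Matrix n n ℝ), 0 < s p₀ ∧ M p₀ = C * Cᵀ ∧
      ∀ p, 0 ≤ s p → (M p).PosSemidef → ∃ b : Matrix n n ℝ, M p = C * (b * bᵀ) * Cᵀ := by
  classical
  have hex : ∃ d : ℕ, ∃ p, 0 < s p ∧ (M p).PosSemidef ∧
      Module.finrank ℝ (LinearMap.ker (M p).mulVecLin) = d := ⟨_, p₁, hs₁, hM₁, rfl⟩
  obtain ⟨p₀, hs₀, hM₀, hd⟩ := Nat.find_spec hex
  obtain ⟨C, hC⟩ := nsdual_sqrt hM₀
  refine ⟨p₀, C, hs₀, hC, fun p hs hp => ?_⟩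
  have hle : LinearMap.ker (M (p₀ + p)).mulVecLin ≤ LinearMap.ker (M p₀).mulVecLin := by
    intro x hx
    rw [LinearMap.mem_ker, mulVecLin_apply] at hx ⊢
    rw [map_add] at hx
    exact nsdual_ker_add hM₀ hp hx
  have hmin : Nat.find hex ≤ Module.finrank ℝ (LinearMap.ker (M (p₀ + p)).mulVecLin) :=
    Nat.find_min' hex ⟨p₀ + p, by rw [map_add]; linarith, by rw [map_add]; exact hM₀.add hp, rfl⟩
  have heq : LinearMap.ker (M (p₀ + p)).mulVecLin = LinearMap.ker (M p₀).mulVecLin :=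
    Submodule.eq_of_le_of_finrank_le hle (by rw [hd]; exact hmin)
  obtain ⟨a, ha⟩ := nsdual_sqrt hp
  have hker : LinearMap.ker (Matrix.toLin' Cᵀ) ≤ LinearMap.ker (Matrix.toLin' aᵀ) := by
    intro x hx
    rw [LinearMap.mem_ker, toLin'_apply] at hx ⊢
    have h1 : x ∈ LinearMap.ker (M p₀).mulVecLin := by
      rw [LinearMap.mem_ker, mulVecLin_apply, hC, ← mulVec_mulVec, hx, mulVec_zero]
    rw [← heq, LinearMap.mem_ker, mulVecLin_apply, map_add, add_comm] at h1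
    have h2 := nsdual_ker_add hp hM₀ h1
    rw [ha, ← conjTranspose_eq_transpose_of_trivial, self_mul_conjTranspose_mulVec_eq_zero,
      conjTranspose_eq_transpose_of_trivial] at h2
    exact h2
  obtain ⟨k, hk⟩ := nsdual_factor _ _ hker
  have hB : LinearMap.toMatrix' k * Cᵀ = aᵀ := by
    apply Matrix.toLin'.injective
    rw [toLin'_mul, toLin'_toMatrix', hk]
  have hB' : a = C * (LinearMap.toMatrix' k)ᵀ := by
    have := congrArg transpose hB
    rw [transpose_mul, transpose_transpose, transpose_transpose] at this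
    exact this.symm
  refine ⟨(LinearMap.toMatrix' k)ᵀ, ?_⟩
  rw [ha, ← hB, transpose_transpose]
  conv_lhs => rw [hB']
  simp only [Matrix.mul_assoc]

/-- Dual multipliers (M. Riesz extension). -/
theorem exists_multiplier (s : P →ₗ[ℝ] ℝ) (M : P →ₗ[ℝ] Matrix n n ℝ) (hM : ∀ p, (M p).IsSymm)
    (p₀ : P) (C : Matrix n n ℝ) (hs₀ : 0 < s p₀) (hC : M p₀ = C * Cᵀ)
    (l : P →ₗ[ℝ] ℝ) (hl : ∀ p, 0 ≤ s p → (M p).PosSemidef → 0 ≤ l p) :
    ∃ (G : Matrix n n ℝ →ₗ[ℝ] ℝ) (μ : ℝ), 0 ≤ μ ∧ (∀ Y : Matrix n n ℝ, Y.PosSemidef → 0 ≤ G Y) ∧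
      ∀ (p : P) (Y : Matrix n n ℝ), Y.IsSymm → M p = C * Y * Cᵀ → l p = G Y + μ * s p := by
  let σ : P × (Matrix n n ℝ × ℝ) →ₗ[ℝ] ℝ :=
    s ∘ₗ LinearMap.fst ℝ P _ + LinearMap.snd ℝ (Matrix n n ℝ) ℝ ∘ₗ LinearMap.snd ℝ P _
  have hσ : ∀ p Y c, σ (p, Y, c) = s p + c := fun p Y c => rfl
  let K : PointedCone ℝ (P × (Matrix n n ℝ × ℝ)) :=
    PointedCone.ofConeComb {z | 0 ≤ σ z ∧ (nsdualPhi M C z).PosSemidef}
      ⟨0, by simp [PosSemidef.zero]⟩ (by
        rintro x ⟨x1, x2⟩ y ⟨y1, y2⟩ a ha b hb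
        refine ⟨?_, ?_⟩
        · rw [map_add, map_smul, map_smul, smul_eq_mul, smul_eq_mul]
          positivity
        · rw [map_add, map_smul, map_smul]
          exact (x2.smul ha).add (y2.smul hb))
  have hK : ∀ z, z ∈ K ↔ 0 ≤ σ z ∧ (nsdualPhi M C z).PosSemidef := fun z => Iff.rfl
  let f : (P × (Matrix n n ℝ × ℝ)) →ₗ.[ℝ] ℝ :=
    (l ∘ₗ LinearMap.fst ℝ P _).toPMap (LinearMap.ker (LinearMap.snd ℝ P _))
  have hsym0 : (0 : Matrix n n ℝ).IsSymm := isSymm_zero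
  obtain ⟨g, hg1, hg2⟩ := riesz_extension K f (by
      rintro ⟨⟨p, Y, c⟩, hz⟩ hzK
      have hz' : (Y, c) = 0 := hz
      obtain ⟨rfl, rfl⟩ := Prod.mk_eq_zero.mp hz'
      obtain ⟨h1, h2⟩ := (hK _).mp hzK
      rw [hσ, add_zero] at h1
      rw [nsdualPhi_symm M C p hsym0] at h2
      simp only [Matrix.mul_zero, Matrix.zero_mul, add_zero] at h2
      exact hl p h1 h2) (by
      rintro ⟨p, Y, c⟩
      have hs : ((1 / 2 : ℝ) • (Y + Yᵀ)).IsSymm := by
        unfold IsSymm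
        rw [transpose_smul, transpose_add, transpose_transpose, add_comm]
      obtain ⟨r, hr, hP⟩ := nsdual_shift hs
      refine ⟨⟨(-p + (r + |c| / s p₀) • p₀, 0, 0), (rfl : ((0 : Matrix n n ℝ), (0 : ℝ)) = 0)⟩,
        (hK _).mpr ?_⟩
      have e : ((-p + (r + |c| / s p₀) • p₀, 0, 0) : P × (Matrix n n ℝ × ℝ)) + (p, Y, c)
          = ((r + |c| / s p₀) • p₀, Y, c) := by
        simp only [Prod.mk_add_mk, zero_add]
        congr 1
        abel
      show 0 ≤ σ ((-p + (r + |c| / s p₀) • p₀, 0, 0) + (p, Y, c)) ∧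
        (nsdualPhi M C ((-p + (r + |c| / s p₀) • p₀, 0, 0) + (p, Y, c))).PosSemidef
      rw [e]
      refine ⟨?_, ?_⟩
      · rw [hσ, map_smul, smul_eq_mul, add_mul, div_mul_cancel₀ _ hs₀.ne']
        have := neg_abs_le c
        have := mul_nonneg hr hs₀.le
        linarith
      · rw [nsdualPhi_apply, map_smul, hC]
        have h1 := hP.mul_mul_conjTranspose_same C
        have h2 := (PosSemidef.one.mul_mul_conjTranspose_same C).smul
          (div_nonneg (abs_nonneg c) hs₀.le)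
        rw [conjTranspose_eq_transpose_of_trivial] at h1 h2
        convert h1.add h2 using 1
        simp only [Matrix.mul_add, Matrix.add_mul, Matrix.mul_smul, Matrix.smul_mul,
          Matrix.mul_one, add_smul]
        abel)
  have hgl : ∀ p, g (p, 0, 0) = l p := fun p =>
    hg1 ⟨(p, 0, 0), (rfl : ((0 : Matrix n n ℝ), (0 : ℝ)) = 0)⟩
  refine ⟨g ∘ₗ LinearMap.inr ℝ P _ ∘ₗ LinearMap.inl ℝ _ ℝ, g (0, 0, 1), ?_, fun Y hY => ?_,
    fun p Y hY hp => ?_⟩
  · refine hg2 _ ((hK _).mpr ⟨?_, ?_⟩)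
    · rw [hσ]; simp
    · rw [nsdualPhi_symm M C 0 hsym0]
      simp [PosSemidef.zero]
  · refine hg2 (0, Y, 0) ((hK _).mpr ⟨?_, ?_⟩)
    · rw [hσ]; simp
    · have hs : Y.IsSymm := by
        have := hY.1
        unfold IsHermitian at this
        rwa [conjTranspose_eq_transpose_of_trivial] at this
      rw [nsdualPhi_symm M C 0 hs, map_zero, zero_add]
      have h1 := hY.mul_mul_conjTranspose_same C
      rwa [conjTranspose_eq_transpose_of_trivial] at h1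
  · have h1 : σ (p, -Y, -s p) = 0 := by rw [hσ]; simp
    have h2 : nsdualPhi M C (p, -Y, -s p) = 0 := by
      rw [nsdualPhi_symm M C p hY.neg, hp]
      simp
    have a1 := hg2 (p, -Y, -s p) ((hK _).mpr ⟨h1.ge, h2 ▸ PosSemidef.zero⟩)
    have a2 := hg2 (-(p, -Y, -s p)) ((hK _).mpr ⟨by rw [map_neg, h1]; simp,
      by rw [map_neg, h2, neg_zero]; exact PosSemidef.zero⟩)
    rw [map_neg] at a2
    have e : ((p, -Y, -s p) : P × (Matrix n n ℝ × ℝ))
        = (p, 0, 0) - (0, Y, 0) - s p • ((0, 0, 1) : P × (Matrix n n ℝ × ℝ)) := by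
      simp
    rw [e, map_sub, map_sub, map_smul, hgl, smul_eq_mul] at a1 a2
    show l p = g (0, Y, 0) + g (0, 0, 1) * s p
    linarith

end Crest.Agent.R237.NS
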