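import Crest.Agent.R237.NSAlg

/-! # S0367: the slack has no Gram representation -/

set_option autoImplicit false
set_option linter.unusedSectionVars false

namespace Crest.Agent.R237.NS

variable {ν ρ : Type} [Fintype ν] [Fintype ρ] [DecidableEq ν] [DecidableEq ρ]

theorem nonsos_tri (τ : (ν → ℝ) →ₗ[ℝ] (ρ → ℝ) →ₗ[ℝ] (ρ → ℝ) →ₗ[ℝ] ℝ) (ξ : ν → ℝ) (x y : ρ → ℝ) :
    τ ξ x y = ∑ a, ∑ i, ∑ j, ξ a * x i * y j *
      τ (Pi.single a 1) (Pi.single i 1) (Pi.single j 1) := by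
  conv_lhs => rw [pi_eq_sum_univ' ξ, pi_eq_sum_univ' x, pi_eq_sum_univ' y]
  simp only [map_sum, map_smul, LinearMap.sum_apply, LinearMap.smul_apply, smul_eq_mul,
    Finset.mul_sum]
  rw [Finset.sum_comm]
  refine (Finset.sum_congr rfl fun i _ => Finset.sum_comm).trans (Finset.sum_comm.trans ?_)
  refine Finset.sum_congr rfl fun a _ => Finset.sum_congr rfl fun i _ =>
    Finset.sum_congr rfl fun j _ => ?_
  ring

theorem nonsos_wedge (t : ν → ρ → ρ → ℝ) (ht : ∀ a i j, t a i j = - t a j i) (S : ν → ρ → ℝ)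
    (y : ρ → ℝ) :
    ∑ a, ∑ i, ∑ j, wedge S y (a, i, j) * t a i j = 2 * ∑ a, ∑ i, ∑ j, S a i * y j * t a i j := by
  rw [Finset.mul_sum]
  refine Finset.sum_congr rfl fun a _ => ?_
  simp only [wedge, sub_mul, Finset.sum_sub_distrib]
  have : ∑ i, ∑ j, S a j * y i * t a i j = - ∑ i, ∑ j, S a i * y j * t a i j := by
    rw [Finset.sum_comm]
    simp only [← Finset.sum_neg_distrib]
    refine Finset.sum_congr rfl fun i _ => Finset.sum_congr rfl fun j _ => ?_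
    rw [ht a j i]; ring
  rw [this]; ring

theorem nonsos_gam_zero (g : J ν ρ → J ν ρ → ℝ) (M : J ν ρ → ℝ) : Gam g (fun _ => 0) M = 0 := by
  simp [Gam]

theorem nonsos_gam_wedge (g : J ν ρ → J ν ρ → ℝ) (S : ν → ρ → ℝ) (u : ρ → ℝ) (M : J ν ρ → ℝ) :
    Gam g (wedge S u) M =
      ∑ a, ∑ i, S a i * Gam g (wedge (tens (Pi.single a 1) (Pi.single i 1)) u) M := by
  have e : S = fun p i => ∑ b : ν × ρ, S b.1 b.2 *
      tens (Pi.single b.1 (1 : ℝ)) (Pi.single b.2 (1 : ℝ)) p i := by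
    funext p i
    simp [tens, Pi.single_apply, Fintype.sum_prod_type]
  have h := Gam_sum_sum g (fun b : ν × ρ => S b.1 b.2) (fun _ : Unit => (1 : ℝ))
    (fun b => wedge (tens (Pi.single b.1 (1 : ℝ)) (Pi.single b.2 (1 : ℝ))) u) (fun _ => M)
  rw [← wedge_sum_left, ← e] at h
  simpa [Fintype.sum_prod_type] using h

theorem nonsos_abstract {g : J ν ρ → J ν ρ → ℝ} (hg : Good g) (α : ρ → ℝ) (z : ν → ρ → ℝ)
    {κ : Type} [Fintype κ] (ξ : κ → ν → ℝ) (x c : κ → ρ → ℝ)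
    (hz : wedge z α = fun j => ∑ a, wedge (tens (ξ a) (x a)) (c a) j)
    {E : Type} [AddCommGroup E] [Module ℝ E] (G : E →ₗ[ℝ] E →ₗ[ℝ] ℝ)
    (hGs : ∀ a b, G a b = G b a) (hGp : ∀ a, 0 ≤ G a a)
    (C : (ν → ℝ) →ₗ[ℝ] E) (B : (ρ → ℝ) →ₗ[ℝ] E) (q : (ν → ℝ) →ₗ[ℝ] (ρ → ℝ) →ₗ[ℝ] E)
    (h2 : ∀ ξ x, G (C ξ + B x) (C ξ + B x) = HH g α z ξ x)
    (h3 : ∀ ξ x, 2 * G (C ξ + B x) (q ξ x) = gam g α ξ x)
    (h4 : ∀ ξ x, G (q ξ x) (q ξ x) = phi g ξ x) :
    Gam g (wedge z α) (wedge z α) ≤ (∑ a, phi g (ξ a) (x a)) * ∑ a, ∑ i, c a i ^ 2 := by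
  have hcs : ∀ a b, G a b ^ 2 ≤ G a a * G b b := fun a b => by
    have := LinearMap.BilinForm.apply_mul_apply_le_of_forall_zero_le G hGp a b
    rwa [hGs b a, ← sq] at this
  have hneg : ∀ (ξ : ν → ℝ) (x : ρ → ℝ), gam g α (-ξ) x = gam g α ξ x := by
    intro ξ x
    simp only [gam, Qf, Gam, wedge, tens, Pi.neg_apply]
    congr 1
    refine Finset.sum_congr rfl fun _ _ => Finset.sum_congr rfl fun _ _ =>
      Finset.sum_congr rfl fun _ _ => ?_
    ring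
  have hb : ∀ ξ x, G (B x) (q ξ x) = 0 ∧ G (C ξ) (q ξ x) = Qf g (tens ξ x) (tens ξ α) := by
    intro ξ x
    have a1 := h3 ξ x
    have a2 := h3 (-ξ) x
    rw [hneg] at a2
    simp only [map_add, map_neg, LinearMap.add_apply, LinearMap.neg_apply, gam] at a1 a2
    constructor <;> linarith
  have hanti : ∀ ξ x y, G (q ξ x) (B y) = - G (q ξ y) (B x) := by
    intro ξ x y
    have a1 := (hb ξ (x + y)).1
    simp only [map_add, LinearMap.add_apply, (hb ξ x).1, (hb ξ y).1] at a1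
    rw [hGs (q ξ x), hGs (q ξ y)]
    linarith
  have w0 : ∀ ξ : ν → ℝ, wedge (tens ξ 0) α = fun _ => 0 := fun ξ => by
    funext j; simp [wedge, tens]
  have w0' : ∀ (x u : ρ → ℝ), wedge (tens (0 : ν → ℝ) x) u = fun _ => 0 := fun x u => by
    funext j; simp [wedge, tens]
  have hcc : ∀ ξ, G (C ξ) (C ξ) = Qf g (tens ξ α) (tens ξ α) := by
    intro ξ
    have a1 := h2 ξ 0
    simpa [HH, w0, nonsos_gam_zero] using a1
  have hbb : ∀ x, G (B x) (B x) = (∑ i, x i ^ 2) * Gam g (wedge z α) (wedge z α) := by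
    intro x
    have a1 := h2 0 x
    simpa [HH, Qf, w0', nonsos_gam_zero] using a1
  have hcb : ∀ ξ x, G (C ξ) (B x) = - Gam g (wedge (tens ξ x) α) (wedge z α) := by
    intro ξ x
    have a1 := h2 ξ x
    simp only [map_add, LinearMap.add_apply, hcc, hbb, HH, hGs (B x) (C ξ)] at a1
    linarith
  have hqb : ∀ ξ x, G (q ξ x) (B α) = Gam g (wedge (tens ξ x) α) (wedge z α) := by
    intro ξ x
    have a1 : G (C ξ - q ξ α) (C ξ - q ξ α) = 0 := by
      simp only [map_sub, LinearMap.sub_apply, hcc, h4, hGs (q ξ α) (C ξ), (hb ξ α).2, phi]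
      ring
    have a2 := hcs (C ξ - q ξ α) (B x)
    rw [a1, zero_mul] at a2
    have a3 : G (C ξ - q ξ α) (B x) = 0 := pow_eq_zero_iff two_ne_zero |>.1
      (le_antisymm a2 (sq_nonneg _))
    simp only [map_sub, LinearMap.sub_apply, hcb] at a3
    rw [hanti]; linarith
  let τ : (ν → ℝ) →ₗ[ℝ] (ρ → ℝ) →ₗ[ℝ] (ρ → ℝ) →ₗ[ℝ] ℝ := q.compr₂ (G.compl₂ B)
  have hτ : ∀ ξ x y, τ ξ x y = G (q ξ x) (B y) := fun _ _ _ => rfl
  let t : ν → ρ → ρ → ℝ := fun a i j => τ (Pi.single a 1) (Pi.single i 1) (Pi.single j 1)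
  have ht : ∀ a i j, t a i j = - t a j i := fun a i j => hanti _ _ _
  have e1 : ∑ a, ∑ i, ∑ j, z a i * α j * t a i j = Gam g (wedge z α) (wedge z α) := by
    conv_rhs => rw [nonsos_gam_wedge]
    refine Finset.sum_congr rfl fun a _ => Finset.sum_congr rfl fun i _ => ?_
    rw [← hqb, ← hτ]
    conv_rhs => rw [pi_eq_sum_univ' α]
    simp only [map_sum, map_smul, smul_eq_mul, Finset.mul_sum, t, mul_assoc]
  have e2 : Gam g (wedge z α) (wedge z α) = ∑ k, G (q (ξ k) (x k)) (B (c k)) := by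
    have a1 := nonsos_wedge t ht z α
    rw [e1] at a1
    have a2 : ∑ a, ∑ i, ∑ j, wedge z α (a, i, j) * t a i j =
        ∑ k, ∑ a, ∑ i, ∑ j, wedge (tens (ξ k) (x k)) (c k) (a, i, j) * t a i j := by
      rw [hz]
      simp only [Finset.sum_mul]
      refine (Finset.sum_congr rfl fun a _ => ?_).trans Finset.sum_comm
      exact (Finset.sum_congr rfl fun i _ => Finset.sum_comm).trans Finset.sum_comm
    have a3 : ∀ k, ∑ a, ∑ i, ∑ j, wedge (tens (ξ k) (x k)) (c k) (a, i, j) * t a i j =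
        2 * G (q (ξ k) (x k)) (B (c k)) := by
      intro k
      rw [nonsos_wedge t ht, ← hτ, nonsos_tri]
      rfl
    simp only [a2, a3, ← Finset.mul_sum] at a1
    linarith
  have hπ := hg.nonneg z α
  have hφ : ∀ k, 0 ≤ phi g (ξ k) (x k) := fun k => by rw [← h4]; exact hGp _
  have hc : ∀ k, 0 ≤ ∑ i, c k i ^ 2 := fun k => Finset.sum_nonneg fun _ _ => sq_nonneg _
  have e3 := Finset.sum_sq_le_sum_mul_sum_of_sq_le_mul Finset.univ
    (r := fun k => G (q (ξ k) (x k)) (B (c k))) (f := fun k => phi g (ξ k) (x k))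
    (g := fun k => (∑ i, c k i ^ 2) * Gam g (wedge z α) (wedge z α)) (fun k _ => hφ k)
    (fun k _ => mul_nonneg (hc k) hπ) (fun k _ => by rw [← h4, ← hbb]; exact hcs _ _)
  rw [← e2, ← Finset.sum_mul, ← mul_assoc, sq] at e3
  rcases hπ.eq_or_lt with h | h
  · rw [← h]
    exact mul_nonneg (Finset.sum_nonneg fun k _ => hφ k) (Finset.sum_nonneg fun k _ => hc k)
  · exact le_of_mul_le_mul_right e3 h

theorem gram_bound {g : J ν ρ → J ν ρ → ℝ} (hg : Good g) (α : ρ → ℝ) (z : ν → ρ → ℝ)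
    {κ : Type} [Fintype κ] (ξ : κ → ν → ℝ) (x c : κ → ρ → ℝ)
    (hz : wedge z α = fun j => ∑ a, wedge (tens (ξ a) (x a)) (c a) j)
    (G : ((ν ⊕ ρ → ℝ) × (ν ⊕ ρ → ν ⊕ ρ → ℝ)) →ₗ[ℝ] ((ν ⊕ ρ → ℝ) × (ν ⊕ ρ → ν ⊕ ρ → ℝ)) →ₗ[ℝ] ℝ)
    (hGs : ∀ a b, G a b = G b a) (hGp : ∀ a, 0 ≤ G a a)
    (hG : ∀ η : ν ⊕ ρ → ℝ,
      G (η, 0) (η, 0) = HH g α z (fun a => η (.inl a)) (fun i => η (.inr i)) ∧
      2 * G (η, 0) (0, fun i j => η i * η j) = gam g α (fun a => η (.inl a)) (fun i => η (.inr i)) ∧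
      G (0, fun i j => η i * η j) (0, fun i j => η i * η j)
        = phi g (fun a => η (.inl a)) (fun i => η (.inr i))) :
    Gam g (wedge z α) (wedge z α) ≤ (∑ a, phi g (ξ a) (x a)) * ∑ a, ∑ i, c a i ^ 2 := by
  have hnull : ∀ a b, G a a = 0 → G a b = 0 := fun a b h => by
    have := LinearMap.BilinForm.apply_mul_apply_le_of_forall_zero_le G hGp a b
    rw [hGs b a, ← sq, h, zero_mul] at this
    exact (pow_eq_zero_iff two_ne_zero).1 (le_antisymm this (sq_nonneg _))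
  let C : (ν → ℝ) →ₗ[ℝ] ((ν ⊕ ρ → ℝ) × (ν ⊕ ρ → ν ⊕ ρ → ℝ)) :=
    { toFun := fun ξ => (Sum.elim ξ 0, 0)
      map_add' := fun a b => by ext i <;> cases i <;> simp
      map_smul' := fun a b => by ext i <;> cases i <;> simp }
  let B : (ρ → ℝ) →ₗ[ℝ] ((ν ⊕ ρ → ℝ) × (ν ⊕ ρ → ν ⊕ ρ → ℝ)) :=
    { toFun := fun x => (Sum.elim 0 x, 0)
      map_add' := fun a b => by ext i <;> cases i <;> simp
      map_smul' := fun a b => by ext i <;> cases i <;> simp }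
  let q : (ν → ℝ) →ₗ[ℝ] (ρ → ℝ) →ₗ[ℝ] ((ν ⊕ ρ → ℝ) × (ν ⊕ ρ → ν ⊕ ρ → ℝ)) :=
    LinearMap.mk₂ ℝ (fun ξ x => (0, fun i j => Sum.elim ξ (0 : ρ → ℝ) i * Sum.elim (0 : ν → ℝ) x j +
        Sum.elim (0 : ν → ℝ) x i * Sum.elim ξ (0 : ρ → ℝ) j))
      (fun a b x => by ext i j; · simp
                       · cases i <;> cases j <;> simp <;> ring)
      (fun a b x => by ext i j; · simp
                       · cases i <;> cases j <;> simp <;> ring)
      (fun a b x => by ext i j; · simp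
                       · cases i <;> cases j <;> simp <;> ring)
      (fun a b x => by ext i j; · simp
                       · cases i <;> cases j <;> simp <;> ring)
  let T : (ν ⊕ ρ → ℝ) → ((ν ⊕ ρ → ℝ) × (ν ⊕ ρ → ν ⊕ ρ → ℝ)) := fun η => (0, fun i j => η i * η j)
  have e1 : ∀ ξ x, C ξ + B x = (Sum.elim ξ x, 0) := fun ξ x => by
    ext i <;> cases i <;> simp [C, B]
  have e2 : ∀ ξ x, T (Sum.elim ξ x) = T (Sum.elim ξ 0) + T (Sum.elim 0 x) + q ξ x := fun ξ x => by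
    ext i j
    · simp [T, q]
    · cases i <;> cases j <;> simp [T, q]
  have n1 : ∀ (ξ : ν → ℝ) v, G (T (Sum.elim ξ 0)) v = 0 := fun ξ v => hnull _ _ (by
    rw [(hG _).2.2]; simp [phi, Qf, Gam, wedge, tens])
  have n2 : ∀ (x : ρ → ℝ) v, G (T (Sum.elim 0 x)) v = 0 := fun x v => hnull _ _ (by
    rw [(hG _).2.2]; simp [phi, Qf, Gam, wedge, tens])
  have e3 : ∀ ξ x v, G (T (Sum.elim ξ x)) v = G (q ξ x) v := fun ξ x v => by
    rw [e2]; simp only [map_add, LinearMap.add_apply, n1, n2, zero_add]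
  refine nonsos_abstract hg α z ξ x c hz G hGs hGp C B q (fun ξ x => ?_) (fun ξ x => ?_)
    (fun ξ x => ?_)
  · rw [e1]; exact (hG _).1
  · rw [e1, hGs, ← e3, hGs]; exact (hG _).2.1
  · rw [← e3, hGs, ← e3]; exact (hG _).2.2

end Crest.Agent.R237.NS
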