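import Crest.Agent.R237.NSConeAux
import Crest.Agent.R237.NSCritAux

/-!
# S0368: the spin-3/2 biquadratic form

`s = (P, Q) ∈ ℍ²`, `h = P * conj Q`,
`M(s) = [[|P|²+|Q|²+2 h₁, h₂, h₃], [h₂, |Q|², -h₀], [h₃, -h₀, |P|²]]`.
-/

set_option autoImplicit false

namespace Crest.Agent.R237.SP

open Matrix Crest.Agent.R237.NS

section gen

variable {R : Type} [CommRing R]

/-- the linear map `Y ↦ M(Y)` with `M(s sᵀ) = M(s)` -/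
def MY (Y : Fin 8 → Fin 8 → R) : Matrix (Fin 3) (Fin 3) R :=
  !![(Y 0 0 + Y 1 1 + Y 2 2 + Y 3 3) + (Y 4 4 + Y 5 5 + Y 6 6 + Y 7 7)
        + (Y 1 4 - Y 0 5 - Y 2 7 + Y 3 6) + (Y 1 4 - Y 0 5 - Y 2 7 + Y 3 6),
      Y 2 4 - Y 0 6 + Y 1 7 - Y 3 5, Y 3 4 - Y 0 7 - Y 1 6 + Y 2 5;
    Y 2 4 - Y 0 6 + Y 1 7 - Y 3 5, Y 4 4 + Y 5 5 + Y 6 6 + Y 7 7,
      -(Y 0 4 + Y 1 5 + Y 2 6 + Y 3 7);
    Y 3 4 - Y 0 7 - Y 1 6 + Y 2 5, -(Y 0 4 + Y 1 5 + Y 2 6 + Y 3 7),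
      Y 0 0 + Y 1 1 + Y 2 2 + Y 3 3]

/-- the quadratic matrix `M(s)` -/
def Mq (s : Fin 8 → R) : Matrix (Fin 3) (Fin 3) R := MY fun a b => s a * s b

/-- twice the polarisation of `M` -/
def Ms (s s' : Fin 8 → R) : Matrix (Fin 3) (Fin 3) R := MY fun a b => s a * s' b + s' a * s b

theorem MY_symm (Y : Fin 8 → Fin 8 → R) (i j : Fin 3) : MY Y i j = MY Y j i := by
  fin_cases i <;> fin_cases j <;> rfl

theorem MY_isSymm (Y : Fin 8 → Fin 8 → R) : (MY Y).IsSymm := by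
  ext i j; exact MY_symm Y j i

theorem map_MY {R' : Type} [CommRing R'] (f : R →+* R') (Y : Fin 8 → Fin 8 → R) (i j : Fin 3) :
    f (MY Y i j) = MY (fun a b => f (Y a b)) i j := by
  fin_cases i <;> fin_cases j <;> simp [MY]

end gen

/-- value of the quadratic form of a `3 × 3` matrix -/
def qf (X : Matrix (Fin 3) (Fin 3) ℝ) (w : Fin 3 → ℝ) : ℝ := w ⬝ᵥ X *ᵥ w

theorem qf_eq (X : Matrix (Fin 3) (Fin 3) ℝ) (w : Fin 3 → ℝ) :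
    qf X w = ∑ a, ∑ b, w a * X a b * w b := by
  rw [← quad_eq]; rfl

theorem qf_add (X Y : Matrix (Fin 3) (Fin 3) ℝ) (w : Fin 3 → ℝ) :
    qf (X + Y) w = qf X w + qf Y w := by simp [qf, add_mulVec]

theorem qf_sub (X Y : Matrix (Fin 3) (Fin 3) ℝ) (w : Fin 3 → ℝ) :
    qf (X - Y) w = qf X w - qf Y w := by simp [qf, sub_mulVec]

theorem qf_smul (c : ℝ) (X : Matrix (Fin 3) (Fin 3) ℝ) (w : Fin 3 → ℝ) :
    qf (c • X) w = c * qf X w := by simp [qf, smul_mulVec]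

theorem qf_one (w : Fin 3 → ℝ) : qf 1 w = ∑ i, w i ^ 2 := by
  simp [qf, dotProduct, sq]

theorem psd_iff {X : Matrix (Fin 3) (Fin 3) ℝ} (hX : X.IsSymm) :
    X.PosSemidef ↔ ∀ w, 0 ≤ qf X w := by
  rw [posSemidef_iff_dotProduct_mulVec]
  constructor
  · intro h w; simpa [qf] using h.2 w
  · intro h
    refine ⟨by simpa [Matrix.IsHermitian] using hX.eq, fun w => by simpa [qf] using h w⟩

/-- `MY` as a linear map -/
def MYL : Matrix (Fin 8) (Fin 8) ℝ →ₗ[ℝ] Matrix (Fin 3) (Fin 3) ℝ where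
  toFun Y := MY fun a b => Y a b
  map_add' Y Z := by
    ext i j; fin_cases i <;> fin_cases j <;> simp [MY] <;> ring
  map_smul' c Y := by
    ext i j; fin_cases i <;> fin_cases j <;> simp [MY] <;> ring

theorem MYL_apply (Y : Matrix (Fin 8) (Fin 8) ℝ) : MYL Y = MY fun a b => Y a b := rfl

theorem MYL_vecMulVec (s : Fin 8 → ℝ) : MYL (vecMulVec s s) = Mq s := rfl

theorem qf_Mq_cert (s : Fin 8 → ℝ) (u : Fin 3 → ℝ) :
    0 ≤ (∑ i, u i ^ 2) * qf (Mq s) u := by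
  have key : 2 * ((∑ i, u i ^ 2) * qf (Mq s) u) =
      (s 0 * u 0 * u 1 + s 1 * u 0 * u 2 + s 2 * u 1 * u 2 + s 3 * u 2 * u 2 + s 4 * u 0 * u 2 - s 5 * u 0 * u 1 - s 6 * u 1 * u 1 - s 7 * u 1 * u 2) ^ 2
      + (-s 0 * u 0 * u 2 + s 1 * u 0 * u 1 + s 2 * u 2 * u 2 - s 3 * u 1 * u 2 + s 4 * u 0 * u 1 + s 5 * u 0 * u 2 - s 6 * u 1 * u 2 + s 7 * u 1 * u 1) ^ 2
      + (-s 0 * u 1 * u 2 - s 1 * u 2 * u 2 + s 2 * u 0 * u 1 + s 3 * u 0 * u 2 + s 4 * u 1 * u 1 + s 5 * u 1 * u 2 + s 6 * u 0 * u 2 - s 7 * u 0 * u 1) ^ 2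
      + (-s 0 * u 2 * u 2 + s 1 * u 1 * u 2 - s 2 * u 0 * u 2 + s 3 * u 0 * u 1 + s 4 * u 1 * u 2 - s 5 * u 1 * u 1 + s 6 * u 0 * u 1 + s 7 * u 0 * u 2) ^ 2
      + (-s 0 * u 0 * u 0 - s 0 * u 2 * u 2 + s 4 * u 1 * u 2 + s 5 * u 0 * u 0 + s 6 * u 0 * u 1 + s 7 * u 0 * u 2) ^ 2
      + (-s 1 * u 0 * u 0 - s 1 * u 2 * u 2 - s 4 * u 0 * u 0 + s 5 * u 1 * u 2 + s 6 * u 0 * u 2 - s 7 * u 0 * u 1) ^ 2
      + (-s 2 * u 0 * u 0 - s 2 * u 2 * u 2 - s 4 * u 0 * u 1 - s 5 * u 0 * u 2 + s 6 * u 1 * u 2 + s 7 * u 0 * u 0) ^ 2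
      + (-s 3 * u 0 * u 0 - s 3 * u 2 * u 2 - s 4 * u 0 * u 2 + s 5 * u 0 * u 1 - s 6 * u 0 * u 0 + s 7 * u 1 * u 2) ^ 2
      + (s 0 * u 1 * u 2 - s 1 * u 0 * u 0 - s 2 * u 0 * u 1 - s 3 * u 0 * u 2 - s 4 * u 0 * u 0 - s 4 * u 1 * u 1) ^ 2
      + (s 0 * u 0 * u 0 + s 1 * u 1 * u 2 - s 2 * u 0 * u 2 + s 3 * u 0 * u 1 - s 5 * u 0 * u 0 - s 5 * u 1 * u 1) ^ 2
      + (s 0 * u 0 * u 1 + s 1 * u 0 * u 2 + s 2 * u 1 * u 2 - s 3 * u 0 * u 0 - s 6 * u 0 * u 0 - s 6 * u 1 * u 1) ^ 2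
      + (s 0 * u 0 * u 2 - s 1 * u 0 * u 1 + s 2 * u 0 * u 0 + s 3 * u 1 * u 2 - s 7 * u 0 * u 0 - s 7 * u 1 * u 1) ^ 2 := by
    simp only [qf_eq, Mq, MY, Fin.sum_univ_three, Matrix.of_apply, Matrix.cons_val', Matrix.cons_val_zero,
      Matrix.cons_val_one, Matrix.cons_val_two, Matrix.cons_val_fin_one, Matrix.head_cons,
      Matrix.tail_cons, Matrix.empty_val', Matrix.head_fin_const]
    ring
  have : 0 ≤ 2 * ((∑ i, u i ^ 2) * qf (Mq s) u) := by rw [key]; positivity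
  linarith

theorem qf_Mq_nonneg (s : Fin 8 → ℝ) (u : Fin 3 → ℝ) : 0 ≤ qf (Mq s) u := by
  by_cases hu : u = 0
  · subst hu; simp [qf]
  · obtain ⟨a, ha⟩ := Function.ne_iff.1 hu
    have h4 : 0 < ∑ a, u a ^ 2 :=
      Finset.sum_pos' (fun _ _ => sq_nonneg _) ⟨a, Finset.mem_univ _, sq_pos_of_ne_zero ha⟩
    exact (mul_nonneg_iff_of_pos_left h4).1 (qf_Mq_cert s u)

theorem Mq_psd (s : Fin 8 → ℝ) : (Mq s).PosSemidef :=
  (psd_iff (MY_isSymm _)).2 (qf_Mq_nonneg s)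

theorem MYL_psd {Y : Matrix (Fin 8) (Fin 8) ℝ} (hY : Y.PosSemidef) : (MYL Y).PosSemidef := by
  obtain ⟨C, hC⟩ := nsdual_sqrt hY
  have : Y = ∑ k, vecMulVec (fun a => C a k) (fun a => C a k) := by
    ext a b
    rw [hC]
    simp [Matrix.mul_apply, Matrix.sum_apply, vecMulVec_apply]
  rw [this, map_sum]
  refine posSemidef_sum _ fun k _ => ?_
  rw [MYL_vecMulVec]
  exact Mq_psd _

theorem eq_zero_of_Mq {s : Fin 8 → ℝ} (h : ∀ u, qf (Mq s) u ≤ 0) : s = 0 := by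
  have h1 := h ![0, 1, 0]
  have h2 := h ![0, 0, 1]
  simp [qf_eq, Mq, MY, Fin.sum_univ_three] at h1 h2
  have key : ∀ a b c d : ℝ, a * a + b * b + c * c + d * d ≤ 0 → a = 0 ∧ b = 0 ∧ c = 0 ∧ d = 0 := by
    intro a b c d h
    have ha := mul_self_nonneg a
    have hb := mul_self_nonneg b
    have hc := mul_self_nonneg c
    have hd := mul_self_nonneg d
    exact ⟨mul_self_eq_zero.1 (by linarith), mul_self_eq_zero.1 (by linarith),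
      mul_self_eq_zero.1 (by linarith), mul_self_eq_zero.1 (by linarith)⟩
  obtain ⟨a4, a5, a6, a7⟩ := key _ _ _ _ h1
  obtain ⟨a0, a1, a2, a3⟩ := key _ _ _ _ h2
  funext a
  fin_cases a <;> assumption

theorem Mq_lin (a b : ℝ) (s s' : Fin 8 → ℝ) :
    Mq (a • s + b • s') = a ^ 2 • Mq s + (a * b) • Ms s s' + b ^ 2 • Mq s' := by
  ext i j; fin_cases i <;> fin_cases j <;> simp [Mq, Ms, MY] <;> ring

theorem Ms_comm (s s' : Fin 8 → ℝ) : Ms s s' = Ms s' s := by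
  unfold Ms; congr 1; funext a b; ring

theorem Ms_self (s : Fin 8 → ℝ) : Ms s s = (2 : ℝ) • Mq s := by
  ext i j; fin_cases i <;> fin_cases j <;> simp [Mq, Ms, MY] <;> ring

theorem Ms_lin (a b : ℝ) (s s' r : Fin 8 → ℝ) :
    Ms r (a • s + b • s') = a • Ms r s + b • Ms r s' := by
  ext i j; fin_cases i <;> fin_cases j <;> simp [Ms, MY] <;> ring

/-- `j(η, u) = (u₁ η - u₀ k η, u₂ η + u₀ j η)` -/
def jv (η : Fin 4 → ℝ) (u : Fin 3 → ℝ) : Fin 8 → ℝ :=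
  ![u 1 * η 0 + u 0 * η 3, u 1 * η 1 + u 0 * η 2, u 1 * η 2 - u 0 * η 1, u 1 * η 3 - u 0 * η 0,
    u 2 * η 0 - u 0 * η 2, u 2 * η 1 + u 0 * η 3, u 2 * η 2 + u 0 * η 0, u 2 * η 3 - u 0 * η 1]

theorem qf_Ms_jv (s : Fin 8 → ℝ) (η : Fin 4 → ℝ) (u : Fin 3 → ℝ) : qf (Ms s (jv η u)) u = 0 := by
  simp [qf_eq, Ms, MY, jv, Fin.sum_univ_three]
  ring

theorem qf_Mq_jv (η : Fin 4 → ℝ) (u : Fin 3 → ℝ) : qf (Mq (jv η u)) u = 0 := by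
  have := qf_Ms_jv (jv η u) η u
  rw [Ms_self, qf_smul] at this
  linarith

/-- the cone -/
def K0 (X : Matrix (Fin 3) (Fin 3) ℝ) (z : ℝ) (s : Fin 8 → ℝ) : Prop :=
  0 ≤ z ∧ (∀ w, 0 ≤ qf X w) ∧ ∀ w, qf (Mq s) w ≤ z * qf X w

theorem K0.ell_nonneg {X : Matrix (Fin 3) (Fin 3) ℝ} {z : ℝ} {s : Fin 8 → ℝ} (h : K0 X z s)
    (w : Fin 3 → ℝ) (s₀ : Fin 8 → ℝ) : 0 ≤ qf X w - qf (Ms s₀ s) w + z * qf (Mq s₀) w := by
  obtain ⟨hz, hX, hM⟩ := h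
  rcases hz.eq_or_lt with h0 | h0
  · subst h0
    have hs : s = 0 := eq_zero_of_Mq fun u => by simpa using hM u
    have : Ms s₀ s = 0 := by
      have := Ms_lin 0 0 s s s₀
      simpa [hs] using this
    rw [this]; simpa [qf] using hX w
  · have h1 := qf_Mq_nonneg ((-z) • s₀ + (1 : ℝ) • s) w
    rw [Mq_lin, qf_add, qf_add, qf_smul, qf_smul, qf_smul] at h1
    have h2 := hM w
    have : 0 ≤ z * (qf X w - qf (Ms s₀ s) w + z * qf (Mq s₀) w) := by nlinarith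
    exact (mul_nonneg_iff_of_pos_left h0).1 this

end Crest.Agent.R237.SP
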