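import Crest.Prelude.Def_Hyperbolic
import Crest.Agent.R237.SPForm

/-! # S0368: the hyperbolic polynomials and their cone -/

set_option autoImplicit false

namespace Crest.Agent.R237.SP

open Matrix Crest.Agent.R237.NS Crest.GeometryTopology

section gen

variable {R : Type} [CommRing R]

def Xof (x : Fin 23 → R) : Matrix (Fin 3) (Fin 3) R :=
  !![x 0, x 3, x 4; x 3, x 1, x 5; x 4, x 5, x 2]

def sof (x : Fin 23 → R) : Fin 8 → R := ![x 7, x 8, x 9, x 10, x 11, x 12, x 13, x 14]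

def Mz (x : Fin 23 → R) : Matrix (Fin 3) (Fin 3) R :=
  Matrix.of fun i j => x 6 * Xof x i j - Mq (sof x) i j

def pg (k : ℕ) (x : Fin 23 → R) : R := x 6 ^ k * (Mz x).det

theorem Xof_symm (x : Fin 23 → R) (i j : Fin 3) : Xof x i j = Xof x j i := by
  fin_cases i <;> fin_cases j <;> rfl

theorem Xof_isSymm (x : Fin 23 → R) : (Xof x).IsSymm := by
  ext i j; exact Xof_symm x j i

theorem Mz_symm (x : Fin 23 → R) (i j : Fin 3) : Mz x i j = Mz x j i := by
  simp only [Mz, Matrix.of_apply, Mq]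
  rw [Xof_symm, MY_symm]

variable {R' : Type} [CommRing R']

theorem map_Xof (f : R → R') (x : Fin 23 → R) (i j : Fin 3) :
    f (Xof x i j) = Xof (fun v => f (x v)) i j := by
  fin_cases i <;> fin_cases j <;> rfl

theorem map_sof (f : R → R') (x : Fin 23 → R) (a : Fin 8) :
    f (sof x a) = sof (fun v => f (x v)) a := by
  fin_cases a <;> rfl

theorem map_Mq (f : R →+* R') (s : Fin 8 → R) (i j : Fin 3) :
    f (Mq s i j) = Mq (fun a => f (s a)) i j := by
  simp only [Mq, map_MY, map_mul]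

theorem map_pg (f : R →+* R') (k : ℕ) (x : Fin 23 → R) : f (pg k x) = pg k fun v => f (x v) := by
  simp only [pg, map_mul, map_pow]
  congr 1
  rw [RingHom.map_det]
  congr 1
  ext i j
  simp only [RingHom.mapMatrix_apply, map_apply, Mz, Matrix.of_apply, map_sub, map_mul, map_Mq,
    map_Xof f, map_sof f]

end gen

/-- the direction -/
def ee : Fin 23 → ℝ := fun i => if i = 0 ∨ i = 1 ∨ i = 2 ∨ i = 6 then 1 else 0

/-- the polynomial `z ^ k * det (z X - M(s))` -/
noncomputable def PP (k : ℕ) : MvPolynomial (Fin 23) ℝ := pg k MvPolynomial.X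

theorem eval_PP (k : ℕ) (y : Fin 23 → ℝ) : MvPolynomial.eval y (PP k) = pg k y := by
  simp only [PP, map_pg, MvPolynomial.eval_X]

theorem aeval_PP (k : ℕ) (y : Fin 23 → ℂ) : MvPolynomial.aeval y (PP k) = pg k y := by
  have := map_pg (MvPolynomial.aeval y : MvPolynomial (Fin 23) ℝ →ₐ[ℝ] ℂ).toRingHom k
    MvPolynomial.X
  simpa [PP] using this

section homog

open MvPolynomial

theorem hom_MY {σ : Type} {Y : Fin 8 → Fin 8 → MvPolynomial σ ℝ} {m : ℕ}
    (h : ∀ a b, (Y a b).IsHomogeneous m) (i j : Fin 3) : (MY Y i j).IsHomogeneous m := by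
  have h4 : ∀ a b c d e f g k : Fin 8,
      (Y a b + Y c d + Y e f + Y g k).IsHomogeneous m := fun _ _ _ _ _ _ _ _ =>
    (((h _ _).add (h _ _)).add (h _ _)).add (h _ _)
  have h1 : (Y 1 4 - Y 0 5 - Y 2 7 + Y 3 6).IsHomogeneous m :=
    (((h _ _).sub (h _ _)).sub (h _ _)).add (h _ _)
  have h2 : (Y 2 4 - Y 0 6 + Y 1 7 - Y 3 5).IsHomogeneous m :=
    (((h _ _).sub (h _ _)).add (h _ _)).sub (h _ _)
  have h3 : (Y 3 4 - Y 0 7 - Y 1 6 + Y 2 5).IsHomogeneous m :=
    (((h _ _).sub (h _ _)).sub (h _ _)).add (h _ _)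
  fin_cases i <;> fin_cases j
  · exact (((h4 _ _ _ _ _ _ _ _).add (h4 _ _ _ _ _ _ _ _)).add h1).add h1
  · exact h2
  · exact h3
  · exact h2
  · exact h4 _ _ _ _ _ _ _ _
  · exact (h4 _ _ _ _ _ _ _ _).neg
  · exact h3
  · exact (h4 _ _ _ _ _ _ _ _).neg
  · exact h4 _ _ _ _ _ _ _ _

theorem PP_homog (k : ℕ) : (PP k).IsHomogeneous (k + 6) := by
  have hX : ∀ v : Fin 23, (X v : MvPolynomial (Fin 23) ℝ).IsHomogeneous 1 :=
    fun v => isHomogeneous_X _ _
  have h1 : ∀ i j, (Xof (X : Fin 23 → MvPolynomial (Fin 23) ℝ) i j).IsHomogeneous 1 := by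
    intro i j; fin_cases i <;> fin_cases j <;> exact hX _
  have h2 : ∀ a, (sof (X : Fin 23 → MvPolynomial (Fin 23) ℝ) a).IsHomogeneous 1 := by
    intro a; fin_cases a <;> exact hX _
  have h3 : ∀ i j, (Mz (X : Fin 23 → MvPolynomial (Fin 23) ℝ) i j).IsHomogeneous 2 :=
    fun i j => ((hX _).mul (h1 i j)).sub (hom_MY (fun a b => (h2 a).mul (h2 b)) i j)
  have h4 := (hX 6).pow k
  rw [one_mul] at h4
  refine h4.mul ?_
  rw [Matrix.det_fin_three]
  have h6 : ∀ a b c d e f, (Mz (X : Fin 23 → MvPolynomial (Fin 23) ℝ) a b * Mz X c d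
      * Mz X e f).IsHomogeneous 6 := fun _ _ _ _ _ _ => ((h3 _ _).mul (h3 _ _)).mul (h3 _ _)
  exact (((((h6 _ _ _ _ _ _).sub (h6 _ _ _ _ _ _)).sub (h6 _ _ _ _ _ _)).add
    (h6 _ _ _ _ _ _)).add (h6 _ _ _ _ _ _)).sub (h6 _ _ _ _ _ _)

end homog

theorem pg_smul (k : ℕ) (c : ℝ) (y : Fin 23 → ℝ) :
    pg k (fun v => c * y v) = c ^ (k + 6) * pg k y := by
  rw [← eval_PP, ← eval_PP]
  exact eval_smul_homog (PP_homog k) c y

theorem Xof_line (a b : ℝ) (x : Fin 23 → ℝ) :
    Xof (fun v => a * ee v + b * x v) = a • (1 : Matrix (Fin 3) (Fin 3) ℝ) + b • Xof x := by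
  ext i j; fin_cases i <;> fin_cases j <;> simp [Xof, ee]

theorem sof_line (a b : ℝ) (x : Fin 23 → ℝ) :
    sof (fun v => a * ee v + b * x v) = b • sof x := by
  funext i; fin_cases i <;> simp [sof, ee]

theorem Mq_smul (b : ℝ) (s : Fin 8 → ℝ) : Mq (b • s) = b ^ 2 • Mq s := by
  simpa using Mq_lin b 0 s s

theorem qf_Mz_line (a b : ℝ) (x : Fin 23 → ℝ) (w : Fin 3 → ℝ) :
    qf (Mz (fun v => a * ee v + b * x v)) w
      = (a + b * x 6) * (a * ∑ i, w i ^ 2 + b * qf (Xof x) w) - b ^ 2 * qf (Mq (sof x)) w := by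
  have : Mz (fun v => a * ee v + b * x v)
      = (a + b * x 6) • (a • (1 : Matrix (Fin 3) (Fin 3) ℝ) + b • Xof x) - b ^ 2 • Mq (sof x) := by
    rw [← Xof_line, ← Mq_smul, ← sof_line a]
    ext i j
    simp [Mz, ee]
  rw [this]
  simp only [qf_sub, qf_smul, qf_add, qf_one]

theorem pg_ee (k : ℕ) : pg k ee = 1 := by
  have h : Mz ee = 1 := by
    ext i j; fin_cases i <;> fin_cases j <;> simp [Mz, Xof, Mq, MY, sof, ee]
  simp [pg, h, ee]

theorem sumsq_pos {w : Fin 3 → ℝ} (hw : w ≠ 0) : 0 < ∑ a, w a ^ 2 := by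
  obtain ⟨a, ha⟩ := Function.ne_iff.1 hw
  exact Finset.sum_pos' (fun _ _ => sq_nonneg _) ⟨a, Finset.mem_univ _, sq_pos_of_ne_zero ha⟩

theorem pg_ne_zero (k : ℕ) (x : Fin 23 → ℝ) (z : ℂ) (hz : z.im ≠ 0) :
    pg k (fun v => z * (ee v : ℂ) - (x v : ℂ)) ≠ 0 := by
  set y : Fin 23 → ℂ := fun v => z * (ee v : ℂ) - (x v : ℂ) with hy
  have ha : y 6 = z - x 6 := by simp [hy, ee]
  have haim : (y 6).im = z.im := by simp [ha]
  have ha0 : y 6 ≠ 0 := by
    intro h; rw [h] at haim; exact hz (by simpa using haim.symm)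
  refine mul_ne_zero (pow_ne_zero _ ha0) ?_
  refine det_ne_zero_of_im _ (Mz_symm y) ((z.im : ℂ) / y 6) fun w hw => ?_
  have hX : ∀ i j, Xof y i j = z * ((1 : Matrix (Fin 3) (Fin 3) ℝ) i j : ℝ) - (Xof x i j : ℝ) := by
    intro i j; fin_cases i <;> fin_cases j <;> simp [Xof, hy, ee]
  have hs : sof y = fun a => Complex.ofRealHom (((-1 : ℝ) • sof x) a) := by
    funext a; fin_cases a <;> simp [sof, hy, ee]
  have hM : ∀ i j, Mq (sof y) i j = (Mq (sof x) i j : ℝ) := by
    intro i j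
    rw [hs, ← map_Mq, Mq_smul]; simp
  have h1 : ∑ a, ∑ b, (w a : ℂ) * Mz y a b * (w b : ℂ)
      = y 6 * (z * (qf 1 w : ℝ) - (qf (Xof x) w : ℝ)) - (qf (Mq (sof x)) w : ℝ) := by
    simp only [Mz, Matrix.of_apply, hX, hM, qf_eq, Fin.sum_univ_three]
    push_cast
    ring
  have e : (z.im : ℂ) / y 6 * (y 6 * (z * (qf 1 w : ℝ) - (qf (Xof x) w : ℝ))
      - (qf (Mq (sof x)) w : ℝ))
      = (z.im : ℂ) * (z * (qf 1 w : ℝ) - (qf (Xof x) w : ℝ))
        - ((z.im * qf (Mq (sof x)) w : ℝ) : ℂ) * (y 6)⁻¹ := by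
    push_cast; field_simp
  rw [h1, e, Complex.sub_im, Complex.im_ofReal_mul, Complex.im_ofReal_mul, Complex.inv_im, haim,
    qf_one]
  simp only [Complex.sub_im, Complex.mul_im, Complex.ofReal_im, Complex.ofReal_re, mul_zero,
    zero_add, sub_zero]
  have h2 := sumsq_pos hw
  have h3 := qf_Mq_nonneg (sof x) w
  have h4 : 0 < Complex.normSq (y 6) := Complex.normSq_pos.2 ha0
  have e2 : z.im * (z.im * ∑ i, w i ^ 2) - z.im * qf (Mq (sof x)) w * (-z.im / Complex.normSq (y 6))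
      = z.im ^ 2 * (∑ i, w i ^ 2 + qf (Mq (sof x)) w / Complex.normSq (y 6)) := by ring
  rw [e2]
  positivity

theorem PP_hyperbolic (k : ℕ) : Hyperbolic.IsHyperbolic (PP k) ee := by
  refine ⟨⟨_, PP_homog k⟩, by rw [eval_PP, pg_ee]; exact one_pos, fun x z hz => ?_⟩
  by_contra h
  refine pg_ne_zero k x z h ?_
  rw [← aeval_PP]; exact hz

theorem lin_nonneg {a b : ℝ} (h : ∀ e : ℝ, 0 ≤ e → 0 ≤ a + e * b) : 0 ≤ b := by
  by_contra hb
  push Not at hb
  have h1 := h ((|a| + 1) / -b) (div_nonneg (by positivity) (by linarith))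
  have e : (|a| + 1) / -b * b = -(|a| + 1) := by field_simp [hb.ne]
  rw [e] at h1
  linarith [le_abs_self a]

theorem mem_cone_iff {k : ℕ} (hk : k ≠ 0) (x : Fin 23 → ℝ) :
    x ∈ Hyperbolic.closedCone (PP k) ee ↔ K0 (Xof x) (x 6) (sof x) := by
  simp only [Hyperbolic.closedCone, Set.mem_ofPred_eq, eval_PP]
  constructor
  · intro h
    set Y : ℝ → Fin 23 → ℝ := fun e v => 1 * ee v + e * x v with hY
    have hne : ∀ e, 0 ≤ e → pg k (Y e) ≠ 0 := by
      intro e he
      rcases he.eq_or_lt with h0 | h0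
      · have : Y e = ee := by funext v; simp [hY, ← h0]
        rw [this, pg_ee]; exact one_ne_zero
      · have : Y e = fun v => (-e) * (-e⁻¹ * ee v - x v) := by
          funext v; simp only [hY]; field_simp; ring
        rw [this, pg_smul]
        refine mul_ne_zero (pow_ne_zero _ (by linarith)) fun h1 => ?_
        have := h _ h1
        have := inv_pos.2 h0
        linarith
    have hz : ∀ e, 0 ≤ e → 0 < 1 + e * x 6 := by
      intro e he
      refine pos_of_path (f := fun e => 1 + e * x 6) (by fun_prop) (by simp) (fun e he h0 => ?_) he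
      refine hne e he ?_
      have : Y e 6 = 1 + e * x 6 := by simp [hY, ee]
      rw [pg, this, h0, zero_pow hk, zero_mul]
    have hq : ∀ e, 0 ≤ e → ∀ w, 0 ≤ qf (Mz (Y e)) w := by
      intro e he w
      rw [qf_eq]
      refine quad_nonneg_of_path (fun e => Mz (Y e)) (fun a b => ?_) (fun e => Mz_symm _)
        (fun e he h0 => hne e he (by rw [pg, h0, mul_zero])) (fun w hw => ?_) he w
      · simp only [Mz, Matrix.of_apply, hY, Xof_line, sof_line, Mq_smul, Matrix.add_apply,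
          Matrix.smul_apply, smul_eq_mul]
        fun_prop
      · rw [← qf_eq, hY, qf_Mz_line]
        simpa using sumsq_pos hw
    simp only [hY, qf_Mz_line] at hq
    have hz0 : 0 ≤ x 6 := lin_nonneg fun e he => (hz e he).le
    have hX : ∀ w, 0 ≤ qf (Xof x) w := by
      intro w
      refine lin_nonneg (a := ∑ i, w i ^ 2) fun e he => ?_
      have h1 := hq e he w
      have h2 := mul_nonneg (sq_nonneg e) (qf_Mq_nonneg (sof x) w)
      have h3 : 0 ≤ (1 + e * x 6) * (1 * ∑ i, w i ^ 2 + e * qf (Xof x) w) := by linarith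
      have := (mul_nonneg_iff_of_pos_left (hz e he)).1 h3
      linarith
    refine ⟨hz0, hX, fun w => ?_⟩
    rw [← sub_nonneg]
    refine lin_nonneg (a := ∑ i, w i ^ 2 + (qf (Xof x) w + x 6 * ∑ i, w i ^ 2)) fun e he => ?_
    have h1 := hq (e + 1) (by linarith) w
    have h2 : 0 ≤ ∑ i, w i ^ 2 := by positivity
    have h3 := hX w
    by_contra hneg
    push Not at hneg
    set N := ∑ i, w i ^ 2
    set Q := qf (Xof x) w
    set B := qf (Mq (sof x)) w
    have h4 : x 6 * Q - B < 0 := by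
      by_contra h5
      push Not at h5
      have := mul_nonneg he h5
      have := mul_nonneg hz0 h2
      linarith
    have e1 : (1 + (e + 1) * x 6) * (1 * N + (e + 1) * Q) - (e + 1) ^ 2 * B
        = (e + 1) * (N + (Q + x 6 * N) + e * (x 6 * Q - B)) + (e + 1) * (x 6 * Q - B) - e * N := by
      ring
    rw [e1] at h1
    nlinarith [mul_nonneg he h2]
  · rintro ⟨hz, hX, hM⟩ t ht
    by_contra hneg
    push Not at hneg
    have e : (fun v => t * ee v - x v) = fun v => (-1) * ((-t) * ee v + 1 * x v) := by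
      funext v; ring
    rw [e, pg_smul] at ht
    refine (mul_ne_zero (pow_ne_zero _ (by norm_num)) ?_) ht
    have h6 : (0 : ℝ) < -t * ee 6 + 1 * x 6 := by simp only [ee]; norm_num; linarith
    refine mul_ne_zero (pow_ne_zero _ h6.ne') (Matrix.PosDef.det_pos ?_).ne'
    refine Matrix.PosDef.of_dotProduct_mulVec_pos ?_ fun w hw => ?_
    · ext a b; simp [Mz_symm _ a b]
    · rw [star_trivial]
      change 0 < qf _ w
      rw [qf_Mz_line]
      have h1 := sumsq_pos hw
      have h2 := hX w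
      have h3 := hM w
      have h4 : 0 < -t := by linarith
      nlinarith [mul_pos h4 h1, mul_nonneg h4.le h2, mul_nonneg hz (mul_pos h4 h1).le,
        mul_pos h4 (mul_pos h4 h1)]

end Crest.Agent.R237.SP
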