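import Crest.Agent.R237.SPTight
import Crest.Agent.R237.NSDeriv

/-! # S0368: the cone `K0` is not a spectrahedron -/

set_option autoImplicit false
set_option linter.unusedSectionVars false

namespace Crest.Agent.R237.SP

open Matrix Crest.Agent.R237.NS

variable {n : Type} [Fintype n] [DecidableEq n]

/-- entrywise derivation of a vector -/
noncomputable def dv {α : Type} (δ : Derivation ℚ ℝ ℝ) (v : α → ℝ) : α → ℝ := fun i => δ (v i)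

theorem dv_add {α : Type} (δ : Derivation ℚ ℝ ℝ) (a b : α → ℝ) : dv δ (a + b) = dv δ a + dv δ b := by
  funext i; simp [dv]

theorem dv_zero {α : Type} (δ : Derivation ℚ ℝ ℝ) : dv δ (0 : α → ℝ) = 0 := by
  funext i; simp [dv]

theorem d_dot (δ : Derivation ℚ ℝ ℝ) (a b : n → ℝ) :
    δ (a ⬝ᵥ b) = dv δ a ⬝ᵥ b + a ⬝ᵥ dv δ b := by
  simp only [dotProduct, map_sum, Derivation.leibniz, smul_eq_mul, dv, ← Finset.sum_add_distrib]
  exact Finset.sum_congr rfl fun k _ => by ring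

theorem dv_mulVec (δ : Derivation ℚ ℝ ℝ) (M : Matrix n n ℝ) (v : n → ℝ) :
    dv δ (M *ᵥ v) = dm δ M *ᵥ v + M *ᵥ dv δ v := by
  funext i
  exact d_dot δ (M i) v

theorem dot_symm {M : Matrix n n ℝ} (hM : M.IsSymm) (a b : n → ℝ) :
    a ⬝ᵥ M *ᵥ b = b ⬝ᵥ M *ᵥ a := by
  rw [dotProduct_mulVec, ← mulVec_transpose, hM.eq, dotProduct_comm]

theorem d123 (δ : Derivation ℚ ℝ ℝ) {M : Matrix n n ℝ} {ξ : n → ℝ} (h : M *ᵥ ξ = 0) :
    dm δ M *ᵥ ξ + M *ᵥ dv δ ξ = 0 ∧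
    dm δ (dm δ M) *ᵥ ξ + (2 : ℝ) • (dm δ M *ᵥ dv δ ξ) + M *ᵥ dv δ (dv δ ξ) = 0 ∧
    dm δ (dm δ (dm δ M)) *ᵥ ξ + (3 : ℝ) • (dm δ (dm δ M) *ᵥ dv δ ξ)
      + (3 : ℝ) • (dm δ M *ᵥ dv δ (dv δ ξ)) + M *ᵥ dv δ (dv δ (dv δ ξ)) = 0 := by
  have h1 := congrArg (dv δ) h
  rw [dv_zero, dv_mulVec] at h1
  have h2 := congrArg (dv δ) h1
  simp only [dv_zero, dv_add, dv_mulVec] at h2
  have h3 := congrArg (dv δ) h2
  simp only [dv_zero, dv_add, dv_mulVec] at h3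
  refine ⟨h1, ?_, ?_⟩
  · rw [← h2]; module
  · rw [← h3]; module

/-- the derivation kills the coefficients of the pencil -/
structure Kills (L : Pencil n) (δ : Derivation ℚ ℝ ℝ) : Prop where
  hA : ∀ i j, dm δ (L.A (single i j 1)) = 0
  hC : ∀ a, dm δ (L.C (Pi.single a 1)) = 0

theorem Kills.dm_A {L : Pencil n} {δ : Derivation ℚ ℝ ℝ} (h : Kills L δ)
    (X : Matrix (Fin 3) (Fin 3) ℝ) : dm δ (L.A X) = L.A (dm δ X) := by
  have e : ∀ Y : Matrix (Fin 3) (Fin 3) ℝ, L.A Y = ∑ i, ∑ j, Y i j • L.A (single i j 1) := by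
    intro Y
    conv_lhs => rw [matrix_eq_sum_single Y]
    simp only [map_sum, ← map_smul, smul_single, smul_eq_mul, mul_one]
  rw [e X, e (dm δ X)]
  simp only [dm_sum, dm_smul, h.hA, smul_zero, add_zero]
  rfl

theorem Kills.dm_C {L : Pencil n} {δ : Derivation ℚ ℝ ℝ} (h : Kills L δ)
    (s : Fin 8 → ℝ) : dm δ (L.C s) = L.C (dv δ s) := by
  have e : ∀ y : Fin 8 → ℝ, L.C y = ∑ i, y i • L.C (Pi.single i 1) := by
    intro y
    rw [LinearMap.pi_apply_eq_sum_univ]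
    refine Finset.sum_congr rfl fun i _ => ?_
    congr 2
    funext j; simp [Pi.single_apply, eq_comm]
  rw [e s, e (dv δ s)]
  simp only [dm_sum, dm_smul, h.hC, smul_zero, add_zero]
  rfl

theorem dm_Ms (δ : Derivation ℚ ℝ ℝ) (s s' : Fin 8 → ℝ) :
    dm δ (Ms s s') = Ms (dv δ s) s' + Ms s (dv δ s') := by
  have h1 : ∀ Y : Fin 8 → Fin 8 → ℝ, dm δ (MY Y) = MY fun a b => δ (Y a b) := by
    intro Y; ext i j
    fin_cases i <;> fin_cases j <;> simp [dm, MY]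
  have h2 : ∀ Y Z : Fin 8 → Fin 8 → ℝ, MY Y + MY Z = MY fun a b => Y a b + Z a b :=
    fun Y Z => (MYL.map_add (Matrix.of Y) (Matrix.of Z)).symm
  unfold Ms
  rw [h1, h2]
  congr 1
  funext a b
  simp only [map_add, Derivation.leibniz, smul_eq_mul, dv]
  ring

theorem Ms_zero_left (s : Fin 8 → ℝ) : Ms 0 s = 0 := by
  have := Ms_lin 0 0 s s s
  rw [Ms_comm]
  simpa using this

theorem dv_jv (δ : Derivation ℚ ℝ ℝ) {η : Fin 4 → ℝ} (hη : dv δ η = 0) (u : Fin 3 → ℝ) :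
    dv δ (jv η u) = jv η (dv δ u) := by
  have h : ∀ i, δ (η i) = 0 := fun i => congrFun hη i
  funext a
  fin_cases a <;> simp [dv, jv, Derivation.leibniz, h, mul_comm]

theorem jv_zero (η : Fin 4 → ℝ) : jv η 0 = 0 := by
  funext a; fin_cases a <;> simp [jv]

/-- the translated pencil `C'(S) = 2 A(M(s₀,S)) + C(S)` -/
def Cp (L : Pencil n) (s₀ : Fin 8 → ℝ) : (Fin 8 → ℝ) →ₗ[ℝ] Matrix n n ℝ where
  toFun S := L.A (Ms s₀ S) + L.C S
  map_add' S T := by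
    have := Ms_lin 1 1 S T s₀
    simp only [one_smul] at this
    rw [this, map_add, map_add]; abel
  map_smul' c S := by
    have := Ms_lin c 0 S S s₀
    simp only [zero_smul, add_zero] at this
    rw [this, map_smul, map_smul, smul_add]; rfl

theorem Cp_apply (L : Pencil n) (s₀ S : Fin 8 → ℝ) : Cp L s₀ S = L.A (Ms s₀ S) + L.C S := rfl

theorem Cp_symm (L : Pencil n) (s₀ S : Fin 8 → ℝ) : (Cp L s₀ S).IsSymm :=
  (L.symmA _).add (L.symmC _)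

theorem Kills.dm_Cp {L : Pencil n} {δ : Derivation ℚ ℝ ℝ} (h : Kills L δ) (s₀ S : Fin 8 → ℝ) :
    dm δ (Cp L s₀ S) = L.A (Ms (dv δ s₀) S) + Cp L s₀ (dv δ S) := by
  rw [Cp_apply, Cp_apply, dm_add, h.dm_A, h.dm_C, dm_Ms, map_add, add_assoc]

section tight

variable {L : Pencil n} {w₁ w₂ : ℝ} {s₀ : Fin 8 → ℝ} {ξ : n → ℝ}

theorem A_vv_kill
    (hA : ∀ X : Matrix (Fin 3) (Fin 3) ℝ, X.IsSymm → ξ ⬝ᵥ L.A X *ᵥ ξ = qf X ![1, w₁, w₂])
    {p : Fin 3 → ℝ} (hp : p ⬝ᵥ ![1, w₁, w₂] = 0) : L.A (vecMulVec p p) *ᵥ ξ = 0 := by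
  refine ((L.psd_vv p).dotProduct_mulVec_zero_iff ξ).1 ?_
  rw [star_trivial, hA _ (vv_isSymm p), qf_vv, hp]; norm_num

theorem Cp_kill
    (hA : ∀ X : Matrix (Fin 3) (Fin 3) ℝ, X.IsSymm → ξ ⬝ᵥ L.A X *ᵥ ξ = qf X ![1, w₁, w₂])
    (hC : ∀ s, ξ ⬝ᵥ L.C s *ᵥ ξ = -qf (Ms s₀ s) ![1, w₁, w₂])
    (hD : ξ ⬝ᵥ L.D *ᵥ ξ = qf (Mq s₀) ![1, w₁, w₂]) (η : Fin 4 → ℝ) :
    Cp L s₀ (jv η ![1, w₁, w₂]) *ᵥ ξ = 0 := by
  set σ := jv η ![1, w₁, w₂] with hσ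
  have key : ∀ r : ℝ, (L.A (Mq ((1 : ℝ) • s₀ + r • σ)) + L.D + L.C ((1 : ℝ) • s₀ + r • σ)) *ᵥ ξ = 0 := by
    intro r
    refine ((L.psd_Mq _).dotProduct_mulVec_zero_iff ξ).1 ?_
    rw [star_trivial, add_mulVec, add_mulVec, dotProduct_add, dotProduct_add,
      hA (Mq _) (MY_isSymm _), hC, hD, Mq_lin, Ms_lin, Ms_self]
    simp only [qf_add, qf_smul, hσ, qf_Ms_jv, qf_Mq_jv]
    ring
  have h1 := key 1
  have h2 := key (-1)
  rw [Mq_lin] at h1 h2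
  simp only [map_add, map_smul, add_mulVec, smul_mulVec] at h1 h2
  rw [Cp_apply, add_mulVec]
  linear_combination (norm := module) (1 / 2 : ℝ) • h1 - (1 / 2 : ℝ) • h2

/-- second order rigidity: `ξ₂ᵀ A(X) ξ = c X[w]` -/
theorem F2_zero
    (hA : ∀ X : Matrix (Fin 3) (Fin 3) ℝ, X.IsSymm → ξ ⬝ᵥ L.A X *ᵥ ξ = qf X ![1, w₁, w₂])
    {δ : Derivation ℚ ℝ ℝ} (hδ : Kills L δ) {x₁ x₂ : ℝ} (h₁ : δ w₁ = x₁) (h₂ : δ w₂ = x₂)
    (hx₁ : δ x₁ = 0) (hx₂ : δ x₂ = 0) (hx : x₁ ≠ 0 ∨ x₂ ≠ 0)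
    {X : Matrix (Fin 3) (Fin 3) ℝ} (hX : X.IsSymm) (hXw : qf X ![1, w₁, w₂] = 0) :
    dv δ (dv δ ξ) ⬝ᵥ L.A X *ᵥ ξ = 0 := by
  set e₀ : Fin 3 → ℝ := ![1, 0, 0] with he₀
  set p₁ : Fin 3 → ℝ := ![-w₁, 1, 0] with hp₁
  set p₂ : Fin 3 → ℝ := ![-w₂, 0, 1] with hp₂
  have hp₁w : p₁ ⬝ᵥ ![1, w₁, w₂] = 0 := by simp [hp₁, dotProduct, Fin.sum_univ_three]
  have hp₂w : p₂ ⬝ᵥ ![1, w₁, w₂] = 0 := by simp [hp₂, dotProduct, Fin.sum_univ_three]
  have hE : dm δ (vecMulVec e₀ e₀) = 0 := by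
    ext i j; fin_cases i <;> fin_cases j <;> simp [dm, he₀]
  have hF1 : ξ ⬝ᵥ L.A (vecMulVec e₀ e₀) *ᵥ dv δ ξ = 0 := by
    have h := congrArg δ (hA _ (vv_isSymm e₀))
    have e : e₀ ⬝ᵥ ![1, w₁, w₂] = 1 := by simp [he₀, dotProduct, Fin.sum_univ_three]
    rw [qf_vv, e, one_pow, Derivation.map_one_eq_zero, d_dot, dv_mulVec, hδ.dm_A, hE, map_zero,
      zero_mulVec, zero_add, dot_symm (L.symmA _) (dv δ ξ)] at h
    linarith
  have key : ∀ a₁ a₂ : ℝ, δ a₁ = 0 → δ a₂ = 0 → (a₁ * x₁ + a₂ * x₂) *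
      (a₁ * (ξ ⬝ᵥ L.A (sym2 e₀ p₁) *ᵥ dv δ (dv δ ξ))
        + a₂ * (ξ ⬝ᵥ L.A (sym2 e₀ p₂) *ᵥ dv δ (dv δ ξ))) = 0 := by
    intro a₁ a₂ ha₁ ha₂
    set p : Fin 3 → ℝ := a₁ • p₁ + a₂ • p₂ with hp
    have hpw : p ⬝ᵥ ![1, w₁, w₂] = 0 := by
      rw [hp, add_dotProduct, smul_dotProduct, smul_dotProduct, hp₁w, hp₂w]; simp
    have hk := A_vv_kill hA hpw
    have h3 := (d123 δ hk).2.2
    have e1 : dm δ (vecMulVec p p)
        = (-(a₁ * x₁ + a₂ * x₂)) • (a₁ • sym2 e₀ p₁ + a₂ • sym2 e₀ p₂) := by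
      ext i j
      fin_cases i <;> fin_cases j <;>
        simp [dm, hp, hp₁, hp₂, he₀, sym2, Derivation.leibniz, ha₁, ha₂, h₁, h₂] <;>
        ring
    have e2 : dm δ (dm δ (vecMulVec p p)) = (2 * (a₁ * x₁ + a₂ * x₂) ^ 2) • vecMulVec e₀ e₀ := by
      rw [e1]
      ext i j
      fin_cases i <;> fin_cases j <;>
        simp [dm, hp₁, hp₂, he₀, sym2, Derivation.leibniz, ha₁, ha₂, h₁, h₂, hx₁,
          hx₂] <;>
        ring
    have e3 : dm δ (dm δ (dm δ (vecMulVec p p))) = 0 := by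
      rw [e2, dm_smul, hE, Derivation.leibniz, Derivation.leibniz_pow]
      have : δ 2 = 0 := by simpa using δ.map_natCast 2
      simp [this, Derivation.leibniz, ha₁, ha₂, hx₁, hx₂]
    rw [hδ.dm_A, hδ.dm_A, hδ.dm_A, e3, e2, e1] at h3
    have h4 := congrArg (ξ ⬝ᵥ ·) h3
    simp only [map_zero, zero_mulVec, zero_add, map_smul, map_add, smul_mulVec, add_mulVec,
      dotProduct_add, dotProduct_smul, smul_eq_mul, dotProduct_zero, hF1] at h4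
    rw [dot_symm (L.symmA _) ξ (dv δ (dv δ (dv δ ξ))), hk, dotProduct_zero] at h4
    linarith
  have k1 := key 1 0 (by simp) (by simp)
  have k2 := key 0 1 (by simp) (by simp)
  have k3 := key 1 1 (by simp) (by simp)
  set φ₁ := ξ ⬝ᵥ L.A (sym2 e₀ p₁) *ᵥ dv δ (dv δ ξ) with hφ₁
  set φ₂ := ξ ⬝ᵥ L.A (sym2 e₀ p₂) *ᵥ dv δ (dv δ ξ) with hφ₂
  have hφ : φ₁ = 0 ∧ φ₂ = 0 := by
    rcases hx with hx | hx
    · have a1 : φ₁ = 0 := by
        have : x₁ * φ₁ = 0 := by linarith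
        exact (mul_eq_zero.1 this).resolve_left hx
      refine ⟨a1, ?_⟩
      rw [a1] at k3
      have : x₁ * φ₂ = 0 := by linarith
      exact (mul_eq_zero.1 this).resolve_left hx
    · have a1 : φ₂ = 0 := by
        have : x₂ * φ₂ = 0 := by linarith
        exact (mul_eq_zero.1 this).resolve_left hx
      refine ⟨?_, a1⟩
      rw [a1] at k3
      have : x₂ * φ₁ = 0 := by linarith
      exact (mul_eq_zero.1 this).resolve_left hx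
  have z1 := A_vv_kill hA hp₁w
  have z2 := A_vv_kill hA hp₂w
  have z12 : L.A (sym2 p₁ p₂) *ᵥ ξ = 0 := by
    have := A_vv_kill hA (p := p₁ + (1 : ℝ) • p₂) (by
      rw [add_dotProduct, smul_dotProduct, hp₁w, hp₂w]; simp)
    rw [vv_lin] at this
    simpa [add_mulVec, z1, z2] using this
  rw [decomp hX w₁ w₂, hXw]
  simp only [map_add, map_smul, add_mulVec, smul_mulVec, dotProduct_add, dotProduct_smul,
    smul_eq_mul]
  rw [← hp₁, ← hp₂, ← he₀, z1, z2, z12, dot_symm (L.symmA (sym2 e₀ p₁)),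
    dot_symm (L.symmA (sym2 e₀ p₂)), ← hφ₁, ← hφ₂, hφ.1, hφ.2]
  simp

end tight

/-- the final linear algebra: no bilinear form is alternating along `j` -/
theorem final_la (O₀ O₁ O₂ : (Fin 8 → ℝ) →ₗ[ℝ] ℝ) (w₁ w₂ : ℝ)
    (h00 : ∀ η, O₀ (jv η ![1, w₁, w₂]) = 0)
    (h01 : ∀ η, O₀ (jv η ![0, 1, 0]) + O₁ (jv η ![1, w₁, w₂]) = 0)
    (h02 : ∀ η, O₀ (jv η ![0, 0, 1]) + O₂ (jv η ![1, w₁, w₂]) = 0)
    (h11 : ∀ η, O₁ (jv η ![0, 1, 0]) = 0) (h22 : ∀ η, O₂ (jv η ![0, 0, 1]) = 0)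
    (h12 : ∀ η, O₁ (jv η ![0, 0, 1]) + O₂ (jv η ![0, 1, 0]) = 0) :
    O₀ (jv ![1, 0, 0, 0] ![0, 1, 0]) = 0 := by
  let a : (Fin 4 → ℝ) → (Fin 4 → ℝ) := fun η =>
    ![w₁ * η 0 + η 3, w₁ * η 1 + η 2, w₁ * η 2 - η 1, w₁ * η 3 - η 0]
  let b : (Fin 4 → ℝ) → (Fin 4 → ℝ) := fun η =>
    ![w₂ * η 0 - η 2, w₂ * η 1 + η 3, w₂ * η 2 + η 0, w₂ * η 3 - η 1]
  have hj : ∀ η, jv η ![1, w₁, w₂] = jv (a η) ![0, 1, 0] + jv (b η) ![0, 0, 1] := by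
    intro η; funext i; fin_cases i <;> simp [jv, a, b]
  simp only [hj, map_add] at h00 h01 h02
  have hγ : ∀ η, O₁ (jv η ![0, 0, 1]) = 0 := by
    intro η
    set θ : Fin 4 → ℝ := ![η 1, -η 0, η 3, -η 2] with hθ
    have e : jv (a (b θ)) ![0, 0, 1] = jv (b (a θ)) ![0, 0, 1] + (2 : ℝ) • jv η ![0, 0, 1] := by
      funext i; fin_cases i <;> simp [jv, a, b, hθ] <;> ring
    have e' := congrArg O₁ e
    rw [map_add, map_smul, smul_eq_mul] at e'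
    linarith [h00 θ, h01 (a θ), h02 (b θ), h11 (a (a θ)), h22 (b (b θ)), h12 (a (b θ))]
  linarith [h01 ![1, 0, 0, 0], h11 (a ![1, 0, 0, 0]), hγ (b ![1, 0, 0, 0])]

theorem lin_jv_ext {F : (Fin 4 → ℝ) → ℝ} (hF : IsLinearMap ℝ F)
    (h : ∀ i, F (Pi.single i 1) = 0) (η : Fin 4 → ℝ) : F η = 0 := by
  have := LinearMap.pi_apply_eq_sum_univ (hF.mk' F) η
  rw [IsLinearMap.mk'_apply] at this
  rw [this]
  refine Finset.sum_eq_zero fun i _ => ?_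
  have e : (fun j => if i = j then (1 : ℝ) else 0) = Pi.single i 1 := by
    funext j; simp [Pi.single_apply, eq_comm]
  rw [e, IsLinearMap.mk'_apply, h, smul_zero]

theorem jv_linear (u : Fin 3 → ℝ) : IsLinearMap ℝ fun η => jv η u :=
  ⟨fun η η' => by funext i; fin_cases i <;> simp [jv] <;> ring,
    fun c η => by funext i; fin_cases i <;> simp [jv] <;> ring⟩

theorem Pencil.false (L : Pencil n) : False := by
  obtain ⟨y, D, hDc, hDy⟩ := exists_derivations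
    (α := (Fin 3 × Fin 3 × n × n) ⊕ (Fin 8 × n × n))
    (Sum.elim (fun x => L.A (single x.1 x.2.1 1) x.2.2.1 x.2.2.2)
      (fun x => L.C (Pi.single x.1 1) x.2.1 x.2.2)) (Fin 3)
  have hK : ∀ r, Kills L (D r) := fun r =>
    ⟨fun i j => by ext a b; exact hDc r (.inl (i, j, a, b)),
      fun i => by ext a b; exact hDc r (.inr (i, a, b))⟩
  have hK' : Kills L (D 0 + D 1) :=
    ⟨fun i j => by
      ext a b
      have h0 := hDc 0 (.inl (i, j, a, b))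
      have h1 := hDc 1 (.inl (i, j, a, b))
      simp only [Sum.elim_inl] at h0 h1
      simp [dm, h0, h1],
    fun i => by
      ext a b
      have h0 := hDc 0 (.inr (i, a, b))
      have h1 := hDc 1 (.inr (i, a, b))
      simp only [Sum.elim_inr] at h0 h1
      simp [dm, h0, h1]⟩
  set q : Fin 8 → ℝ := jv ![1, 0, 0, 0] ![0, 1, 0] with hq
  set s₀ : Fin 8 → ℝ := y 2 • q with hs₀
  obtain ⟨ξ, hA, hC, hD⟩ := L.exists_tight (y 0) (y 1) s₀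
  set w : Fin 3 → ℝ := ![1, y 0, y 1] with hw
  set ζ := dv (D 2) ξ with hζ
  have hdq : ∀ δ : Derivation ℚ ℝ ℝ, dv δ q = 0 := by
    intro δ; funext a; fin_cases a <;> simp [dv, hq, jv]
  have hds : ∀ δ : Derivation ℚ ℝ ℝ, dv δ s₀ = δ (y 2) • q := by
    intro δ; funext a
    have := congrFun (hdq δ) a
    simp only [dv, Pi.zero_apply] at this
    simp [dv, hs₀, Derivation.leibniz, this, mul_comm]
  have hdw : ∀ δ : Derivation ℚ ℝ ℝ, dv δ w = ![0, δ (y 0), δ (y 1)] := by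
    intro δ; funext a; fin_cases a <;> simp [dv, hw]
  have hde : ∀ (δ : Derivation ℚ ℝ ℝ) (i : Fin 4), dv δ (Pi.single i (1 : ℝ) : Fin 4 → ℝ) = 0 := by
    intro δ i; funext a
    simp only [dv, Pi.single_apply]; split_ifs <;> simp
  have hτs : dv (D 2) s₀ = q := by rw [hds, hDy]; simp
  have hτw : dv (D 2) w = 0 := by
    rw [hdw, hDy, hDy]; funext a; fin_cases a <;> simp
  have hb := Cp_kill hA hC hD
  -- the value at `q`
  have hval : ζ ⬝ᵥ Cp L s₀ q *ᵥ ξ ≠ 0 := by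
    have h0 : ξ ⬝ᵥ Cp L s₀ q *ᵥ ξ = 0 := by
      rw [Cp_apply, add_mulVec, dotProduct_add, hA (Ms s₀ q) (MY_isSymm _), hC]; ring
    have h1 := congrArg (D 2) h0
    rw [map_zero, d_dot, dv_mulVec, (hK 2).dm_Cp, hdq, map_zero, add_zero, hτs, dotProduct_add,
      hA (Ms q q) (MY_isSymm _), dot_symm (Cp_symm L s₀ q) ξ, ← hζ] at h1
    have h2 : qf (Ms q q) w = 2 * (1 + y 1 ^ 2) := by
      simp [qf_eq, Ms, MY, hq, hw, jv, Fin.sum_univ_three]; ring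
    intro h
    rw [h, h2] at h1
    nlinarith [sq_nonneg (y 1)]
  have hτ : ∀ i, L.A (Ms q (jv (Pi.single i 1) w)) *ᵥ ξ + Cp L s₀ (jv (Pi.single i 1) w) *ᵥ ζ = 0 := by
    intro i
    have := (d123 (D 2) (hb (Pi.single i 1))).1
    rwa [(hK 2).dm_Cp, dv_jv _ (hde _ i), hτw, jv_zero, map_zero, add_zero, hτs] at this
  have main : ∀ (δ : Derivation ℚ ℝ ℝ) (x₁ x₂ : ℝ), Kills L δ → δ (y 0) = x₁ → δ (y 1) = x₂ →
      δ (y 2) = 0 → δ x₁ = 0 → δ x₂ = 0 → (x₁ ≠ 0 ∨ x₂ ≠ 0) → ∀ η,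
      ζ ⬝ᵥ Cp L s₀ (jv η ![0, x₁, x₂]) *ᵥ ξ + ζ ⬝ᵥ Cp L s₀ (jv η w) *ᵥ dv δ ξ = 0 ∧
      ζ ⬝ᵥ Cp L s₀ (jv η ![0, x₁, x₂]) *ᵥ dv δ ξ = 0 := by
    intro δ x₁ x₂ hδ h₁ h₂ h₃ hx₁ hx₂ hx
    have hs0 : dv δ s₀ = 0 := by rw [hds, h₃, zero_smul]
    have hw1 : dv δ w = ![0, x₁, x₂] := by rw [hdw, h₁, h₂]
    have hw2 : dv δ ![0, x₁, x₂] = 0 := by
      funext a; fin_cases a <;> simp [dv, hx₁, hx₂]
    have base : ∀ i,
        ζ ⬝ᵥ Cp L s₀ (jv (Pi.single i 1) ![0, x₁, x₂]) *ᵥ ξ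
          + ζ ⬝ᵥ Cp L s₀ (jv (Pi.single i 1) w) *ᵥ dv δ ξ = 0 ∧
        ζ ⬝ᵥ Cp L s₀ (jv (Pi.single i 1) ![0, x₁, x₂]) *ᵥ dv δ ξ = 0 := by
      intro i
      obtain ⟨d1, d2, -⟩ := d123 δ (hb (Pi.single i 1))
      have e1 : dm δ (Cp L s₀ (jv (Pi.single i 1) w)) = Cp L s₀ (jv (Pi.single i 1) ![0, x₁, x₂]) := by
        rw [hδ.dm_Cp, hs0, Ms_zero_left, map_zero, zero_add, dv_jv _ (hde _ i), hw1]
      have e2 : dm δ (Cp L s₀ (jv (Pi.single i 1) ![0, x₁, x₂])) = 0 := by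
        rw [hδ.dm_Cp, hs0, Ms_zero_left, map_zero, zero_add, dv_jv _ (hde _ i), hw2, jv_zero,
          map_zero]
      rw [e1] at d1 d2
      rw [e2, zero_mulVec, zero_add] at d2
      refine ⟨by rw [← dotProduct_add, d1, dotProduct_zero], ?_⟩
      have f2 := F2_zero hA hδ h₁ h₂ hx₁ hx₂ hx (MY_isSymm _) (qf_Ms_jv q (Pi.single i 1) w)
      have g1 := congrArg (ζ ⬝ᵥ ·) d2
      have g2 := congrArg (dv δ (dv δ ξ) ⬝ᵥ ·) (hτ i)
      simp only [dotProduct_add, dotProduct_smul, smul_eq_mul, dotProduct_zero] at g1 g2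
      rw [dot_symm (Cp_symm L s₀ _) ζ (dv δ (dv δ ξ))] at g1
      have f2' : dv δ (dv δ ξ) ⬝ᵥ L.A (Ms q (jv (Pi.single i 1) w)) *ᵥ ξ = 0 := f2
      linarith
    intro η
    constructor
    · refine lin_jv_ext (F := fun η => ζ ⬝ᵥ Cp L s₀ (jv η ![0, x₁, x₂]) *ᵥ ξ
        + ζ ⬝ᵥ Cp L s₀ (jv η w) *ᵥ dv δ ξ) ⟨fun a b => ?_, fun c a => ?_⟩ (fun i => (base i).1) η
      · simp only [(jv_linear _).map_add, map_add, add_mulVec, dotProduct_add]; ring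
      · simp only [(jv_linear _).map_smul, map_smul, smul_mulVec, dotProduct_smul, smul_eq_mul]
        ring
    · refine lin_jv_ext (F := fun η => ζ ⬝ᵥ Cp L s₀ (jv η ![0, x₁, x₂]) *ᵥ dv δ ξ)
        ⟨fun a b => ?_, fun c a => ?_⟩ (fun i => (base i).2) η
      · simp only [(jv_linear _).map_add, map_add, add_mulVec, dotProduct_add]
      · simp only [(jv_linear _).map_smul, map_smul, smul_mulVec, dotProduct_smul]
  let O : (n → ℝ) → (Fin 8 → ℝ) →ₗ[ℝ] ℝ := fun v =>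
    { toFun := fun S => ζ ⬝ᵥ Cp L s₀ S *ᵥ v
      map_add' := fun S T => by simp only [map_add, add_mulVec, dotProduct_add]
      map_smul' := fun c S => by
        simp only [map_smul, smul_mulVec, dotProduct_smul, RingHom.id_apply] }
  have hO : ∀ v S, O v S = ζ ⬝ᵥ Cp L s₀ S *ᵥ v := fun _ _ => rfl
  have m1 := main (D 0) 1 0 (hK 0) (by simp [hDy]) (by simp [hDy]) (by simp [hDy]) (by simp)
    (by simp) (by simp)
  have m2 := main (D 1) 0 1 (hK 1) (by simp [hDy]) (by simp [hDy]) (by simp [hDy]) (by simp)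
    (by simp) (by simp)
  have m3 := main (D 0 + D 1) 1 1 hK' (by simp [hDy]) (by simp [hDy]) (by simp [hDy]) (by simp)
    (by simp) (by simp)
  refine hval (final_la (O ξ) (O (dv (D 0) ξ)) (O (dv (D 1) ξ)) (y 0) (y 1) (fun η => ?_)
    (fun η => (m1 η).1) (fun η => (m2 η).1) (fun η => (m1 η).2) (fun η => (m2 η).2) fun η => ?_)
  · rw [hO, hb, dotProduct_zero]
  · have h := (m3 η).2
    have e1 : jv η ![0, 1, 1] = jv η ![0, 1, 0] + jv η ![0, 0, 1] := by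
      funext i; fin_cases i <;> simp [jv]
    have e2 : dv (D 0 + D 1) ξ = dv (D 0) ξ + dv (D 1) ξ := by funext i; simp [dv]
    rw [e1, e2] at h
    simp only [map_add, add_mulVec, mulVec_add, dotProduct_add] at h
    simp only [hO]
    linarith [(m1 η).2, (m2 η).2]

end Crest.Agent.R237.SP
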