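import Crest.Agent.R237.SPCone
import Crest.Agent.R237.SPNon

/-! # S0368: the semidefinite lift and the non-spectrahedrality in coordinates -/

set_option autoImplicit false

namespace Crest.Agent.R237.SP

open Matrix Crest.Agent.R237.NS Crest.GeometryTopology

theorem psd_iff' {n : Type} [Fintype n] {X : Matrix n n ℝ} (hX : X.IsSymm) :
    X.PosSemidef ↔ ∀ w : n → ℝ, 0 ≤ ∑ a, ∑ b, w a * X a b * w b := by
  rw [posSemidef_iff_dotProduct_mulVec]
  simp only [quad_eq]
  exact ⟨fun h => h.2, fun h => ⟨by simpa [Matrix.IsHermitian] using hX.eq, h⟩⟩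

theorem lift_pad {n : Type} [Fintype n] [DecidableEq n] (ι : n ↪ Fin 100)
    (Λ : ((Fin 23 → ℝ) × (Fin 307 → ℝ)) →ₗ[ℝ] Matrix n n ℝ) (hs : ∀ p, (Λ p).IsSymm)
    (K : Set (Fin 23 → ℝ)) (hK : ∀ x, x ∈ K ↔ ∃ v, (Λ (x, v)).PosSemidef) :
    ∃ (A : Fin 23 → Matrix (Fin 100) (Fin 100) ℝ) (B : Fin 307 → Matrix (Fin 100) (Fin 100) ℝ),
      (∀ ν, (A ν).IsSymm) ∧ (∀ j, (B j).IsSymm) ∧
      K = {x | ∃ v : Fin 307 → ℝ, (∑ ν, x ν • A ν + ∑ j, v j • B j).PosSemidef} := by
  let E : Matrix (Fin 100) n ℝ := Matrix.of fun i a => if i = ι a then 1 else 0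
  have hsym : ∀ p, (E * Λ p * Eᵀ).IsSymm := by
    intro p
    rw [Matrix.IsSymm, transpose_mul, transpose_mul, transpose_transpose, (hs p).eq,
      Matrix.mul_assoc]
  have hsub : ∀ M : Matrix n n ℝ, (E * M * Eᵀ).submatrix ι ι = M := by
    intro M; ext a b
    simp [E, Matrix.mul_apply]
  refine ⟨fun ν => E * Λ (Pi.single ν 1, 0) * Eᵀ, fun j => E * Λ (0, Pi.single j 1) * Eᵀ,
    fun _ => hsym _, fun _ => hsym _, ?_⟩
  have key : ∀ (x : Fin 23 → ℝ) (v : Fin 307 → ℝ),
      ∑ ν, x ν • (E * Λ (Pi.single ν 1, 0) * Eᵀ) + ∑ j, v j • (E * Λ (0, Pi.single j 1) * Eᵀ)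
        = E * Λ (x, v) * Eᵀ := by
    intro x v
    have e : (x, v) = ∑ ν, x ν • ((Pi.single ν 1, 0) : (Fin 23 → ℝ) × (Fin 307 → ℝ))
        + ∑ j, v j • ((0, Pi.single j 1) : (Fin 23 → ℝ) × (Fin 307 → ℝ)) := by
      refine Prod.ext ?_ ?_
      · funext i
        simp [Prod.fst_sum, Finset.sum_apply, Pi.single_apply]
      · funext i
        simp [Prod.snd_sum, Finset.sum_apply, Pi.single_apply]
    rw [e]
    simp only [map_add, map_sum, map_smul, Matrix.mul_add, Matrix.add_mul, Matrix.mul_sum,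
      Matrix.sum_mul, Matrix.mul_smul, Matrix.smul_mul]
  ext x
  simp only [hK, Set.mem_ofPred_eq, key]
  refine exists_congr fun v => ⟨fun h => ?_, fun h => ?_⟩
  · have := h.mul_mul_conjTranspose_same E
    rwa [conjTranspose_eq_transpose_of_trivial] at this
  · have := h.submatrix ι
    rwa [hsub] at this

/-- the block `[[z, sᵀ], [s, Y]]` -/
def blk (z : ℝ) (s : Fin 8 → ℝ) (Y : Matrix (Fin 8) (Fin 8) ℝ) :
    Matrix (Option (Fin 8)) (Option (Fin 8)) ℝ :=
  Matrix.of fun a b => match a, b with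
    | none, none => z
    | none, some b => s b
    | some a, none => s a
    | some a, some b => Y a b

theorem blk_quad (z : ℝ) (s : Fin 8 → ℝ) (Y : Matrix (Fin 8) (Fin 8) ℝ) (w : Option (Fin 8) → ℝ) :
    ∑ a, ∑ b, w a * blk z s Y a b * w b = z * (w none * w none)
      + 2 * (∑ a, s a * w (some a)) * w none + ∑ a, ∑ b, w (some a) * Y a b * w (some b) := by
  simp only [Fintype.sum_option, blk, Matrix.of_apply, Finset.sum_add_distrib]
  have h1 : ∑ x, w none * s x * w (some x) = (∑ a, s a * w (some a)) * w none := by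
    rw [Finset.sum_mul]; exact Finset.sum_congr rfl fun a _ => by ring
  have h2 : ∑ x, w (some x) * s x * w none = (∑ a, s a * w (some a)) * w none := by
    rw [Finset.sum_mul]; exact Finset.sum_congr rfl fun a _ => by ring
  rw [h1, h2]; ring

theorem blk_symm (z : ℝ) (s : Fin 8 → ℝ) {Y : Matrix (Fin 8) (Fin 8) ℝ} (hY : Y.IsSymm) :
    (blk z s Y).IsSymm := by
  ext a b
  rcases a with _ | a <;> rcases b with _ | b <;> simp [blk, hY.apply]

theorem vv_quad (s y : Fin 8 → ℝ) :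
    ∑ a, ∑ b, y a * vecMulVec s s a b * y b = (∑ a, s a * y a) ^ 2 := by
  rw [sq, Finset.sum_mul_sum]
  exact Finset.sum_congr rfl fun a _ => Finset.sum_congr rfl fun b _ => by
    rw [vecMulVec_apply]; ring

theorem K0_iff_lift {X : Matrix (Fin 3) (Fin 3) ℝ} (hX : X.IsSymm) (z : ℝ) (s : Fin 8 → ℝ) :
    K0 X z s ↔ ∃ Y : Matrix (Fin 8) (Fin 8) ℝ, Y.IsSymm ∧ (blk z s Y).PosSemidef ∧
      (X - MYL Y).PosSemidef := by
  have hvs : (vecMulVec s s).IsSymm := by ext i j; simp [vecMulVec_apply, mul_comm]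
  constructor
  · rintro ⟨hz, h1, h2⟩
    refine ⟨z⁻¹ • vecMulVec s s, hvs.smul _, ?_, ?_⟩
    · rw [psd_iff' (blk_symm _ _ (hvs.smul _))]
      intro w
      rw [blk_quad]
      have e : ∑ a, ∑ b, w (some a) * (z⁻¹ • vecMulVec s s) a b * w (some b)
          = z⁻¹ * (∑ a, s a * w (some a)) ^ 2 := by
        rw [← vv_quad, Finset.mul_sum]
        refine Finset.sum_congr rfl fun a _ => ?_
        rw [Finset.mul_sum]
        exact Finset.sum_congr rfl fun b _ => by simp only [Matrix.smul_apply, smul_eq_mul]; ring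
      rw [e]
      rcases hz.eq_or_lt with h0 | h0
      · subst h0
        have hs : s = 0 := eq_zero_of_Mq fun u => by simpa using h2 u
        simp [hs]
      · have : z * (w none * w none) + 2 * (∑ a, s a * w (some a)) * w none
            + z⁻¹ * (∑ a, s a * w (some a)) ^ 2 = z⁻¹ * (z * w none + ∑ a, s a * w (some a)) ^ 2 := by
          field_simp; ring
        rw [this]; positivity
    · rw [map_smul, MYL_vecMulVec]
      refine (psd_iff (hX.sub ((MY_isSymm _).smul _))).2 fun w => ?_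
      change 0 ≤ qf (X - z⁻¹ • Mq s) w
      rw [qf_sub, qf_smul]
      rcases hz.eq_or_lt with h0 | h0
      · subst h0; simpa using h1 w
      · rw [sub_nonneg, inv_mul_le_iff₀ h0]; exact h2 w
  · rintro ⟨Y, hY, h1, h2⟩
    have hq := (psd_iff' (blk_symm z s hY)).1 h1
    simp only [blk_quad] at hq
    have hz : 0 ≤ z := by simpa using hq fun a => Option.casesOn a 1 fun _ => 0
    have hYp : Y.PosSemidef := h1.submatrix some
    have hS : (z • Y - vecMulVec s s).PosSemidef := by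
      rw [psd_iff' ((hY.smul z).sub hvs)]
      intro y
      have h3 := discrim_le_zero (a := z) (b := 2 * ∑ a, s a * y a)
        (c := ∑ a, ∑ b, y a * Y a b * y b) fun t => hq fun a => Option.casesOn a t y
      have e : ∑ a, ∑ b, y a * (z • Y - vecMulVec s s) a b * y b
          = z * (∑ a, ∑ b, y a * Y a b * y b) - (∑ a, s a * y a) ^ 2 := by
        rw [← vv_quad, Finset.mul_sum, ← Finset.sum_sub_distrib]
        refine Finset.sum_congr rfl fun a _ => ?_
        rw [Finset.mul_sum, ← Finset.sum_sub_distrib]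
        exact Finset.sum_congr rfl fun b _ => by
          simp only [Matrix.sub_apply, Matrix.smul_apply, smul_eq_mul]; ring
      rw [e]
      rw [discrim] at h3
      linarith
    have hsym : ∀ Z, (MYL Z).IsSymm := fun Z => MY_isSymm _
    have g1 := (psd_iff (hsym _)).1 (MYL_psd hYp)
    have g2 := (psd_iff (hsym _)).1 (MYL_psd hS)
    have g3 := (psd_iff (hX.sub (hsym _))).1 h2
    simp only [map_sub, map_smul, MYL_vecMulVec, qf_sub, qf_smul] at g2 g3
    refine ⟨hz, fun w => by linarith [g1 w, g3 w], fun w => ?_⟩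
    nlinarith [g2 w, mul_nonneg hz (g3 w)]

/-- position of the auxiliary variable `(a, b)` -/
def idx (a b : Fin 8) : Fin 307 := ⟨8 * a + b, by omega⟩

/-- the symmetric matrix of auxiliary variables -/
def Yof (v : Fin 307 → ℝ) : Matrix (Fin 8) (Fin 8) ℝ :=
  Matrix.of fun a b => v (idx a b) + v (idx b a)

theorem Yof_symm (v : Fin 307 → ℝ) : (Yof v).IsSymm := by
  ext a b; simp [Yof, add_comm]

theorem exists_Yof {Y : Matrix (Fin 8) (Fin 8) ℝ} (hY : Y.IsSymm) : ∃ v, Yof v = Y := by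
  refine ⟨fun j => Y ⟨(j / 8) % 8, by omega⟩ ⟨j % 8, by omega⟩ / 2, ?_⟩
  have h : ∀ a b : Fin 8, Y ⟨((idx a b : Fin 307) / 8) % 8, by omega⟩
      ⟨(idx a b : Fin 307) % 8, by omega⟩ = Y a b := by
    intro a b
    congr 1
    · ext; simp only [idx]; omega
    · ext; simp only [idx]; omega
  ext a b
  simp only [Yof, Matrix.of_apply, h, hY.apply a b]
  ring

theorem Xof_add (x y : Fin 23 → ℝ) : Xof (x + y) = Xof x + Xof y := by
  ext i j; fin_cases i <;> fin_cases j <;> simp [Xof]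

theorem Xof_smul (c : ℝ) (x : Fin 23 → ℝ) : Xof (c • x) = c • Xof x := by
  ext i j; fin_cases i <;> fin_cases j <;> simp [Xof]

theorem sof_add (x y : Fin 23 → ℝ) : sof (x + y) = sof x + sof y := by
  funext i; fin_cases i <;> simp [sof]

theorem sof_smul (c : ℝ) (x : Fin 23 → ℝ) : sof (c • x) = c • sof x := by
  funext i; fin_cases i <;> simp [sof]

theorem Yof_add (x y : Fin 307 → ℝ) : Yof (x + y) = Yof x + Yof y := by
  ext i j; simp [Yof]; ring

theorem Yof_smul (c : ℝ) (x : Fin 307 → ℝ) : Yof (c • x) = c • Yof x := by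
  ext i j; simp [Yof]; ring

/-- the lifted pencil -/
def Lam : ((Fin 23 → ℝ) × (Fin 307 → ℝ)) →ₗ[ℝ]
    Matrix (Option (Fin 8) ⊕ Fin 3) (Option (Fin 8) ⊕ Fin 3) ℝ where
  toFun p := fromBlocks (blk (p.1 6) (sof p.1) (Yof p.2)) 0 0 (Xof p.1 - MYL (Yof p.2))
  map_add' p q := by
    rw [fromBlocks_add, Prod.fst_add, Prod.snd_add, Xof_add, sof_add, Yof_add, map_add]
    congr 1
    · ext a b
      rcases a with _ | a <;> rcases b with _ | b <;> simp [blk]
    · simp
    · simp
    · abel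
  map_smul' c p := by
    rw [RingHom.id_apply, fromBlocks_smul, Prod.smul_fst, Prod.smul_snd, Xof_smul, sof_smul,
      Yof_smul, map_smul]
    congr 1
    · ext a b
      rcases a with _ | a <;> rcases b with _ | b <;> simp [blk]
    · simp
    · simp
    · rw [smul_sub]

theorem Lam_apply (x : Fin 23 → ℝ) (v : Fin 307 → ℝ) :
    Lam (x, v) = fromBlocks (blk (x 6) (sof x) (Yof v)) 0 0 (Xof x - MYL (Yof v)) := rfl

theorem Lam_symm (p : (Fin 23 → ℝ) × (Fin 307 → ℝ)) : (Lam p).IsSymm := by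
  obtain ⟨x, v⟩ := p
  rw [Lam_apply]
  exact Matrix.IsSymm.fromBlocks (blk_symm _ _ (Yof_symm v)) (by simp)
    ((Xof_isSymm x).sub (MY_isSymm _))

theorem Lam_psd (x : Fin 23 → ℝ) (v : Fin 307 → ℝ) : (Lam (x, v)).PosSemidef ↔
    (blk (x 6) (sof x) (Yof v)).PosSemidef ∧ (Xof x - MYL (Yof v)).PosSemidef := by
  constructor
  · intro h
    exact ⟨h.submatrix Sum.inl, h.submatrix Sum.inr⟩
  · rintro ⟨h1, h2⟩
    rw [psd_iff' (Lam_symm _)]
    intro w
    have g1 := (psd_iff' (blk_symm _ _ (Yof_symm v))).1 h1 (fun a => w (.inl a))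
    have g2 := (psd_iff' ((Xof_isSymm x).sub (MY_isSymm _))).1 h2 (fun a => w (.inr a))
    rw [Lam_apply]
    simp only [Fintype.sum_sum_type, fromBlocks_apply₁₁, fromBlocks_apply₁₂, fromBlocks_apply₂₁,
      fromBlocks_apply₂₂, Matrix.zero_apply, mul_zero, zero_mul, Finset.sum_const_zero, add_zero,
      zero_add]
    exact add_nonneg g1 g2

theorem exists_lift {k : ℕ} (hk : k ≠ 0) :
    ∃ (A : Fin 23 → Matrix (Fin 100) (Fin 100) ℝ) (B : Fin 307 → Matrix (Fin 100) (Fin 100) ℝ),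
      (∀ ν, (A ν).IsSymm) ∧ (∀ j, (B j).IsSymm) ∧
      Hyperbolic.closedCone (PP k) ee =
        {x | ∃ v : Fin 307 → ℝ, (∑ ν, x ν • A ν + ∑ j, v j • B j).PosSemidef} := by
  obtain ⟨ι⟩ : Nonempty ((Option (Fin 8) ⊕ Fin 3) ↪ Fin 100) :=
    Function.Embedding.nonempty_of_card_le (by simp)
  refine lift_pad ι Lam Lam_symm _ fun x => ?_
  rw [mem_cone_iff hk, K0_iff_lift (Xof_isSymm x)]
  simp only [Lam_psd]
  constructor
  · rintro ⟨Y, hY, h⟩
    obtain ⟨v, rfl⟩ := exists_Yof hY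
    exact ⟨v, h⟩
  · rintro ⟨v, h⟩
    exact ⟨_, Yof_symm v, h⟩

/-- coordinates of a point `(X, z, s)` -/
def pt (X : Matrix (Fin 3) (Fin 3) ℝ) (z : ℝ) (s : Fin 8 → ℝ) : Fin 23 → ℝ :=
  ![X 0 0, X 1 1, X 2 2, X 0 1, X 0 2, X 1 2, z, s 0, s 1, s 2, s 3, s 4, s 5, s 6, s 7,
    0, 0, 0, 0, 0, 0, 0, 0]

theorem pt_lin (a b : ℝ) (X X' : Matrix (Fin 3) (Fin 3) ℝ) (z z' : ℝ) (s s' : Fin 8 → ℝ) :
    pt (a • X + b • X') (a * z + b * z') (a • s + b • s') = a • pt X z s + b • pt X' z' s' := by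
  funext i; fin_cases i <;> simp [pt]

theorem not_spectrahedron {k : ℕ} (hk : k ≠ 0) (N : ℕ)
    (L : (Fin 23 → ℝ) →ₗ[ℝ] Matrix (Fin N) (Fin N) ℝ) (hL : ∀ x, (L x).IsSymm) :
    Hyperbolic.closedCone (PP k) ee ≠ {x | (L x).PosSemidef} := by
  intro h
  refine Pencil.false (n := Fin N)
    { A :=
        { toFun := fun X => L (pt X 0 0)
          map_add' := fun X X' => by
            have := pt_lin 1 1 X X' 0 0 0 0
            simp only [one_smul, mul_zero, add_zero, smul_zero] at this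
            rw [this, map_add]
          map_smul' := fun c X => by
            have := pt_lin c 0 X X 0 0 0 0
            simp only [zero_smul, mul_zero, add_zero, smul_zero] at this
            rw [this, map_smul]; rfl }
      D := L (pt 0 1 0)
      C :=
        { toFun := fun s => L (pt 0 0 s)
          map_add' := fun s s' => by
            have := pt_lin 1 1 0 0 0 0 s s'
            simp only [one_smul, mul_zero, add_zero, smul_zero] at this
            rw [this, map_add]
          map_smul' := fun c s => by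
            have := pt_lin c 0 0 0 0 0 s s
            simp only [zero_smul, mul_zero, add_zero, smul_zero] at this
            rw [this, map_smul]; rfl }
      symmA := fun _ => hL _
      symmD := hL _
      symmC := fun _ => hL _
      iff := fun X z s hX => ?_ }
  have e : pt X 0 0 + z • pt 0 1 0 + pt 0 0 s = pt X z s := by
    funext i; fin_cases i <;> simp [pt]
  have e1 : Xof (pt X z s) = X := by
    have h1 : X 1 0 = X 0 1 := hX.apply 0 1
    have h2 : X 2 0 = X 0 2 := hX.apply 0 2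
    have h3 : X 2 1 = X 1 2 := hX.apply 1 2
    ext i j; fin_cases i <;> fin_cases j <;> simp [Xof, pt, h1, h2, h3]
  have e2 : sof (pt X z s) = s := by
    funext i; fin_cases i <;> rfl
  have e3 : pt X z s 6 = z := rfl
  change (L (pt X 0 0) + z • L (pt 0 1 0) + L (pt 0 0 s)).PosSemidef ↔ _
  rw [← map_smul, ← map_add, ← map_add, e]
  have := mem_cone_iff hk (pt X z s)
  rw [h, e1, e2, e3] at this
  exact this

end Crest.Agent.R237.SP
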