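import Crest.Agent.R237.SPForm

/-! # S0368: rank one representation of the supporting functionals of a spectrahedral `K0` -/

set_option autoImplicit false
set_option linter.unusedSectionVars false

namespace Crest.Agent.R237.SP

open Matrix Crest.Agent.R237.NS

variable {n : Type} [Fintype n] [DecidableEq n]

/-- a symmetric linear pencil defining the cone `K0` -/
structure Pencil (n : Type) [Fintype n] where
  A : Matrix (Fin 3) (Fin 3) ℝ →ₗ[ℝ] Matrix n n ℝ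
  D : Matrix n n ℝ
  C : (Fin 8 → ℝ) →ₗ[ℝ] Matrix n n ℝ
  symmA : ∀ X, (A X).IsSymm
  symmD : D.IsSymm
  symmC : ∀ s, (C s).IsSymm
  iff : ∀ X z s, X.IsSymm → ((A X + z • D + C s).PosSemidef ↔ K0 X z s)

theorem psd_dom {A B : Matrix n n ℝ} (hA : A.PosSemidef) (hB : B.PosSemidef)
    (h : ∀ ξ, A *ᵥ ξ = 0 → B *ᵥ ξ = 0) : ∃ δ : ℝ, 0 < δ ∧ (A - δ • B).PosSemidef := by
  obtain ⟨C, hC⟩ := nsdual_sqrt hA
  obtain ⟨a, ha⟩ := nsdual_sqrt hB
  obtain ⟨k, hk⟩ := nsdual_factor (Matrix.toLin' Cᵀ) (Matrix.toLin' aᵀ) (by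
    intro ξ hξ
    rw [LinearMap.mem_ker, Matrix.toLin'_apply] at hξ ⊢
    have h1 : B *ᵥ ξ = 0 := h ξ (by rw [hC, ← mulVec_mulVec, hξ, mulVec_zero])
    have h2 : (aᵀ *ᵥ ξ) ⬝ᵥ (aᵀ *ᵥ ξ) = 0 := by
      rw [mulVec_transpose, ← dotProduct_mulVec, ← mulVec_transpose, mulVec_mulVec, ← ha, h1,
        dotProduct_zero]
    exact dotProduct_self_eq_zero.1 h2)
  set K := LinearMap.toMatrix' k with hK
  have hKC : K * Cᵀ = aᵀ := by
    apply Matrix.toLin'.injective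
    rw [Matrix.toLin'_mul, hK, Matrix.toLin'_toMatrix', hk]
  have ha' : a = C * Kᵀ := by
    rw [← transpose_transpose a, ← hKC, transpose_mul, transpose_transpose]
  obtain ⟨r, hr, hs⟩ := nsdual_shift (Y := -(Kᵀ * K)) (by simp [Matrix.IsSymm, transpose_mul])
  have h3 := hs.mul_mul_conjTranspose_same C
  rw [conjTranspose_eq_transpose_of_trivial] at h3
  have h4 : C * (r • (1 : Matrix n n ℝ) + -(Kᵀ * K)) * Cᵀ = r • A - B := by
    rw [hC, ha, ← hKC, ha']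
    simp only [Matrix.mul_add, Matrix.add_mul, Matrix.mul_smul, Matrix.smul_mul, Matrix.mul_one,
      Matrix.mul_neg, Matrix.neg_mul, Matrix.mul_assoc, sub_eq_add_neg]
  rw [h4] at h3
  have hpos : 0 < (r + 1)⁻¹ := by positivity
  refine ⟨(r + 1)⁻¹, hpos, ?_⟩
  have h5 := (h3.add hA).smul hpos.le
  have e : (r + 1)⁻¹ • (r • A - B + A) = A - (r + 1)⁻¹ • B := by
    have h6 : r • A - B + A = (r + 1) • A - B := by rw [add_smul, one_smul]; abel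
    rw [h6, smul_sub, smul_smul, inv_mul_cancel₀ (by positivity), one_smul]
  rwa [e] at h5

/-- symmetrised outer product -/
def sym2 (a b : Fin 3 → ℝ) : Matrix (Fin 3) (Fin 3) ℝ := vecMulVec a b + vecMulVec b a

theorem vv_isSymm (a : Fin 3 → ℝ) : (vecMulVec a a).IsSymm := by
  ext i j; simp [vecMulVec_apply, mul_comm]

theorem qf_vv (a w : Fin 3 → ℝ) : qf (vecMulVec a a) w = (a ⬝ᵥ w) ^ 2 := by
  simp [qf_eq, vecMulVec_apply, dotProduct, Fin.sum_univ_three]; ring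

theorem vv_lin (c : ℝ) (a b : Fin 3 → ℝ) :
    vecMulVec (a + c • b) (a + c • b) = vecMulVec a a + c • sym2 a b + c ^ 2 • vecMulVec b b := by
  ext i j; simp [vecMulVec_apply, sym2]; ring

theorem decomp {X : Matrix (Fin 3) (Fin 3) ℝ} (hX : X.IsSymm) (w₁ w₂ : ℝ) :
    X = qf X ![1, w₁, w₂] • vecMulVec ![1, 0, 0] ![1, 0, 0]
      + (X *ᵥ ![1, w₁, w₂]) 1 • sym2 ![1, 0, 0] ![-w₁, 1, 0]
      + (X *ᵥ ![1, w₁, w₂]) 2 • sym2 ![1, 0, 0] ![-w₂, 0, 1]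
      + X 1 1 • vecMulVec ![-w₁, 1, 0] ![-w₁, 1, 0]
      + X 2 2 • vecMulVec ![-w₂, 0, 1] ![-w₂, 0, 1]
      + X 1 2 • sym2 ![-w₁, 1, 0] ![-w₂, 0, 1] := by
  have h1 : X 1 0 = X 0 1 := hX.apply 0 1
  have h2 : X 2 0 = X 0 2 := hX.apply 0 2
  have h3 : X 2 1 = X 1 2 := hX.apply 1 2
  ext i j
  fin_cases i <;> fin_cases j <;>
    simp [qf_eq, sym2, Matrix.mulVec, dotProduct, Fin.sum_univ_three, h1, h2, h3] <;>
    ring

theorem K0_vv (a : Fin 3 → ℝ) : K0 (vecMulVec a a) 0 0 := by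
  refine ⟨le_rfl, fun w => by rw [qf_vv]; positivity, fun w => ?_⟩
  simp [qf_eq, Mq, MY, Fin.sum_univ_three]

theorem K0_Mq (s : Fin 8 → ℝ) : K0 (Mq s) 1 s :=
  ⟨zero_le_one, qf_Mq_nonneg s, fun w => by rw [one_mul]⟩

theorem lin_zero {a b : ℝ} (h : ∀ t : ℝ, 0 ≤ t * a + t ^ 2 * b) : a = 0 := by
  by_contra ha
  have h1 := h (-a / (|b| + 1))
  have h2 : 0 < |b| + 1 := by positivity
  have e : -a / (|b| + 1) * a + (-a / (|b| + 1)) ^ 2 * b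
      = -(a ^ 2 * ((|b| + 1) - b)) / (|b| + 1) ^ 2 := by field_simp; ring
  rw [e, le_div_iff₀ (by positivity), zero_mul, neg_nonneg] at h1
  have h3 : 0 < (|b| + 1) - b := by linarith [le_abs_self b]
  have : 0 < a ^ 2 * ((|b| + 1) - b) := by positivity
  linarith

theorem lin_zero' {a b : ℝ} (h : ∀ t : ℝ, 0 ≤ b + t * a) : a = 0 := by
  by_contra ha
  have h1 := h (-(|b| + 1) / a)
  rw [div_mul_cancel₀ _ ha] at h1
  linarith [le_abs_self b]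

theorem Pencil.psd_vv (L : Pencil n) (a : Fin 3 → ℝ) : (L.A (vecMulVec a a)).PosSemidef := by
  simpa using (L.iff _ 0 0 (vv_isSymm a)).2 (K0_vv a)

theorem Pencil.psd_Mq (L : Pencil n) (s : Fin 8 → ℝ) : (L.A (Mq s) + L.D + L.C s).PosSemidef := by
  simpa using (L.iff (Mq s) 1 s (MY_isSymm _)).2 (K0_Mq s)

theorem Pencil.exists_tight (L : Pencil n) (w₁ w₂ : ℝ) (s₀ : Fin 8 → ℝ) :
    ∃ ξ : n → ℝ, (∀ X : Matrix (Fin 3) (Fin 3) ℝ, X.IsSymm → ξ ⬝ᵥ L.A X *ᵥ ξ = qf X ![1, w₁, w₂]) ∧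
      (∀ s, ξ ⬝ᵥ L.C s *ᵥ ξ = -qf (Ms s₀ s) ![1, w₁, w₂]) ∧
      ξ ⬝ᵥ L.D *ᵥ ξ = qf (Mq s₀) ![1, w₁, w₂] := by
  set w : Fin 3 → ℝ := ![1, w₁, w₂] with hw
  set e₀ : Fin 3 → ℝ := ![1, 0, 0] with he₀
  set p₁ : Fin 3 → ℝ := ![-w₁, 1, 0] with hp₁
  set p₂ : Fin 3 → ℝ := ![-w₂, 0, 1] with hp₂
  have hp₁w : p₁ ⬝ᵥ w = 0 := by simp [hp₁, hw, dotProduct, Fin.sum_univ_three]
  have hp₂w : p₂ ⬝ᵥ w = 0 := by simp [hp₂, hw, dotProduct, Fin.sum_univ_three]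
  have hE : (L.A 1 + L.D).PosSemidef := by
    have := (L.iff 1 1 0 Matrix.isSymm_one).2 ⟨zero_le_one, fun v => by rw [qf_one]; positivity,
      fun v => by
        have : qf (Mq (0 : Fin 8 → ℝ)) v = 0 := by simp [qf_eq, Mq, MY, Fin.sum_univ_three]
        rw [this, qf_one]; positivity⟩
    simpa using this
  have h₀ := ((L.psd_Mq s₀).add (L.psd_vv p₁)).add (L.psd_vv p₂)
  obtain ⟨ξ, hξ0, hξE⟩ : ∃ ξ : n → ℝ, (L.A (Mq s₀) + L.D + L.C s₀ + L.A (vecMulVec p₁ p₁)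
      + L.A (vecMulVec p₂ p₂)) *ᵥ ξ = 0 ∧ (L.A 1 + L.D) *ᵥ ξ ≠ 0 := by
    by_contra hcon
    push Not at hcon
    obtain ⟨δ, hδ, hpsd⟩ := psd_dom h₀ hE hcon
    have hsym : (Mq s₀ + vecMulVec p₁ p₁ + vecMulVec p₂ p₂ - δ • (1 : Matrix (Fin 3) (Fin 3) ℝ)).IsSymm :=
      (((MY_isSymm _).add (vv_isSymm _)).add (vv_isSymm _)).sub (Matrix.isSymm_one.smul δ)
    have hK := (L.iff _ (1 - δ) s₀ hsym).1 (by
      convert hpsd using 1
      simp only [map_add, map_sub, map_smul, sub_smul, one_smul, smul_add]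
      abel)
    have h1 := hK.ell_nonneg w s₀
    rw [qf_sub, qf_add, qf_add, qf_vv, qf_vv, hp₁w, hp₂w, Ms_self, qf_smul, qf_smul, qf_one] at h1
    have h2 := qf_Mq_nonneg s₀ w
    have h3 : 0 < ∑ i, w i ^ 2 := by
      simp only [hw, Fin.sum_univ_three, Matrix.cons_val_zero, Matrix.cons_val_one,
        Matrix.cons_val_two, Matrix.head_cons, Matrix.tail_cons]
      positivity
    nlinarith [mul_pos hδ h3, mul_nonneg hδ.le h2]
  have hnn : ∀ {M : Matrix n n ℝ}, M.PosSemidef → 0 ≤ ξ ⬝ᵥ M *ᵥ ξ := fun h => by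
    simpa using h.dotProduct_mulVec_nonneg ξ
  let ψ : Matrix n n ℝ →ₗ[ℝ] ℝ :=
    { toFun := fun M => ξ ⬝ᵥ M *ᵥ ξ
      map_add' := fun M N => by simp [add_mulVec]
      map_smul' := fun c M => by simp [smul_mulVec] }
  have hψ : ∀ M, ψ M = ξ ⬝ᵥ M *ᵥ ξ := fun _ => rfl
  have hsum : ψ (L.A (Mq s₀) + L.D + L.C s₀) + ψ (L.A (vecMulVec p₁ p₁))
      + ψ (L.A (vecMulVec p₂ p₂)) = 0 := by
    rw [← map_add, ← map_add, hψ, hξ0, dotProduct_zero]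
  have n0 : 0 ≤ ψ (L.A (Mq s₀) + L.D + L.C s₀) := hnn (L.psd_Mq s₀)
  have nv : ∀ a, 0 ≤ ψ (L.A (vecMulVec a a)) := fun a => hnn (L.psd_vv a)
  have z0 : ψ (L.A (Mq s₀) + L.D + L.C s₀) = 0 := by linarith [nv p₁, nv p₂]
  have z1 : ψ (L.A (vecMulVec p₁ p₁)) = 0 := by linarith [nv p₁, nv p₂]
  have z2 : ψ (L.A (vecMulVec p₂ p₂)) = 0 := by linarith [nv p₁, nv p₂]
  have zs : ∀ a b, ψ (L.A (vecMulVec b b)) = 0 → ψ (L.A (sym2 a b)) = 0 := by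
    intro a b hb
    refine lin_zero' (b := ψ (L.A (vecMulVec a a))) fun t => ?_
    have := nv (a + t • b)
    rw [vv_lin] at this
    simpa [hb] using this
  set h := ψ (L.A (vecMulVec e₀ e₀)) with hh
  have hh0 : 0 ≤ h := nv e₀
  have hA : ∀ X : Matrix (Fin 3) (Fin 3) ℝ, X.IsSymm → ψ (L.A X) = qf X w * h := by
    intro X hX
    conv_lhs => rw [decomp hX w₁ w₂]
    simp only [map_add, map_smul, smul_eq_mul]
    rw [zs e₀ p₁ z1, zs e₀ p₂ z2, zs p₁ p₂ z2, z1, z2]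
    simp [hh, he₀, hw]
  have hC : ∀ s, ψ (L.C s) = -qf (Ms s₀ s) w * h := by
    intro s
    have : ψ (L.C s) + qf (Ms s₀ s) w * h = 0 := by
      refine lin_zero (b := qf (Mq s) w * h) fun t => ?_
      have h1 : 0 ≤ ψ _ := hnn (L.psd_Mq ((1 : ℝ) • s₀ + t • s))
      rw [Mq_lin] at h1
      simp only [map_add, map_smul, smul_eq_mul, one_smul] at h1 z0
      rw [hA (Ms s₀ s) (MY_isSymm _), hA (Mq s) (MY_isSymm _)] at h1
      linarith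
    linarith
  have hD : ψ L.D = qf (Mq s₀) w * h := by
    simp only [map_add] at z0
    rw [hA (Mq s₀) (MY_isSymm _), hC, Ms_self, qf_smul] at z0
    linarith
  have hpos : 0 < h := by
    refine lt_of_le_of_ne hh0 fun h0 => hξE ?_
    refine (hE.dotProduct_mulVec_zero_iff ξ).1 ?_
    have : ψ (L.A 1 + L.D) = 0 := by
      rw [map_add, hA 1 Matrix.isSymm_one, hD, ← h0]; ring
    rw [star_trivial]
    exact this
  have hsc : ∀ M : Matrix n n ℝ,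
      ((Real.sqrt h)⁻¹ • ξ) ⬝ᵥ M *ᵥ ((Real.sqrt h)⁻¹ • ξ) = h⁻¹ * ψ M := by
    intro M
    rw [mulVec_smul, dotProduct_smul, smul_dotProduct, hψ, smul_eq_mul, smul_eq_mul, ← mul_assoc,
      ← mul_inv, Real.mul_self_sqrt hh0]
  refine ⟨(Real.sqrt h)⁻¹ • ξ, fun X hX => ?_, fun s => ?_, ?_⟩
  · rw [hsc, hA X hX]; field_simp
  · rw [hsc, hC]; field_simp
  · rw [hsc, hD]; field_simp

end Crest.Agent.R237.SP
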